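import Vale.Agent.P097F.G.Defs
import Vale.Agent.P097F.N.Rel2

/-!
# P097F/G: the outer coordinates against the coordinates of the patch
-/

set_option linter.all false

noncomputable section

namespace Vale.Agent.P097F.G

open Filter Topology Set Metric Complex Vale.Agent.P097F.N
open Vale.Agent.P097EE (C2 LocB S_LOCZ S_LOCF)

/-- the coordinates are Lipschitz in the points of the level curves at clearance `σ` -/
theorem ac_low {g : ℂ → ℂ} {Ξ : C2 → C2} {P₀ : C2} {J₀ κ : ℂ} {r s B σ : ℝ}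
    (L : Lev g Ξ P₀ J₀ κ r s B) (σ0 : 0 ≤ σ) (σ1 : σ ≤ 1) {q q' : C2}
    (hq : q ∈ ball ((0, J₀) : C2) (2 * r)) (hq' : q' ∈ ball ((0, J₀) : C2) (2 * r))
    (h : σ ≤ ‖q.1‖) : σ ^ 3 * ‖q - q'‖ ≤ 2 * B ^ 4 / s * ‖Ξ q - Ξ q'‖ := by
  have s0 := L.s0
  have B1 := L.B1
  obtain ⟨a1, -, -, a4, a5, -⟩ := L.mem' hq
  have m : (Ξ q, q'.2) ∈ ball (P₀, J₀) s :=
    mem_ball_prod.2 ⟨a1, (mem_ball_prod.1 (L.mem' hq').2.2.2.2.2).2⟩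
  have sub : ball (Ξ q, q'.2) s ⊆ ball (P₀, J₀) (2 * s) :=
    ball_subset_ball' (by linarith [mem_ball.1 m])
  have d : ‖(Ξ q', q'.2) - (Ξ q, q'.2)‖ = ‖Ξ q - Ξ q'‖ := by
    simp [Prod.norm_def (_, (0 : ℂ)), norm_sub_rev]
  have k := (tay (D := Fm g) (y := (Ξ q', q'.2)) (fun u hu => (Fm_an (L.ag _
    (mem_ball_prod.1 (mem_ball_prod.1 (sub hu)).1).1)).differentiableAt.differentiableWithinAt)
    (fun u hu => L.bF u (sub hu)) (by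
      rw [mem_ball_iff_norm, d]
      linarith [norm_sub_le_norm_sub_add_norm_sub (Ξ q) P₀ (Ξ q'), norm_sub_rev P₀ (Ξ q'),
        mem_ball_iff_norm.1 (L.mem q hq).1, mem_ball_iff_norm.1 (L.mem q' hq').1])).2.1
  rw [d, (L.mem q' hq').2] at k
  have k0 := (norm_fst_le _).trans k
  have k1 := (norm_fst_le _).trans k0
  have k2 := (norm_snd_le _).trans k0
  simp only [Fm, Prod.fst_sub, Prod.snd_sub, a4, ← a5] at k1 k2
  rw [show 0 - (q'.2 * g (Ξ q).1 ^ 3 - q.2 * g (Ξ q).1 ^ 3) = g (Ξ q).1 ^ 3 * (q.2 - q'.2) by ring,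
    norm_mul, norm_pow] at k2
  rw [norm_sub_rev] at k1
  have e : 2 * B ^ 4 / s * ‖Ξ q - Ξ q'‖ = B ^ 3 * (2 * B / s * ‖Ξ q - Ξ q'‖) := by ring
  rw [e, Prod.norm_def, mul_max_of_nonneg _ _ (by positivity)]
  refine max_le (mul_le_mul ((pow_le_one₀ σ0 σ1).trans (one_le_pow₀ B1)) k1 (norm_nonneg _)
    (by positivity)) ?_
  calc _ ≤ (B * ‖g (Ξ q).1‖) ^ 3 * ‖q.2 - q'.2‖ := by
        gcongr
        · exact h.trans (L.g_lo hq).1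
        · exact le_rfl
    _ = B ^ 3 * (‖g (Ξ q).1‖ ^ 3 * ‖q.2 - q'.2‖) := by ring
    _ ≤ _ := by gcongr

/-- 9110 -/
theorem ac_of (K s B : ℝ) : ∃ ς₀ > 0, ∀ (ς ε C : ℝ) (D : Md) (c : ℕ) (θ : ℂ → ℂ) (Ξ : C2 → C2)
    (P₀ : C2) (ac : C2 → C2), ς < ς₀ → Mach K ς ε D → c < D.M → Cc θ ε D c Ξ P₀ s B →
    RelG θ ε Ξ (Jb D c 0) (D.ϱ c) C ac → AC (max C 1) ς ε D c ac := by
  refine ⟨1 / (|K| + 2 * B ^ 4 / |s| + 1), by positivity,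
    fun ς ε C D c θ Ξ P₀ ac h M hc H R => ?_⟩
  have L := H.lev
  have s0 := L.s0
  have s1 := L.s1
  have B1 := L.B1
  have r0 := L.r0
  have K1 := M.num.K1
  have ς0 := M.num.ς0
  have hε := M.num.eq
  rw [lt_div_iff₀ (by positivity), abs_of_pos s0, abs_of_pos (by linarith)] at h
  obtain ⟨W, hW⟩ : ∃ W, W = 2 * B ^ 4 / s := ⟨_, rfl⟩
  have BW : B ≤ W := by
    rw [hW, le_div_iff₀ s0]
    nlinarith [le_self_pow₀ B1 (show 4 ≠ 0 by norm_num)]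
  rw [← hW] at h
  have ς1 : ς ≤ 1 := by nlinarith
  have pw : ∀ n, n ≠ 0 → ς ^ n ≤ ς := fun n hn => pow_le_of_le_one ς0.le ς1 hn
  have ε0 : 0 < ε := by rw [hε]; positivity
  have m : ∀ q ∈ An (D.J c) (D.ϱ c) (ς ^ 10), q ∈ ball ((0, D.J c) : C2) (2 * D.ϱ c) ∧
      yd (gg θ ε) (D.Ξ c q) = Ξ q := fun q hq => by
    have a := ball_subset_ball (show D.ϱ c ≤ 2 * D.ϱ c by linarith) hq.1
    exact ⟨a, H.eΞ ▸ (L.la_xv a (norm_pos_iff.1 (lt_trans (by positivity) hq.2))).1⟩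
  refine ⟨fun q hq => R.an _ (H.eΞ ▸ L.ag _ (L.mem' (m q hq).1).2.1), fun q hq h1 h2 => ?_,
    fun q hq q' hq' => ?_, fun q hq q' hq' => ?_⟩
  · obtain ⟨u, v⟩ := R.rel (ς ^ 9) _ q (by
      have := (M.num.κ c hc).2.2.1
      refine le_of_mul_le_mul_left ?_ (show 0 < K by linarith)
      nlinarith [pw 9 (by norm_num)]) h1 h2 (m q hq).2
    rw [← pow_mul, ← H.eτ] at u
    exact ⟨u.trans (by gcongr; exact le_max_left _ _), v.trans (by gcongr; exact le_max_left _ _)⟩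
  · have a := R.lo (D.Ξ c q) (D.Ξ c q')
    rw [(m q hq).2, (m q' hq').2] at a
    have b := ac_low L (by positivity) (pow_le_one₀ ς0.le ς1) (m q hq).1 (m q' hq').1 hq.2.le
    rw [← hW] at b
    refine le_trans ?_ a
    calc _ = ς ^ 190 * ((ς ^ 10) ^ 3 * ‖q - q'‖) := by rw [hε]; ring
      _ ≤ ς * (W * ‖Ξ q - Ξ q'‖) := by gcongr; exact pw _ (by norm_num)
      _ ≤ _ := by
        rw [← mul_assoc]
        exact mul_le_of_le_one_left (norm_nonneg _) (by nlinarith)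
  · have a := R.up (D.Ξ c q) (D.Ξ c q')
    rw [(m q hq).2, (m q' hq').2, Complex.norm_real, Real.norm_of_nonneg ε0.le] at a
    have b := a.trans (L.lipΞ (m q hq).1 (m q' hq').1)
    have e1 : ε * B ≤ 1 := by nlinarith [hε ▸ pw 220 (by norm_num)]
    rw [sq, mul_assoc]
    refine (mul_le_mul_of_nonneg_left b ε0.le).trans ?_
    rw [← mul_assoc]
    exact mul_le_of_le_one_left (norm_nonneg _) e1

/-- the local system at an obstacle along the ultrafilter (the corrected row 9109) -/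
theorem ac_ev (hZ : S_LOCZ) (hF : S_LOCF) {𝒰 : Ultrafilter ℕ} {ε ς : ℕ → ℝ} {θ h Q : ℕ → ℂ → ℂ}
    {c₀ : ℕ → ℂ} {U : ℕ → Set ℂ} {g : ℂ → ℂ} {Lw : Set ℂ} {K s B r : ℝ} {D : ℕ → Md} {c : ℕ → ℕ}
    {Ξ : ℕ → C2 → C2} {P₀ : C2} {J₀ κ : ℂ} {L : ℕ → ℝ}
    (H : P097Mo.Seq 𝒰 (fun n => (ε n : ℂ)) θ h Q c₀ U g Lw) (hy : P₀.1 ∈ Lw) (S : Sp g P₀ J₀)
    (hs : Tendsto ς 𝒰 (𝓝 0))
    (ev : ∀ᶠ n in (𝒰 : Filter ℕ), Mach K (ς n) (ε n) (D n) ∧ c n < (D n).M ∧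
      Cc (θ n) (ε n) (D n) (c n) (Ξ n) P₀ s B ∧ (D n).J (c n) = J₀ ∧ (D n).κ (c n) = κ ∧
      (D n).ϱ (c n) = r)
    (hJ : Tendsto (fun n => Jb (D n) (c n) 0) 𝒰 (𝓝 J₀))
    (h1 : Tendsto (fun n => ‖(ε n : ℂ)‖ * L n) 𝒰 (𝓝 0)) (h2 : Tendsto L 𝒰 atTop) :
    ∃ (ac : ℕ → C2 → C2) (K' : ℝ), 1 ≤ K' ∧ LocB 𝒰 (fun n => (ε n : ℂ)) θ h U ac L ∧
      ∀ᶠ n in (𝒰 : Filter ℕ), AC K' (ς n) (ε n) (D n) (c n) (ac n) := by
  obtain ⟨ac, a1, a2⟩ := locB hZ hF H (κ := κ) (r := r) (s := s) (B := B) (Ξ := Ξ) hy S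
    (ev.mono fun n ⟨_, _, a, b, c, d⟩ => b ▸ c ▸ d ▸ a.lev) hJ h1 h2
  obtain ⟨ς₀, h0, k⟩ := ac_of K s B
  refine ⟨ac, max (22 * B ^ 8 / s ^ 2) 1, le_max_right _ _, a1, ?_⟩
  filter_upwards [ev, a2, hs.eventually_lt_const h0] with n ⟨a, b, c, _, _, d⟩ e f
  exact k _ _ _ _ _ _ _ _ _ f a b c (d ▸ e.2)

end Vale.Agent.P097F.G
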