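import Vale.Agent.P097F.G.Ac
import Vale.Agent.P097Mo.Bridge

/-!
# P097F/G: the type of an obstacle along the ultrafilter
-/

set_option linter.all false

noncomputable section

namespace Vale.Agent.P097F.G

open Filter Topology Set Metric Complex Vale.Agent.P097D Vale.Agent.P097F.N
open Vale.Agent.P097EE (acZ acF LocB S_LOCZ S_LOCF)
open Vale.Agent.P097Mo (Seq)

/-- the local system at an obstacle, for moving patches -/
theorem locM (hZ : S_LOCZ) (hF : S_LOCF) {𝒰 : Ultrafilter ℕ} {ε : ℕ → ℂ} {θ h Q : ℕ → ℂ → ℂ}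
    {c : ℕ → ℂ} {U : ℕ → Set ℂ} {g₀ : ℂ → ℂ} {Lw : Set ℂ} (H : Seq 𝒰 ε θ h Q c U g₀ Lw)
    {P₀ P₁ : ℂ × ℂ} {J₀ : ℂ} {J₁ κ : ℕ → ℂ} {r : ℕ → ℝ} {s B k₀ : ℝ} (hy : P₀.1 ∈ Lw)
    (S : Sp g₀ P₀ J₀) {Ξ : ℕ → ℂ × ℂ → ℂ × ℂ}
    (L : ∀ᶠ n in (𝒰 : Filter ℕ), N.Lev (gg (θ n) (ε n)) (Ξ n) P₁ (J₁ n) (κ n) (r n) s B)
    {J : ℕ → ℂ} (m : ∀ᶠ n in (𝒰 : Filter ℕ), ‖J n - J₁ n‖ < r n)
    (t : Tendsto (fun n => Ξ n (0, J n)) 𝒰 (𝓝 P₀)) (κ0 : 0 < k₀)
    (κ1 : ∀ᶠ n in (𝒰 : Filter ℕ), k₀ ≤ ‖κ n‖) {Ls : ℕ → ℝ}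
    (h1 : Tendsto (fun n => ‖ε n‖ * Ls n) 𝒰 (𝓝 0)) (h2 : Tendsto Ls 𝒰 atTop) :
    ∃ ac, LocB 𝒰 ε θ h U ac Ls ∧ ∀ᶠ n in (𝒰 : Filter ℕ),
      RelG (θ n) (ε n) (Ξ n) (J n) (r n) (22 * B ^ 8 / s ^ 2) (ac n) := by
  obtain ⟨n₀, L₀⟩ := L.exists
  have B1 := L₀.B1
  have s0 := L₀.s0
  have s1 := L₀.s1
  have t1 : Tendsto (fun n => (Ξ n (0, J n)).1) 𝒰 (𝓝 P₀.1) := (continuous_fst.tendsto _).comp t
  have t2 : Tendsto (fun n => (Ξ n (0, J n)).2) 𝒰 (𝓝 P₀.2) := (continuous_snd.tendsto _).comp t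
  have tg : Tendsto (fun n => gg (θ n) (ε n) (Ξ n (0, J n)).1) 𝒰 (𝓝 (g₀ P₀.1)) := H.cc _ hy _ t1
  have sm : ∀ a : ℝ, 0 < a → ∀ᶠ n in (𝒰 : Filter ℕ), ‖ε n‖ ≤ a := fun a ha =>
    (H.el.eventually (closedBall_mem_nhds 0 ha)).mono fun n h => by simpa using h
  have cB : 2 * B ≤ 22 * B ^ 8 / s ^ 2 := by
    rw [le_div_iff₀ (by positivity)]
    have := le_self_pow₀ B1 (show 8 ≠ 0 by norm_num)
    have : s ^ 2 ≤ 1 := pow_le_one₀ s0.le s1
    nlinarith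
  by_cases hz : g₀ P₀.1 = 0
  · have a0 : SS P₀.2 = 0 := by simpa [hz] using S.lev
    have a1 : sin P₀.2 ≠ 0 := fun e => by
      have c := sin_sq_add_cos_sq P₀.2
      have : cos P₀.2 = 0 := by simpa [SS, e, S.d0] using a0
      simp [e, this] at c
    have z1 : ∀ᶠ n in (𝒰 : Filter ℕ), gg (θ n) (ε n) (Ξ n (0, J n)).1 = 0 := by
      filter_upwards [L, m, ((continuous_sin.tendsto _).comp t2).eventually_ne a1] with n L m a
      exact (mul_eq_zero.1 (L.mem' (L.m0 m)).2.2.2.1).resolve_right a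
    have z2 := ev_eq (SS_der P₀.2) (mul_ne_zero S.d0 a1) t2 (by
      filter_upwards [L, m, z1] with n L m a
      simpa [a] using (L.mem' (L.m0 m)).2.2.2.2.1)
    choose k hk using fun n => IsAlgClosed.exists_pow_nat_eq
      (deriv (deriv (θ n)) (Ξ n (0, J n)).1 / (4 * P₀.2)) two_pos
    have hk' : ∀ n, 4 * P₀.2 * k n ^ 2 = deriv (deriv (θ n)) (Ξ n (0, J n)).1 := fun n => by
      rw [hk]; field_simp [S.d0]
    refine ⟨_, hZ 𝒰 ε θ h Q c U g₀ Lw P₀.1 P₀.2 _ k Ls H hy hz S.g1 S.d0 a0 t1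
      (z1.mono fun n a => ⟨(mul_eq_zero.1 a).resolve_left (H.e0 n), hk' n⟩) h1 h2, ?_⟩
    filter_upwards [L, m, z1, z2, sm (1 / (18 * B ^ 5)) (by positivity)] with n L m z1 z2 e1
    have hc : Ξ n (0, J n) = ((Ξ n (0, J n)).1, P₀.2) := Prod.ext rfl z2
    obtain ⟨c0, c1, c2, -⟩ := L.mem' (L.m0 m)
    have b1 := (L.bg _ c1).2
    obtain ⟨b2, b3, b4⟩ := L.bd _ c2
    have b5 := L.φ_bd c0
    have b6 := L.ne c0
    rw [z2] at b2 b3 b4 b5 b6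
    have d : Dn P₀.2 = 2 * P₀.2 * sin P₀.2 ^ 2 := by simp [Dn, a0]
    rw [gg_der, ← hk'] at b1 b5 b6
    rw [norm_inv, inv_le_iff_one_le_mul₀ (norm_pos_iff.2 b6), d] at b5
    simp only [norm_mul, norm_pow, Complex.norm_ofNat] at b1 b5
    have e0 := norm_nonneg (ε n)
    have B5 : 1 ≤ B ^ 5 := one_le_pow₀ B1
    rw [le_div_iff₀ (by positivity)] at e1
    have k1 : 1 ≤ ‖k n‖ := by
      by_contra c
      have c1 : ‖k n‖ ^ 2 ≤ 1 := pow_le_one₀ (norm_nonneg _) (not_le.1 c).le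
      have c2 : ‖k n‖ ^ 2 < 1 := pow_lt_one₀ (norm_nonneg _) (not_le.1 c) two_ne_zero
      have : 9 / 4 * B * (‖ε n‖ * (4 * ‖P₀.2‖ * ‖k n‖ ^ 2) * (2 * ‖P₀.2‖ * ‖sin P₀.2‖ ^ 2)) ≤
          9 / 4 * B * (‖ε n‖ * (4 * B * ‖k n‖ ^ 2) * (2 * B * B ^ 2)) := by gcongr
      nlinarith [sq_nonneg ‖k n‖]
    have k2 : ‖ε n‖ * ‖k n‖ ≤ 1 := by
      refine (pow_le_one_iff_of_nonneg (by positivity) two_ne_zero).1 ?_
      have p1 : ‖ε n‖ * ‖k n‖ ^ 2 * 1 ≤ ‖ε n‖ * ‖k n‖ ^ 2 * (B * ‖P₀.2‖) := by gcongr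
      have p2 : B * (‖ε n‖ * (4 * ‖P₀.2‖ * ‖k n‖ ^ 2)) ≤ B * B := by gcongr
      have p3 : ‖ε n‖ * ‖k n‖ ^ 2 ≤ B ^ 5 := by
        nlinarith [pow_le_pow_right₀ B1 (show 2 ≤ 5 by norm_num)]
      nlinarith [mul_le_mul_of_nonneg_left p3 e0]
    have tw := fun x w : ℂ => two_sd (a := k n) (b := 2) (x := x) (w := w) e0 k1 k2 (by simp)
      (by rw [Complex.norm_ofNat]; nlinarith)
    have df : ∀ p p', acZ (θ n) (k n) (Ξ n (0, J n)).1 P₀.2 (prs (ε n) p) -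
        acZ (θ n) (k n) (Ξ n (0, J n)).1 P₀.2 (prs (ε n) p') =
        (k n * (yd (gg (θ n) (ε n)) p - yd (gg (θ n) (ε n)) p').1,
          2 * (yd (gg (θ n) (ε n)) p - yd (gg (θ n) (ε n)) p').2) := fun p p' => by
      simp only [acZ_prs, Prod.mk_sub_mk, Prod.fst_sub, Prod.snd_sub]
      congr 1 <;> ring
    refine ⟨fun σ p q σr q1 q2 hp => ?_, fun p p' => ?_, fun p p' => ?_, fun p a => ?_⟩
    · obtain ⟨u, v⟩ := relZ L m hc z1 (hk' n) σr q1 q2 hp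
      exact ⟨u, v.trans (by gcongr; exact (norm_nonneg _).trans q1)⟩
    · rw [df]; exact (tw _ _).1
    · rw [df]; exact (tw _ _).2
    · simp only [acZ_prs]
      exact (analyticAt_const.mul ((analyticAt_fst.comp (yd_an a)).sub analyticAt_const)).prod
        (analyticAt_const.mul ((analyticAt_snd.comp (yd_an a)).sub analyticAt_const))
  · have a1 := S.ty.resolve_left hz
    obtain ⟨j, hj⟩ := Complex.sin_eq_zero_iff.1 a1
    have j0 : j ≠ 0 := by rintro rfl; exact S.d0 (by simpa using hj)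
    have g0 := norm_pos_iff.2 hz
    have z1 : ∀ᶠ n in (𝒰 : Filter ℕ), ‖g₀ P₀.1‖ / 2 < ‖gg (θ n) (ε n) (Ξ n (0, J n)).1‖ :=
      tg.norm.eventually (lt_mem_nhds (by linarith))
    have z2 := ev_eq (hasDerivAt_sin P₀.2) (fun e => by
      simpa [e, a1] using sin_sq_add_cos_sq P₀.2) t2 (by
      filter_upwards [L, m, z1] with n L m a
      exact (mul_eq_zero.1 (L.mem' (L.m0 m)).2.2.2.1).resolve_left
        (norm_pos_iff.1 (by linarith)))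
    choose ρ hρ using fun n => IsAlgClosed.exists_pow_nat_eq (-48 * P₀.2 *
      deriv (deriv (θ n)) (Ξ n (0, J n)).1 / deriv (θ n) (Ξ n (0, J n)).1 ^ 2) two_pos
    have hρ' : ∀ᶠ n in (𝒰 : Filter ℕ), ρ n ^ 2 * deriv (θ n) (Ξ n (0, J n)).1 ^ 2 =
        -48 * P₀.2 * deriv (deriv (θ n)) (Ξ n (0, J n)).1 := z1.mono fun n a => by
      rw [hρ, div_mul_cancel₀ _ (pow_ne_zero 2 (mul_ne_zero_iff.1
        (norm_pos_iff.1 (lt_trans (by linarith) a))).2)]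
    refine ⟨_, hF 𝒰 ε θ h Q c U g₀ Lw P₀.1 j _ ρ Ls H hy hz S.g1 j0 t1 (hj ▸ hρ') h1 h2, ?_⟩
    rw [← hj]
    filter_upwards [L, m, z1, z2, hρ', sm (1 / (2 * B ^ 3)) (by positivity),
      sm (‖g₀ P₀.1‖ ^ 2 * k₀ / 8) (by positivity), κ1] with n L m z1 z2 hρ' e1 e2 κ1
    have hc : Ξ n (0, J n) = ((Ξ n (0, J n)).1, P₀.2) := Prod.ext rfl z2
    obtain ⟨c0, c1, c2, -⟩ := L.mem' (L.m0 m)
    have b1 := (L.bg _ c1).1
    have b5 := L.φ_bd c0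
    have b6 := L.ne c0
    have b7 := L.lin _ c0
    rw [z2] at b5 b6 b7
    have d : Dn P₀.2 = -6 * P₀.2 := by
      have c := sin_sq_add_cos_sq P₀.2
      simp only [Dn, SS, a1] at c ⊢
      linear_combination (-6 * P₀.2) * c
    have e : ρ n ^ 2 * gg (θ n) (ε n) (Ξ n (0, J n)).1 ^ 2 *
        (deriv (gg (θ n) (ε n)) (Ξ n (0, J n)).1 * Dn P₀.2)⁻¹ = 8 * ε n := by
      rw [mul_inv_eq_iff_eq_mul₀ b6, gg_der, d, gg]
      linear_combination (ε n ^ 2) * hρ'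
    have b8 := norm_sub_norm_le (2 * κ n) (deriv (gg (θ n) (ε n)) (Ξ n (0, J n)).1 * Dn P₀.2)⁻¹
    rw [norm_sub_rev, norm_mul, Complex.norm_ofNat] at b8
    have e' := congrArg norm e
    generalize (deriv (gg (θ n) (ε n)) (Ξ n (0, J n)).1 * Dn P₀.2)⁻¹ = φ at *
    simp only [norm_mul, norm_pow, Complex.norm_ofNat] at e'
    have e0 := norm_pos_iff.2 (H.e0 n)
    have B3 : 1 ≤ B ^ 3 := one_le_pow₀ B1
    rw [le_div_iff₀ (by positivity)] at e1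
    have ρ0 : 0 < ‖ρ n‖ := by
      refine (norm_nonneg _).lt_of_ne fun c => ?_
      rw [← c] at e'
      linarith
    have k1 : ‖ρ n‖ ≤ 2 := by
      refine (pow_le_pow_iff_left₀ ρ0.le (by norm_num) two_ne_zero).1 ?_
      have p : ‖ρ n‖ ^ 2 * (‖g₀ P₀.1‖ / 2) ^ 2 * k₀ ≤
          ‖ρ n‖ ^ 2 * ‖gg (θ n) (ε n) (Ξ n (0, J n)).1‖ ^ 2 * ‖φ‖ := by gcongr; linarith
      refine le_of_mul_le_mul_right ?_ (show 0 < ‖g₀ P₀.1‖ ^ 2 * k₀ by positivity)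
      nlinarith
    have k2 : 2 * ‖ε n‖ ≤ ‖ρ n‖ := by
      refine (pow_le_pow_iff_left₀ (by positivity) ρ0.le two_ne_zero).1 ?_
      have p : ‖ρ n‖ ^ 2 * ‖gg (θ n) (ε n) (Ξ n (0, J n)).1‖ ^ 2 * ‖φ‖ ≤
          ‖ρ n‖ ^ 2 * B ^ 2 * (9 / 4 * B) := by gcongr
      refine le_of_mul_le_mul_right ?_ (show 0 < B ^ 3 by positivity)
      nlinarith [mul_le_mul_of_nonneg_left e1 e0.le]
    have tw := fun x w : ℂ => two_sd (a := 2 / ρ n) (b := 1) (x := x) (w := w) e0.le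
      (by rw [norm_div, Complex.norm_ofNat, one_le_div ρ0]; exact k1)
      (by rw [norm_div, Complex.norm_ofNat, ← mul_div_assoc, div_le_one ρ0]; linarith)
      (by simp) (by rw [norm_one]; nlinarith)
    have df : ∀ p p', acF (θ n) (ρ n) (Ξ n (0, J n)).1 P₀.2 (prs (ε n) p) -
        acF (θ n) (ρ n) (Ξ n (0, J n)).1 P₀.2 (prs (ε n) p') =
        (2 / ρ n * (yd (gg (θ n) (ε n)) p - yd (gg (θ n) (ε n)) p').2,
          1 * (yd (gg (θ n) (ε n)) p - yd (gg (θ n) (ε n)) p').1) := fun p p' => by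
      simp only [acF_prs, Prod.mk_sub_mk, Prod.fst_sub, Prod.snd_sub]
      congr 1 <;> ring
    refine ⟨fun σ p q σr q1 q2 hp => ?_, fun p p' => ?_, fun p p' => ?_, fun p a => ?_⟩
    · obtain ⟨u, v⟩ := relF L m hc a1 hρ' σr q1 q2 hp
      exact ⟨u, v.trans (by gcongr; exact (norm_nonneg _).trans q1)⟩
    · rw [df, Prod.norm_def, max_comm]; exact (tw _ _).1
    · rw [df, Prod.norm_def (yd _ _ - _), max_comm]; exact (tw _ _).2
    · simp only [acF_prs]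
      exact ((analyticAt_const.mul ((analyticAt_snd.comp (yd_an a)).sub analyticAt_const)).div_const
        (c := ρ n)).prod ((analyticAt_fst.comp (yd_an a)).sub analyticAt_const)

/-- 9109 -/
theorem ac (hZ : S_LOCZ) (hF : S_LOCF) : S_AC := by
  intro 𝒰 ε ς θ h Q c₀ U g Lw K s B D c Ξ P₀ L H hs ev h1 h2
  have m : ∀ᶠ n in (𝒰 : Filter ℕ), ‖Jb (D n) (c n) 0 - (D n).J (c n)‖ < (D n).ϱ (c n) := by
    filter_upwards [ev] with n ⟨M, hc, C⟩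
    have K1 := M.num.K1
    have e0 : 0 < ε n := M.num.eq ▸ pow_pos M.num.ς0 _
    have H0 : 0 < (D n).H := (pos_iff_pos_of_mul_pos ((pos_iff_pos_of_mul_pos
      (one_pos.trans_le M.num.H0)).1 (by linarith))).1 e0
    have r0 : 0 < (D n).r := (pos_iff_pos_of_mul_pos (one_pos.trans_le M.num.r0)).1 (by linarith)
    have := ((M.ck _ hc 0 (by rw [norm_zero]; linarith [M.num.HR])).1.mem _ (mem_ball_self r0)).2.2
    exact this.trans (by linarith [C.lev.r0])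
  obtain ⟨n₀, M₀, -, C₀⟩ := ev.exists
  have K1 := M₀.num.K1
  have s0 := C₀.lev.s0
  obtain ⟨⟨P, J⟩, ⟨p1, -⟩, t⟩ := ((isCompact_closedBall P₀ (s / 2)).prod
    (isCompact_closedBall (0 : ℂ) B)).ultrafilter_le_nhds'
    (𝒰.map fun n => (Ξ n (0, Jb (D n) (c n) 0), Jb (D n) (c n) 0)) (by
      rw [Ultrafilter.mem_map]
      filter_upwards [ev, m] with n ⟨_, _, C⟩ m
      have a := C.lev.m0 m
      have b := (norm_snd_le _).trans (C.lev.bF _ (ball_subset_ball (by linarith)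
        (C.lev.mem' a).2.2.2.2.2))
      exact ⟨ball_subset_closedBall (C.lev.mem _ a).1, mem_closedBall_zero_iff.2 b⟩)
  have t0 : Tendsto (fun n => Ξ n (0, Jb (D n) (c n) 0)) 𝒰 (𝓝 P) :=
    (continuous_fst.tendsto _).comp t
  have tJ : Tendsto (fun n => Jb (D n) (c n) 0) 𝒰 (𝓝 J) := (continuous_snd.tendsto _).comp t
  have t1 := (continuous_fst.tendsto _).comp t0
  have t2 := (continuous_snd.tendsto _).comp t0
  have hy : P.1 ∈ Lw := hs (mem_closedBall_iff_norm.2 (((norm_fst_le (P - P₀)).trans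
    (mem_closedBall_iff_norm.1 p1)).trans (by linarith)))
  have tg := H.cc _ hy _ t1
  have S : Sp g P J := by
    refine ⟨tendsto_nhds_unique_of_eventuallyEq (tJ.mul (tg.pow 3))
      (((SS_an _).continuousAt.tendsto.comp t2).const_mul 24) ?_, fun e => ?_, fun e => ?_,
      mul_eq_zero.1 (tendsto_nhds_unique_of_eventuallyEq
        (tg.mul ((continuous_sin.tendsto _).comp t2)) tendsto_const_nhds ?_)⟩
    · filter_upwards [ev, m] with n ⟨_, _, C⟩ m using (C.lev.mem' (C.lev.m0 m)).2.2.2.2.1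
    · have := ge_of_tendsto (b := 1) (t2.norm.const_mul B) (by
        filter_upwards [ev, m] with n ⟨_, _, C⟩ m using
          (C.lev.bd _ (C.lev.mem' (C.lev.m0 m)).2.2.1).2.1)
      simp only [e, norm_zero, mul_zero] at this
      linarith
    · have := ge_of_tendsto (b := 1) (((H.cc1 _ hy _ t1).mul
        ((Dn_an _).continuousAt.tendsto.comp t2)).norm.const_mul (9 / 4 * B)) (by
        filter_upwards [ev, m] with n ⟨_, _, C⟩ m
        have a := (C.lev.mem' (C.lev.m0 m)).1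
        have b := C.lev.φ_bd a
        rwa [norm_inv, inv_le_iff_one_le_mul₀ (norm_pos_iff.2 (C.lev.ne a)), gg_der] at b)
      simp only [e, zero_mul, norm_zero, mul_zero] at this
      linarith
    · filter_upwards [ev, m] with n ⟨_, _, C⟩ m using (C.lev.mem' (C.lev.m0 m)).2.2.2.1
  obtain ⟨ac, a1, a2⟩ := locM hZ hF H (k₀ := 1 / K) hy S (ev.mono fun n a => a.2.2.lev) m t0
    (by positivity) (ev.mono fun n a => by
      rw [div_le_iff₀' (by linarith)]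
      exact (a.1.num.κ _ a.2.1).1) h1 h2
  obtain ⟨ς₀, h0, k⟩ := ac_of K s B
  refine ⟨ac, max (22 * B ^ 8 / s ^ 2) 1, le_max_right _ _, a1, ?_⟩
  filter_upwards [ev, a2, H.el.norm.eventually_lt_const
    (show ‖(0 : ℂ)‖ < ς₀ ^ 220 by rw [norm_zero]; positivity)] with n ⟨a, b, c⟩ e f
  refine k _ _ _ _ _ _ _ _ _ (lt_of_pow_lt_pow_left₀ 220 h0.le ?_) a b c e
  rw [Complex.norm_real, a.num.eq] at f
  exact (le_abs_self _).trans_lt f

end Vale.Agent.P097F.G
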