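import Vale.Agent.P097F.N.Patch
import Vale.Agent.P097F.S.Defs

/-!
# P097F/G: the gates of one obstacle (definitions and statements)

One scale, `ε = ς ^ 220`, clearance `ς ^ 19 / ε`.  Conventions `sc`, `pr` of `P097F/S/Defs`.
-/

set_option linter.all false

noncomputable section

namespace Vale.Agent.P097F.G

open Filter Topology Set Metric Complex Vale.Agent.P097F.N
open Vale.Agent.P097EE (C2 sh Gate Chart Dp LocB S_LOCZ S_LOCF)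
open Vale.Agent.P097F.S (sc ep l1 hh KK)

/-- the first integral at the base point -/
def Jb (D : Md) (c : ℕ) (ζ : ℂ) : ℂ := (D.Λ c (D.Z (D.hi c, ζ))).2

/-- the state `p` is in the patch `c` on the leaf `ζ`, at the time `x` after the obstacle -/
structure At (K' ς ε : ℝ) (D : Md) (c : ℕ) (ζ x : ℂ) (p : C2) : Prop where
  mem : D.Λ c p ∈ An (D.J c) (D.ϱ c) (ς ^ 10)
  ri : D.Ξ c (D.Λ c p) = p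
  τ : ‖D.τ c (D.Λ c p) - ε * x‖ ≤ K' * ς ^ 20
  J : ‖(D.Λ c p).2 - Jb D c ζ‖ ≤ K' * ς ^ 20

/-- the passage up to the step `j`, both directions -/
def PasJ (K' ς ε : ℝ) (D : Md) : Prop := ∀ c < D.M, ∀ ζ t : ℂ, ‖ζ‖ < D.R → ‖t‖ ≤ D.m / 2 →
  ∀ j ≤ D.N c,
  ((∀ i ≤ j, ς ^ 19 / ε ≤ ‖t + i - D.ν ε c ζ‖) → ∀ q ∈ ball (D.Ct (D.hi c) ζ t) (ς ^ 20),
    AnalyticAt ℂ (D.T^[j]) q ∧ AnalyticAt ℂ (fun p => D.Λ c (D.T^[j] p)) q ∧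
      At K' ς ε D c ζ (t + j - D.ν ε c ζ) (D.T^[j] q)) ∧
  ((∀ i ≤ j, ς ^ 19 / ε ≤ ‖t + D.N c - i - D.ν ε c ζ‖) →
    ∀ q ∈ ball (D.Ct (D.lo (c + 1)) ζ t) (ς ^ 20),
    AnalyticAt ℂ (D.T'^[j]) q ∧ AnalyticAt ℂ (fun p => D.Λ c (D.T'^[j] p)) q ∧
      At K' ς ε D c ζ (t + D.N c - j - D.ν ε c ζ) (D.T'^[j] q))

/-- the position of the obstacle and the first integral are affine on the window -/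
def Nu (K' ς ε : ℝ) (D : Md) (c : ℕ) : Prop :=
  1 / (K' * ε) ≤ (D.ν ε c 0).re ∧ (D.ν ε c 0).re + 1 / (K' * ε) ≤ D.N c ∧
  D.m₀ - 8 * (ς ^ 19 / ε) ≤ (D.ν ε c 0).im ∧ ∀ ζ : ℂ, ε * ‖ζ‖ ≤ ς ^ 18 →
    ‖D.ν ε c ζ - D.ν ε c 0 - (D.sl ε c + I * D.m₁) * ζ‖ ≤ ς ^ 20 / ε ∧
    ‖D.ν ε c ζ - D.ν ε c 0‖ ≤ K' * ‖ζ‖ ∧ ‖Jb D c ζ - Jb D c 0‖ ≤ K' * (ε * ‖ζ‖)

/-- the true state follows the step maps up to two clearances from the obstacle -/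
def FolJ (ς ε : ℝ) (D : Md) (c : ℕ) : Prop := ∀ p : C2, |p.1.re| < 3 → ς * ‖p.2‖ ≤ 1 →
  20 * (ς ^ 19 / ε) < -p.1.im → -p.1.im < D.H → ∀ j ≤ D.N c,
  ((j : ℝ) + 2 * (ς ^ 19 / ε) ≤ (D.ν ε c 0).re →
    D.T^[j] (D.Zi (D.hi c) p) = D.Zi (D.hi c + j) p) ∧
  ((D.ν ε c 0).re + 2 * (ς ^ 19 / ε) ≤ D.N c - j →
    D.T'^[j] (D.Zi (D.lo (c + 1)) p) = D.Zi (D.lo (c + 1) - j) p)

/-- the outer coordinates `ac` of the last layer against the coordinates of the patch -/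
structure AC (K' ς ε : ℝ) (D : Md) (c : ℕ) (ac : C2 → C2) : Prop where
  an : ∀ q ∈ An (D.J c) (D.ϱ c) (ς ^ 10), AnalyticAt ℂ (fun p => ac (S.pr ε p)) (D.Ξ c q)
  rel : ∀ q ∈ An (D.J c) (D.ϱ c) (ς ^ 10), ‖q.1‖ ≤ ς ^ 9 → ‖q.2 - Jb D c 0‖ ≤ ς ^ 9 →
    ‖ε * (ac (S.pr ε (D.Ξ c q))).1 ^ 2 - D.τ c q‖ ≤ K' * ς ^ 27 ∧
      ‖(ac (S.pr ε (D.Ξ c q))).2‖ ≤ K' * ς ^ 9
  lo : ∀ q ∈ An (D.J c) (D.ϱ c) (ς ^ 10), ∀ q' ∈ An (D.J c) (D.ϱ c) (ς ^ 10),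
    ε * ‖q - q'‖ ≤ ‖ac (S.pr ε (D.Ξ c q)) - ac (S.pr ε (D.Ξ c q'))‖
  up : ∀ q ∈ An (D.J c) (D.ϱ c) (ς ^ 10), ∀ q' ∈ An (D.J c) (D.ϱ c) (ς ^ 10),
    ε ^ 2 * ‖ac (S.pr ε (D.Ξ c q)) - ac (S.pr ε (D.Ξ c q'))‖ ≤ ‖q - q'‖

/-- the sizes at an obstacle near the top -/
structure Sz (K ς ε A h lam : ℝ) (D : Md) (c : ℕ) : Prop where
  cM : c < D.M
  A1 : 1 ≤ A ∧ A ≤ 30
  h1 : 21 * (ς ^ 19 / ε) ≤ h ∧ h ≤ 40 * (ς ^ 19 / ε)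
  la : 1 ≤ K * lam ∧ lam ≤ K
  sl : |D.sl ε c| * lam ≤ 1
  top : (D.ν ε c 0).im - D.m₀ ≤ h / 2

/-- the distance of a gate from the obstacle -/
def ga (A h : ℝ) : ℕ := ⌈80 * A * h⌉₊

/-- the steps from the left station to the left gate -/
def n1 (ε A h : ℝ) (D : Md) (c : ℕ) : ℕ := ⌊(D.ν ε c 0).re⌋₊ - ga A h

/-- the steps from the right station back to the right gate -/
def n2 (ε A h : ℝ) (D : Md) (c : ℕ) : ℕ := D.N c - n1 ε A h D c - 2 * ga A h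

/-- the obstacle in the labels of the left gate -/
def xg (ε A h : ℝ) (D : Md) (c : ℕ) : ℂ := D.ν ε c 0 - I * D.m₀ - n1 ε A h D c

/-- the clean pair at the left gate -/
def PL (ε A h lam : ℝ) (D : Md) (c : ℕ) (q : C2) : C2 :=
  S.pr ε (D.T^[n1 ε A h D c] (D.C (D.hi c) (sc lam q)))

/-- the clean pair at the right gate -/
def PR (ε A h lam : ℝ) (D : Md) (c : ℕ) (q : C2) : C2 :=
  S.pr ε (D.T'^[n2 ε A h D c] (D.C (D.lo (c + 1)) (sc lam q)))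

/-- the true pair in the labels of the left gate -/
def ZG (ε A h lam : ℝ) (D : Md) (c : ℕ) (q : C2) : C2 :=
  S.pr ε (D.Zi (D.hi c + n1 ε A h D c) (sc lam q))

/-- the arithmetic of the gates -/
structure Ar (ε A h : ℝ) (D : Md) (c : ℕ) : Prop where
  sum : n1 ε A h D c + 2 * ga A h + n2 ε A h D c = D.N c
  ga1 : 80 * A * h ≤ ga A h ∧ (ga A h : ℝ) ≤ 80 * A * h + 1
  re : (ga A h : ℝ) ≤ (xg ε A h D c).re ∧ (xg ε A h D c).re ≤ ga A h + 1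
  im : |(xg ε A h D c).im| ≤ h / 2

/-- the gates -/
def Gt (K' ς ε A h lam : ℝ) (D : Md) (c : ℕ) (ac : C2 → C2) : Prop :=
  Gate (fun q => ac (PL ε A h lam D c q)) 1 (D.sl ε c * lam : ℝ) (xg ε A h D c) (10 * A * h)
    (K' * ς) ∧
  Gate (fun q => ac (PR ε A h lam D c q)) (-1) (D.sl ε c * lam : ℝ)
    (xg ε A h D c - (2 * ga A h : ℕ)) (10 * A * h) (K' * ς)

/-- the links on the deep box -/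
structure Lk (ε A h lam : ℝ) (D : Md) (c : ℕ) : Prop where
  L : ∀ q ∈ Dp h, ∀ p, D.C (D.hi c) (sc lam p) = D.Zi (D.hi c) (sc lam q) →
    PL ε A h lam D c p = ZG ε A h lam D c q
  R : ∀ q ∈ Dp h, ∀ p, D.C (D.lo (c + 1)) (sc lam p) = D.Zi (D.lo (c + 1)) (sc lam q) →
    PR ε A h lam D c p = ZG ε A h lam D c (sh q (2 * ga A h : ℕ))
  nL : ∀ q ∈ Dp h, ∀ k : ℕ, k ≤ 1 → ∃ p ∈ ball (sh q k) (1 / 2 : ℝ),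
    PL ε A h lam D c p = ZG ε A h lam D c (sh q k)
  nR : ∀ q ∈ Dp h, ∀ k : ℕ, k ≤ 1 → ∃ p ∈ ball (sh q (-k)) (1 / 2 : ℝ),
    PR ε A h lam D c p = ZG ε A h lam D c (sh q ((2 * ga A h : ℕ) - k))

/-- the patch `c` of the machine is the patch of the curve -/
structure Cc (θ : ℂ → ℂ) (ε : ℝ) (D : Md) (c : ℕ) (Ξ : C2 → C2) (P₀ : C2) (s B : ℝ) : Prop where
  lev : Lev (gg θ ε) Ξ P₀ (D.J c) (D.κ c) (D.ϱ c) s B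
  eΛ : D.Λ c = La (gg θ ε)
  eΞ : D.Ξ c = Xv (gg θ ε) Ξ
  eτ : D.τ c = clk (fq (gg θ ε) Ξ)

/-! ## the rows -/

/-- 9101 -/
def S_PJ : Prop := ∀ K : ℝ, ∃ K' ≥ 1, ∃ ς₀ > 0, ∀ ς ε D, ς < ς₀ → Mach K ς ε D → PasJ K' ς ε D

/-- 9102 -/
def S_NU : Prop := ∀ K : ℝ, ∃ K' ≥ 1, ∃ ς₀ > 0, ∀ ς ε A h lam D c, ς < ς₀ → Mach K ς ε D →
  LevO ς ε D → Sz K ς ε A h lam D c → Nu K' ς ε D c

/-- 9103 -/
def S_AR : Prop := ∀ K K' : ℝ, 1 ≤ K' → ∃ ς₀ > 0, ∀ ς ε A h lam D c, ς < ς₀ → Mach K ς ε D →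
  Sz K ς ε A h lam D c → Nu K' ς ε D c → Ar ε A h D c

/-- 9104 -/
def S_FOLJ : Prop := ∀ K K' c₀ : ℝ, 1 ≤ K' → 0 < c₀ → ∃ ς₀ > 0, ∀ ς ε D c, ς < ς₀ →
  Mach K ς ε D → c < D.M → Nu K' ς ε D c → PasJ K' ς ε D → S.Fol c₀ ς D → FolJ ς ε D c

/-- 9105 -/
def S_GT : Prop := ∀ K K' : ℝ, 1 ≤ K' → ∃ ς₀ > 0, ∀ ς ε A h lam D c ac, ς < ς₀ →
  Mach K ς ε D → Sz K ς ε A h lam D c → Nu K' ς ε D c → Ar ε A h D c → PasJ K' ς ε D →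
  AC K' ς ε D c ac → Gt K' ς ε A h lam D c ac

/-- 9106: the right gate in the coordinates of the patch expands -/
def S_EXP : Prop := ∀ K K' : ℝ, 1 ≤ K' → ∃ ς₀ > 0, ∀ ς ε A h lam D c, ς < ς₀ →
  Mach K ς ε D → Sz K ς ε A h lam D c → Nu K' ς ε D c → Ar ε A h D c → PasJ K' ς ε D →
  ∀ p₀ : C2, ‖p₀.1‖ ≤ 2 * h → ‖p₀.2‖ ≤ 3 * K → ∀ p ∈ ball p₀ ς, ∀ p' ∈ ball p₀ ς,
    ε * ς * ‖p - p'‖ ≤ ‖D.Λ c (D.T'^[n2 ε A h D c] (D.C (D.lo (c + 1)) p)) -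
      D.Λ c (D.T'^[n2 ε A h D c] (D.C (D.lo (c + 1)) p'))‖

/-- 9107 (from `S_EXP`) -/
def S_CHR : Prop := ∀ K K' : ℝ, 1 ≤ K' → ∃ ς₀ > 0, ∀ ς ε A h lam D c ac, ς < ς₀ →
  Mach K ς ε D → Sz K ς ε A h lam D c → Nu K' ς ε D c → Ar ε A h D c → PasJ K' ς ε D →
  AC K' ς ε D c ac → ∀ KE : ℝ, 1 / ε ^ 3 ≤ KE →
  Chart (fun q => ac (PR ε A h lam D c q)) (P097EE.Bx 3 (-h) 3 2) KE

/-- 9108 -/
def S_LK : Prop := ∀ K c₀ : ℝ, 0 < c₀ → ∃ ς₀ > 0, ∀ ς ε A h lam D c, ς < ς₀ →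
  Mach K ς ε D → Sz K ς ε A h lam D c → Ar ε A h D c → S.Fol c₀ ς D → FolJ ς ε D c →
  Lk ε A h lam D c

/-- 9109 (from `S_LOCZ`, `S_LOCF`): the type of the obstacle along the ultrafilter -/
def S_AC : Prop := ∀ (𝒰 : Ultrafilter ℕ) (ε ς : ℕ → ℝ) θ h Q c₀ U g Lw (K s B : ℝ)
  (D : ℕ → Md) (c : ℕ → ℕ) (Ξ : ℕ → C2 → C2) (P₀ : C2) (L : ℕ → ℝ),
  P097Mo.Seq 𝒰 (fun n => (ε n : ℂ)) θ h Q c₀ U g Lw → closedBall P₀.1 s ⊆ Lw →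
  (∀ᶠ n in (𝒰 : Filter ℕ), Mach K (ς n) (ε n) (D n) ∧ c n < (D n).M ∧
    Cc (θ n) (ε n) (D n) (c n) (Ξ n) P₀ s B) →
  Tendsto (fun n => ‖(ε n : ℂ)‖ * L n) 𝒰 (𝓝 0) → Tendsto L 𝒰 atTop →
  ∃ (ac : ℕ → C2 → C2) (K' : ℝ), 1 ≤ K' ∧ LocB 𝒰 (fun n => (ε n : ℂ)) θ h U ac L ∧
    ∀ᶠ n in (𝒰 : Filter ℕ), AC K' (ς n) (ε n) (D n) (c n) (ac n)

/-- **an obstacle near the top** -/
def S_NEAR : Prop := ∀ (𝒰 : Ultrafilter ℕ) (K K₁ K₂ c₁ lam s B : ℝ) (ς : ℕ → ℝ) θ h Q c₀ U g Lw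
  (D : ℕ → Md) (c : ℕ → ℕ) (i i' : ℕ → ℤ) (Ξ : ℕ → C2 → C2) (P₀ : C2) (b : ℕ),
  P097Mo.Seq 𝒰 (fun n => (ep (ς n) : ℂ)) θ h Q c₀ U g Lw → closedBall P₀.1 s ⊆ Lw →
  S.Run 𝒰 K K₁ K₂ c₁ lam ς D → S.Con 𝒰 K ς D θ h U → 3 ≤ b →
  (∀ᶠ n in (𝒰 : Filter ℕ), c n < (D n).M ∧ i n = (D n).hi (c n) ∧ i' n = (D n).lo (c n + 1) ∧
    (S.xi (ς n) (D n) (c n)).im ≤ 10 * l1 (ς n) ∧ |(D n).sl (ep (ς n)) (c n)| * lam ≤ 1 ∧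
    (|(D n).ω * i n| + (D n).C₁) * lam ≤ 2 ∧ (|(D n).ω * i' n| + (D n).C₁) * lam ≤ 2 ∧
    Cc (θ n) (ep (ς n)) (D n) (c n) (Ξ n) P₀ s B) →
  P097EE.NearE 𝒰 30 (fun n => hh (ς n)) (fun n => KK b (ς n)) (S.CE lam ς D i) (S.ZE lam ς D i)
    (S.CE lam ς D i') (S.ZE lam ς D i')

end Vale.Agent.P097F.G
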