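import Vale.Agent.P097F.G.Part
import Vale.Agent.P097F.G.Defs

/-!
# P097F.G: the right gate is a quantitative chart
-/

set_option linter.all false

noncomputable section

namespace Vale.Agent.P097F.G.Chr

open Filter Topology Set Metric Complex Vale.Agent.P097F.N
open Vale.Agent.P097EE (C2 Chart)
open Vale.Agent.P097F.S (sc)

section
variable {τ f : ℂ × ℂ → ℂ} {κ J₀ : ℂ} {ϱ K : ℝ}

/-- time and level control the coordinates of the patch away from the obstacle -/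
theorem low (C : Clk τ f κ J₀ ϱ) (K1 : 1 ≤ K) (k1 : 1 ≤ K * ‖κ‖) (k2 : ‖κ‖ ≤ K) (k3 : 1 ≤ K * ϱ)
    (k4 : ϱ ≤ 1) {q q' : C2} (a1 : ϱ / 8 < ‖q.1‖) (a2 : ‖q.1‖ < ϱ) (a3 : ‖q.2 - J₀‖ < ϱ)
    (h : ‖q' - q‖ ≤ ϱ / 32) :
    ‖q' - q‖ ≤ 24 * K ^ 3 * ‖((τ q', q'.2 - J₀) : C2) - (τ q, q.2 - J₀)‖ := by
  have r0 := C.r0
  obtain ⟨x, hx⟩ : ∃ x, x = ‖((τ q', q'.2 - J₀) : C2) - (τ q, q.2 - J₀)‖ := ⟨_, rfl⟩
  rw [← hx]
  have x1 : ‖τ q' - τ q‖ ≤ x := hx ▸ norm_fst_le (((τ q', q'.2 - J₀) : C2) - (τ q, q.2 - J₀))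
  have x2 : ‖q'.2 - q.2‖ ≤ x := by
    have := norm_snd_le (((τ q', q'.2 - J₀) : C2) - (τ q, q.2 - J₀))
    rwa [← hx, Prod.snd_sub, sub_sub_sub_cancel_right] at this
  have x0 : 0 ≤ x := (norm_nonneg _).trans x1
  have d1 : ‖q'.1 - q.1‖ ≤ ϱ / 32 := (norm_fst_le (q' - q)).trans h
  have d2 : ‖q'.2 - q.2‖ ≤ ϱ / 32 := (norm_snd_le (q' - q)).trans h
  have b1 : ‖q'.1‖ ≤ 5 / 4 * ‖q.1‖ := by linarith [norm_le_norm_sub_add q'.1 q.1]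
  have s := C.seg (a := q.1) (b := q'.1) (J := q.2) (m := 5 / 4 * ‖q.1‖) (by linarith)
    (by linarith [norm_nonneg q.1]) b1 (by linarith)
  have l := C.lipJ (η := q'.1) (J := q.2) (J' := q'.2) (by linarith) a3 (by linarith)
  have e1 : 7 / 4 * ‖q.1‖ ≤ ‖q'.1 + q.1‖ := by
    have := norm_sub_norm_le (2 * q.1) (q.1 - q'.1)
    rw [norm_mul, Complex.norm_ofNat, norm_sub_rev, show 2 * q.1 - (q.1 - q'.1) = q'.1 + q.1 by ring]
      at this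
    linarith
  have e2 : ‖κ * (q'.1 ^ 2 - q.1 ^ 2)‖ = ‖κ‖ * (‖q'.1 + q.1‖ * ‖q'.1 - q.1‖) := by
    rw [← norm_mul, ← norm_mul]
    congr 1
    ring
  have e3 : ‖κ * (q'.1 ^ 2 - q.1 ^ 2)‖ ≤ ‖τ q' - τ q‖ + ‖τ (q'.1, q'.2) - τ (q'.1, q.2)‖ +
      ‖τ (q'.1, q.2) - τ (q.1, q.2) - κ * (q'.1 ^ 2 - q.1 ^ 2)‖ := by
    refine le_trans (le_of_eq (congrArg _ ?_)) ((norm_sub_le _ _).trans
      (add_le_add_left (norm_sub_le _ _) _))
    simp only [Prod.mk.eta]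
    ring
  have n0 := norm_nonneg (q'.1 - q.1)
  have κ0 := norm_nonneg κ
  have e4 : ‖κ‖ * (7 / 4 * ‖q.1‖ * ‖q'.1 - q.1‖) ≤ ‖κ‖ * (‖q'.1 + q.1‖ * ‖q'.1 - q.1‖) := by
    gcongr
  have e5 : 2 * ‖κ‖ * ϱ * ‖q'.2 - q.2‖ ≤ 2 * K * 1 * x := by gcongr
  have e6 : ‖κ‖ * ‖q.1‖ * ‖q'.1 - q.1‖ ≤ 3 * K * x := by
    have := mul_nonneg (mul_nonneg κ0 (norm_nonneg q.1)) n0
    nlinarith
  have e7 : 1 ≤ 8 * K ^ 2 * (‖κ‖ * ‖q.1‖) := by
    have : 1 ≤ K * (8 * ‖q.1‖) := k3.trans (by gcongr; linarith)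
    nlinarith [mul_le_mul k1 this zero_le_one (by positivity)]
  have K3 : 1 ≤ K ^ 3 := one_le_pow₀ K1
  rw [Prod.norm_def]
  refine max_le ?_ (by rw [Prod.snd_sub]; nlinarith)
  rw [Prod.fst_sub]
  calc _ ≤ 8 * K ^ 2 * (‖κ‖ * ‖q.1‖) * ‖q'.1 - q.1‖ := le_mul_of_one_le_left n0 e7
    _ = 8 * K ^ 2 * (‖κ‖ * ‖q.1‖ * ‖q'.1 - q.1‖) := by ring
    _ ≤ 8 * K ^ 2 * (3 * K * x) := by gcongr
    _ = _ := by ring

/-- time and level are Lipschitz -/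
theorem upp (C : Clk τ f κ J₀ ϱ) (K1 : 1 ≤ K) (k2 : ‖κ‖ ≤ K) (k4 : ϱ ≤ 1) {q q' : C2}
    (a : q ∈ ball ((0, J₀) : C2) ϱ) (a' : q' ∈ ball ((0, J₀) : C2) ϱ) (h : ‖q' - q‖ < ϱ) :
    ‖((τ q', q'.2 - J₀) : C2) - (τ q, q.2 - J₀)‖ ≤ 5 * K * ‖q' - q‖ := by
  have r0 := C.r0
  obtain ⟨a1, a2⟩ := mem_bd.1 a
  obtain ⟨b1, -⟩ := mem_bd.1 a'
  have d1 : ‖q'.1 - q.1‖ ≤ ‖q' - q‖ := norm_fst_le (q' - q)
  have d2 : ‖q'.2 - q.2‖ ≤ ‖q' - q‖ := norm_snd_le (q' - q)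
  have n0 := norm_nonneg (q' - q)
  have s := C.seg (a := q.1) (b := q'.1) (J := q.2) (m := ϱ) (by linarith) a1.le b1.le
    (by linarith)
  have l := C.lipJ (η := q'.1) (J := q.2) (J' := q'.2) (by linarith) a2 (by linarith)
  have e2 : ‖κ * (q'.1 ^ 2 - q.1 ^ 2)‖ ≤ K * (2 * ‖q' - q‖) := by
    rw [show κ * (q'.1 ^ 2 - q.1 ^ 2) = κ * ((q'.1 + q.1) * (q'.1 - q.1)) by ring, norm_mul,
      norm_mul]
    have : ‖q'.1 + q.1‖ ≤ 2 := by linarith [norm_add_le q'.1 q.1]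
    gcongr
  have e3 : ‖τ q' - τ q‖ ≤ ‖τ (q'.1, q'.2) - τ (q'.1, q.2)‖ +
      ‖τ (q'.1, q.2) - τ (q.1, q.2) - κ * (q'.1 ^ 2 - q.1 ^ 2)‖ + ‖κ * (q'.1 ^ 2 - q.1 ^ 2)‖ := by
    refine le_trans (le_of_eq (congrArg _ ?_)) norm_add₃_le
    simp only [Prod.mk.eta]
    ring
  have e5 : 2 * ‖κ‖ * ϱ * ‖q'.2 - q.2‖ ≤ 2 * K * 1 * ‖q' - q‖ := by gcongr
  have e6 : ‖κ‖ * ϱ / 4 * ‖q'.1 - q.1‖ ≤ K * 1 / 4 * ‖q' - q‖ := by gcongr
  have e7 := mul_nonneg (zero_le_one.trans K1) n0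
  rw [Prod.norm_def]
  refine max_le (by rw [Prod.fst_sub]; linarith) ?_
  rw [Prod.snd_sub, sub_sub_sub_cancel_right]
  nlinarith

end

variable {K ς ε : ℝ} {D : Md}

theorem anC (A : Mach K ς ε D) {i : ℤ} (gi : D.Gap i) {p : C2} (hp : ‖p.2‖ < D.R) :
    AnalyticAt ℂ (D.C i) p := by
  have N := A.num
  obtain ⟨-, r0, -⟩ := nums N
  have h0 := Tb.hor N gi (z := 0) (by simp)
  rw [add_zero] at h0
  have aZ := (A.deep i p.2 h0.1 (Or.inl ⟨hp, h0.2⟩)).1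
  have a1 : AnalyticAt ℂ (fun q : C2 => D.Z (i, q.2)) p :=
    aZ.comp (f := fun q : C2 => ((i : ℂ), q.2)) (analyticAt_const.prod analyticAt_snd)
  have a2 : AnalyticAt ℂ D.tz p := analyticAt_fst.add (analyticAt_const.mul
    (analyticAt_const.add (analyticAt_const.mul analyticAt_snd)))
  exact ((A.gap i gi p.2 hp).1.an_Ch N.am (q := (D.tz p, D.Z (i, p.2)))
    (mem_ball_self (by linarith))).comp (f := fun q : C2 => (D.tz q, D.Z (i, q.2))) (a2.prod a1)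

/-- the position of the obstacle is Lipschitz -/
theorem nuL (A : Mach K ς ε D) {c : ℕ} (hc : c < D.M) {ζ : ℂ} (hζ : ‖ζ‖ < D.R) :
    ‖D.ν ε c ζ - D.ν ε c 0‖ ≤ K ^ 2 * ‖ζ‖ := by
  have N := A.num
  obtain ⟨ε0, -, R4, -⟩ := nums N
  obtain ⟨-, k2, -, k4⟩ := N.κ c hc
  have K1 := N.K1
  have R0 : 0 < D.R := (norm_nonneg _).trans_lt hζ
  have ϱ0 := (A.pat c hc).1.clk.r0
  have k := (tay (D := D.τ₀ c) (x := 0) (y := ζ) (ρ := D.R) (m := K / 2)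
    (fun z hz => (Lin.dif A hc (mem_ball_zero_iff.1 hz)).differentiableWithinAt) (fun z hz => by
      have g := (A.geo c hc z (mem_ball_zero_iff.1 hz)).2.2.2.1
      have : ‖D.κ c‖ * D.ϱ c ^ 2 ≤ K * 1 := by
        gcongr
        exact pow_le_one₀ ϱ0.le k4
      have : 0 ≤ ε * D.m := by positivity
      linarith) (mem_ball_zero_iff.2 hζ)).2.1
  rw [sub_zero] at k
  rw [Md.ν, Md.ν, ← sub_div, norm_div, norm_real, Real.norm_of_nonneg ε0.le, neg_sub_neg,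
    norm_sub_rev, div_le_iff₀ ε0]
  refine k.trans ?_
  rw [mul_right_comm]
  refine mul_le_mul_of_nonneg_right ?_ (norm_nonneg _)
  rw [div_le_iff₀ R0]
  nlinarith

/-- the sizes -/
theorem siz (N : Num K ς ε D) (s : 100000 * K ^ 10 * ς ≤ 1) : Sm K ς ∧ 6 * K ^ 3 ≤ ς ^ 19 / ε ∧
    100 * K * (ε * (ς ^ 19 / ε)) ≤ 1 ∧ 100 * K * ε ≤ ς ∧ ς ≤ 1 / 1000 := by
  have K1 := N.K1
  have ς0 := N.ς0
  have ε0 := (nums N).1
  have S : Sm K ς := ⟨K1, ς0, le_trans (by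
    have : K ^ 6 ≤ K ^ 10 := pow_le_pow_right₀ K1 (by norm_num)
    gcongr
    norm_num) s⟩
  refine ⟨S, ?_, ?_, ?_, ?_⟩
  · rw [le_div_iff₀ ε0, N.eq]
    have := S.mul 3 (by norm_num) (a := 19) (b := 220) (by norm_num)
    have : 0 ≤ K ^ 3 * ς ^ 220 := by positivity
    linarith
  · rw [mul_div_cancel₀ _ ε0.ne']
    have := S.mul 1 (by norm_num) (a := 0) (b := 19) (by norm_num)
    have : 0 ≤ K * ς ^ 19 := by positivity
    linarith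
  · rw [N.eq]
    have := S.mul 1 (by norm_num) (a := 1) (b := 220) (by norm_num)
    have : 0 ≤ K * ς ^ 220 := by positivity
    linarith
  · have := S.pw 0 (by norm_num)
    linarith

/-- the labels near the right gate -/
theorem loc (A : Mach K ς ε D) (s : 100000 * K ^ 10 * ς ≤ 1) {c n : ℕ} (hc : c < D.M)
    (hn : n ≤ D.N c) (hg : (D.ν ε c 0).re + 90 * (ς ^ 19 / ε) ≤ D.N c - n) {p₀ p : C2}
    (h1 : ‖p₀.1‖ ≤ 80 * (ς ^ 19 / ε)) (h2 : ‖p₀.2‖ ≤ 3 * K)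
    (hp : p ∈ ball p₀ (ς ^ 19 / ε / (4 * K ^ 2))) : ‖p.2‖ < D.R ∧ ‖p‖ ≤ 2 * D.H ∧
      D.C (D.lo (c + 1)) p ∈ ball (D.Z (D.lo (c + 1), p.2)) D.r ∧ ∀ j ≤ n,
      Ps D.T' (D.Λ c) (D.Ξ c) (D.τ c) (D.J c) (D.ϱ c) (ς ^ 10) (53 * K ^ 3 * ς ^ 20)
        (D.C (D.lo (c + 1)) p) j (ε * (D.tz p + D.N c - j - D.ν ε c p.2)) (Jz D c p.2) := by
  have N := A.num
  obtain ⟨S, l1, l2, -, -⟩ := siz N s
  obtain ⟨ε0, r0, R4, n4, -, nm⟩ := nums N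
  have K1 := N.K1
  have H0 := N.H0
  obtain ⟨l, hl⟩ : ∃ l, l = ς ^ 19 / ε := ⟨_, rfl⟩
  rw [← hl] at hg h1 hp l1 l2
  have K2 : 1 ≤ K ^ 2 := one_le_pow₀ K1
  have K3 : K ^ 2 * K = K ^ 3 := by ring
  have K4 : K ≤ K ^ 3 := by nlinarith
  have l0 : 0 < l := by nlinarith
  obtain ⟨ρ, hρ⟩ : ∃ ρ, ρ = l / (4 * K ^ 2) := ⟨_, rfl⟩
  rw [← hρ, mem_ball, dist_eq_norm] at hp
  have ρ1 : K ^ 2 * ρ = l / 4 := by rw [hρ]; field_simp
  have ρ0 : 0 < ρ := (norm_nonneg _).trans_lt hp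
  have ρ2 : ρ ≤ l / 4 := by nlinarith
  have a1 : ‖p.1‖ ≤ 81 * l := by
    have := norm_fst_le (p - p₀)
    rw [Prod.fst_sub] at this
    linarith [norm_le_norm_sub_add p.1 p₀.1]
  have a2 : ‖p.2‖ ≤ 3 * K + ρ := by
    have := norm_snd_le (p - p₀)
    rw [Prod.snd_sub] at this
    linarith [norm_le_norm_sub_add p.2 p₀.2]
  have a3 : K ^ 2 * ‖p.2‖ ≤ l := by nlinarith [mul_le_mul_of_nonneg_left a2 (sq_nonneg K)]
  have z0 := norm_nonneg p.2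
  have a4 : K * ‖p.2‖ ≤ l := le_trans (by gcongr; nlinarith) a3
  have a5 : ‖p.2‖ ≤ l := by nlinarith
  have Kε : 0 < K * ε := by positivity
  have b1 : 100 * l ≤ D.H := le_of_mul_le_mul_left (by nlinarith) Kε
  have b2 : 400 * l ≤ D.R := by linarith [N.HR]
  have b3 : 400 * l ≤ D.n := by linarith [N.Rn]
  have hζ : ‖p.2‖ < D.R := by linarith
  have m1 : ‖(D.m₁ : ℂ) * p.2‖ ≤ l := by
    rw [norm_mul, norm_real, Real.norm_eq_abs]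
    exact (mul_le_mul_of_nonneg_right N.m1 z0).trans a4
  have ht : ‖D.tz p‖ ≤ D.m / 2 := by
    have e1 := norm_add_le p.1 (I * (D.m₀ + D.m₁ * p.2))
    have e2 := norm_add_le (D.m₀ : ℂ) (D.m₁ * p.2)
    rw [norm_mul, norm_I, one_mul] at e1
    rw [norm_real, Real.norm_of_nonneg (by linarith [N.m0.1])] at e2
    unfold Md.tz
    linarith [N.m0.2]
  have hq := mem_ball_self (x := D.Ct (D.lo (c + 1)) p.2 (D.tz p)) (pow_pos N.ς0 20)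
  refine ⟨hζ, norm_prod_le_iff.2 ⟨by linarith, by linarith⟩,
    (start A S hc (gapR N hc) hζ ht (A.ck c hc _ hζ).2 hq).1,
    partR A S hc hζ ht hn (fun j hj => ?_) hq⟩
  rw [← hl]
  refine le_trans ?_ (re_le_norm _)
  have j1 : (j : ℝ) ≤ n := by exact_mod_cast hj
  have v1 := (abs_le.1 ((abs_re_le_norm _).trans (nuL A hc hζ))).2
  have v2 := (abs_le.1 ((abs_re_le_norm _).trans a1)).1
  have v3 := (abs_le.1 ((abs_im_le_norm _).trans m1)).2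
  have e : (D.tz p).re = p.1.re - ((D.m₁ : ℂ) * p.2).im := by
    simp [Md.tz]
    ring
  rw [sub_re] at v1
  simp only [sub_re, add_re, natCast_re, e]
  linarith

/-- the right gate in the coordinates of the patch -/
def Ψ (D : Md) (c j : ℕ) (p : C2) : C2 := D.Λ c (D.T'^[j] (D.C (D.lo (c + 1)) p))

theorem dif (A : Mach K ς ε D) (s : 100000 * K ^ 10 * ς ≤ 1) {c n : ℕ} (hc : c < D.M)
    (hn : n ≤ D.N c) (hg : (D.ν ε c 0).re + 90 * (ς ^ 19 / ε) ≤ D.N c - n) {p₀ : C2}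
    (h1 : ‖p₀.1‖ ≤ 80 * (ς ^ 19 / ε)) (h2 : ‖p₀.2‖ ≤ 3 * K) :
    ∀ j ≤ n, DifferentiableOn ℂ (Ψ D c j) (ball p₀ (ς ^ 19 / ε / (4 * K ^ 2))) := by
  intro j
  induction j with
  | zero =>
    intro _ p hp
    obtain ⟨a, -, b, -⟩ := loc A s hc hn hg h1 h2 hp
    exact (((A.ck c hc _ a).2.an _ b).comp (anC A (gapR A.num hc) a)).differentiableAt
      |>.differentiableWithinAt
  | succ j ih =>
    intro hj
    refine ((A.pat c hc).2.stp.an.comp (ih (by omega)) fun p hp =>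
      ((loc A s hc hn hg h1 h2 hp).2.2.2 j (by omega)).mem).congr fun p hp => ?_
    have := ((loc A s hc hn hg h1 h2 hp).2.2.2 j (by omega)).ri
    simp only [Ψ, Function.comp_apply, Function.iterate_succ_apply', this]

theorem fin1 {K ς ε x y g₀ g₁ : ℝ} (K1 : 1 ≤ K) (ς0 : 0 < ς) (ε0 : 0 < ε) (x0 : 0 ≤ x)
    (y0 : 0 ≤ y) (s : 100000 * K ^ 10 * ς ≤ 1) (s' : 1000 * K ^ 6 * ς ≤ 1)
    (w4 : g₁ ≤ 5 * K * y) (w5 : g₀ ≤ g₁ + 1696 * K ^ 5 * ς * ε * x)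
    (w6 : ε * x ≤ 24 * K ^ 5 * g₀) : ε * ς * x ≤ y := by
  have w7 : ε * x ≤ 24 * K ^ 5 * (5 * K * y + 1696 * K ^ 5 * ς * ε * x) :=
    w6.trans (by gcongr; linarith)
  have w8 : 100000 * K ^ 10 * ς * (ε * x) ≤ 1 * (ε * x) := by gcongr
  have w9 : ε * x ≤ 240 * K ^ 6 * y := by
    have : 0 ≤ ε * x := by positivity
    nlinarith
  have w10 : 1000 * K ^ 6 * ς * y ≤ 1 * y := by gcongr
  have : 0 ≤ K ^ 6 * ς * y := by positivity
  nlinarith [mul_le_mul_of_nonneg_left w9 ς0.le]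

theorem fin0 {K ς ϱ x y z : ℝ} (K1 : 1 ≤ K) (ς0 : 0 < ς) (k4 : ϱ ≤ 1) (x0 : 0 ≤ x)
    (x1 : x < 2 * ς) (q2 : 1000 * K ^ 2 * ς ≤ 1) (q1 : y ≤ 4 * ϱ * x) (w2 : z ≤ K * y) :
    z * K < 1 := by
  have q3 : 4 * ϱ * x ≤ 4 * 1 * (2 * ς) := by gcongr
  have q4 := mul_le_mul_of_nonneg_left (q1.trans q3) (sq_nonneg K)
  nlinarith [mul_le_mul_of_nonneg_left w2 (zero_le_one.trans K1)]

theorem fin2 {K ς ε KE x y z w : ℝ} (K1 : 1 ≤ K) (ς0 : 0 < ς) (ε0 : 0 < ε) (x0 : 0 ≤ x)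
    (KE0 : 0 < KE) (KE1 : 1 ≤ KE * ε ^ 3) (b2 : 100 * K * ε ≤ ς) (s1 : ς ≤ 1 / 1000)
    (a1 : ε * z ≤ y) (a2 : ε ^ 2 * y ≤ z) (t1 : ε * ς * w ≤ z) (t2 : z ≤ 4 * w) (d1 : w ≤ K * x)
    (d2 : x ≤ K * w) : x ≤ KE * y ∧ y ≤ KE * x := by
  have K0 : 0 < K := by linarith
  have Kε : 0 < K * ε := by positivity
  constructor
  · have e1 : ε ^ 2 * ς * x ≤ K * y := by
      calc _ ≤ ε ^ 2 * ς * (K * w) := by gcongr
        _ = K * (ε * (ε * ς * w)) := by ring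
        _ ≤ K * (ε * z) := by gcongr
        _ ≤ _ := by gcongr
    have e0 : K * ε ≤ ς := by linarith
    have e2 : K * (ε ^ 3 * x) ≤ K * y := by
      refine le_trans ?_ e1
      calc _ = ε ^ 2 * (K * ε) * x := by ring
        _ ≤ _ := by gcongr
    have e3 := le_of_mul_le_mul_left e2 K0
    calc x ≤ KE * ε ^ 3 * x := le_mul_of_one_le_left x0 KE1
      _ = KE * (ε ^ 3 * x) := by ring
      _ ≤ _ := by gcongr
  · have e1 : ε ^ 2 * y ≤ 4 * K * x := by linarith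
    have e0 : 4 * K * ε ≤ 1 := by linarith
    refine le_of_mul_le_mul_left ?_ (pow_pos ε0 3)
    calc _ = ε * (ε ^ 2 * y) := by ring
      _ ≤ ε * (4 * K * x) := by gcongr
      _ = 4 * K * ε * x := by ring
      _ ≤ KE * ε ^ 3 * x := mul_le_mul_of_nonneg_right (e0.trans KE1) x0
      _ = _ := by ring

theorem sd {K lam : ℝ} (K1 : 1 ≤ K) (l0 : 0 < lam) (l1 : 1 ≤ K * lam) (l2 : lam ≤ K) (u u' : C2) :
    ‖sc lam u - sc lam u'‖ ≤ K * ‖u - u'‖ ∧ ‖u - u'‖ ≤ K * ‖sc lam u - sc lam u'‖ := by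
  have e : sc lam u - sc lam u' = ((u - u').1, lam * (u - u').2) := by
    simp [sc, mul_sub]
  have f1 := norm_fst_le (u - u')
  have f2 := norm_snd_le (u - u')
  have g1 := norm_fst_le (sc lam u - sc lam u')
  have g2 := norm_snd_le (sc lam u - sc lam u')
  have n1 := norm_nonneg (u - u')
  have n2 := norm_nonneg (sc lam u - sc lam u')
  have n3 := norm_nonneg (u - u').2
  have e2 : ‖(lam : ℂ) * (u - u').2‖ = lam * ‖(u - u').2‖ := by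
    rw [norm_mul, norm_real, Real.norm_of_nonneg l0.le]
  rw [show (sc lam u - sc lam u').1 = (u - u').1 by rw [e]] at g1
  rw [show (sc lam u - sc lam u').2 = lam * (u - u').2 by rw [e], e2] at g2
  constructor
  · rw [e]
    exact norm_prod_le_iff.2 ⟨by nlinarith, e2.trans_le (by gcongr)⟩
  · refine norm_prod_le_iff.2 ⟨by nlinarith, ?_⟩
    nlinarith [mul_le_mul_of_nonneg_left g2 (zero_le_one.trans K1)]

/-- the right gate is Lipschitz and expands -/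
theorem two (A : Mach K ς ε D) (s : 100000 * K ^ 10 * ς ≤ 1) {c n : ℕ} (hc : c < D.M)
    (hn : n ≤ D.N c) (hg : (D.ν ε c 0).re + 90 * (ς ^ 19 / ε) ≤ D.N c - n) {p₀ p p' : C2}
    (h1 : ‖p₀.1‖ ≤ 80 * (ς ^ 19 / ε)) (h2 : ‖p₀.2‖ ≤ 3 * K) (hp : p ∈ ball p₀ ς)
    (hp' : p' ∈ ball p₀ ς) : ε * ς * ‖p' - p‖ ≤ ‖Ψ D c n p' - Ψ D c n p‖ ∧
      ‖Ψ D c n p' - Ψ D c n p‖ ≤ 4 * ‖p' - p‖ := by
  have N := A.num
  obtain ⟨S, l1, -, -, s1⟩ := siz N s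
  obtain ⟨ε0, r0, -⟩ := nums N
  obtain ⟨k1, k2, k3, k4⟩ := N.κ c hc
  have K1 := N.K1
  have ς0 := N.ς0
  have cl := (A.pat c hc).2.clk
  have ϱ0 := cl.r0
  have L := fun p hp => loc (p := p) A s hc hn hg h1 h2 hp
  have dΨ := dif A s hc hn hg h1 h2
  obtain ⟨ρ, hρ⟩ : ∃ ρ, ρ = ς ^ 19 / ε / (4 * K ^ 2) := ⟨_, rfl⟩
  rw [← hρ] at L dΨ
  have ρ1 : 1 ≤ ρ := by
    rw [hρ, le_div_iff₀ (by positivity)]
    nlinarith [sq_nonneg K]
  have m : p ∈ ball p₀ ρ := ball_subset_ball (by linarith) hp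
  have m' : p' ∈ ball p₀ ρ := ball_subset_ball (by linarith) hp'
  obtain ⟨x, hx⟩ : ∃ x, x = ‖p' - p‖ := ⟨_, rfl⟩
  have x0 : 0 ≤ x := hx ▸ norm_nonneg _
  have x1 : x < 2 * ς := by
    rw [hx, ← dist_eq_norm]
    linarith [dist_triangle_right p' p p₀, mem_ball.1 hp, mem_ball.1 hp']
  have sb : ball p (ρ / 2) ⊆ ball p₀ ρ := ball_subset_ball' (by linarith [mem_ball.1 hp])
  have mb : p' ∈ ball p (ρ / 2) := by rw [mem_ball, dist_eq_norm, ← hx]; linarith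
  have lip : ∀ j ≤ n, ‖Ψ D c j p' - Ψ D c j p‖ ≤ 4 * D.ϱ c * x := fun j hj => by
    have k := (tay (D := fun u => Ψ D c j u - (0, D.J c)) (m := D.ϱ c)
      (((dΨ j hj).mono sb).sub_const _) (fun u hu => by
        have := ((L u (sb hu)).2.2.2 j hj).mem.1
        rw [mem_ball, dist_eq_norm] at this
        exact this.le) mb).2.1
    rw [sub_sub_sub_cancel_right, ← hx] at k
    refine k.trans (mul_le_mul_of_nonneg_right ?_ x0)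
    rw [div_le_iff₀ (by linarith)]
    nlinarith
  have lip' : ∀ j ≤ n, ‖Ψ D c j p' - Ψ D c j p‖ ≤ D.ϱ c / 32 := fun j hj =>
    (lip j hj).trans (by nlinarith)
  rw [← hx]
  refine ⟨?_, (lip n le_rfl).trans (by nlinarith)⟩
  obtain ⟨G, hG⟩ : ∃ G : ℕ → C2 → C2, G = fun j u =>
      (D.τ c (Ψ D c j u), (Ψ D c j u).2 - D.J c) := ⟨_, rfl⟩
  have dG : ∀ j ≤ n, DifferentiableOn ℂ (G j) (ball p₀ ρ) := fun j hj => by
    rw [hG]
    exact (cl.an.comp (dΨ j hj) fun u hu => ball_subset_ball (by linarith)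
      ((L u hu).2.2.2 j hj).mem.1).prodMk ((dΨ j hj).snd.sub_const _)
  have hE := (tay (D := fun u => G n u - G 0 u + ((ε : ℂ) * n, 0)) (m := 106 * K ^ 3 * ς ^ 20)
    ((((dG n le_rfl).sub (dG 0 n.zero_le)).mono sb).add_const _) (fun u hu => by
      have a := (L u (sb hu)).2.2.2 n le_rfl
      have b := (L u (sb hu)).2.2.2 0 n.zero_le
      rw [hG]
      refine norm_prod_le_iff.2 ⟨?_, ?_⟩
      · refine le_trans (le_of_eq (congrArg _ ?_)) ((norm_sub_le _ _).trans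
          ((add_le_add a.tm b.tm).trans_eq (by ring)))
        simp only [Ψ, Prod.fst_add, Prod.fst_sub, Nat.cast_zero]
        ring
      · refine le_trans (le_of_eq (congrArg _ ?_)) ((norm_sub_le _ _).trans
          ((add_le_add a.lv b.lv).trans_eq (by ring)))
        simp only [Ψ, Prod.snd_add, Prod.snd_sub]
        ring) mb).2.1
  rw [← hx, show 2 * (106 * K ^ 3 * ς ^ 20) / (ρ / 2) = 1696 * K ^ 5 * ς * ε by
    rw [hρ]; field_simp; ring] at hE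
  obtain ⟨a, aH, am, -⟩ := L p m
  obtain ⟨a', aH', am', -⟩ := L p' m'
  have ck := (A.ck c hc _ a).2
  have ck' := (A.ck c hc _ a').2
  obtain ⟨c1, c2, c3⟩ := ck.mem _ am
  obtain ⟨c1', c2', c3'⟩ := ck'.mem _ am'
  have w1 : ‖Ψ D c 0 p' - Ψ D c 0 p‖ ≤ 24 * K ^ 3 * ‖G 0 p' - G 0 p‖ := by
    rw [hG]
    exact low cl K1 k1 k2 k3 k4 c1 c2 (c3.trans (by linarith)) (lip' 0 n.zero_le)
  have w2 : ‖D.C (D.lo (c + 1)) p' - D.C (D.lo (c + 1)) p‖ ≤ K * ‖Ψ D c 0 p' - Ψ D c 0 p‖ := by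
    have := A.lip c hc _ ⟨mem_bd.2 ⟨c2', c3'.trans (by linarith)⟩, by linarith⟩ _
      ⟨mem_bd.2 ⟨c2, c3.trans (by linarith)⟩, by linarith⟩ (lip' 0 n.zero_le)
    rwa [ck.ri _ am, ck'.ri _ am'] at this
  have w3 : x ≤ K / ε * ‖D.C (D.lo (c + 1)) p' - D.C (D.lo (c + 1)) p‖ := by
    obtain ⟨I, hI⟩ := A.inv _ (gapR N hc)
    have i1 := (hI p' aH' _ (mem_ball_self (by positivity))).2.2
    rw [sub_self, norm_zero, mul_zero, norm_le_zero_iff, sub_eq_zero] at i1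
    have i2 := (hI p aH (D.C (D.lo (c + 1)) p') (by
      rw [mem_ball, dist_eq_norm, lt_div_iff₀ (by linarith)]
      exact fin0 K1 ς0 k4 x0 x1 (S.pw 2 (by norm_num)) (lip 0 n.zero_le) w2)).2.2
    rwa [i1, ← hx] at i2
  have w4 : ‖G n p' - G n p‖ ≤ 5 * K * ‖Ψ D c n p' - Ψ D c n p‖ := by
    rw [hG]
    exact upp cl K1 k2 k4 ((L p m).2.2.2 n le_rfl).mem.1 ((L p' m').2.2.2 n le_rfl).mem.1
      ((lip' n le_rfl).trans_lt (by linarith))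
  have w5 : ‖G 0 p' - G 0 p‖ ≤ ‖G n p' - G n p‖ + 1696 * K ^ 5 * ς * ε * x := by
    refine le_trans (le_of_eq (congrArg _ ?_)) ((norm_sub_le _ _).trans (add_le_add_right hE _))
    abel
  have w6 : ε * x ≤ 24 * K ^ 5 * ‖G 0 p' - G 0 p‖ := by
    rw [div_mul_eq_mul_div, le_div_iff₀' ε0] at w3
    calc _ ≤ K * (K * (24 * K ^ 3 * ‖G 0 p' - G 0 p‖)) :=
          w3.trans (by gcongr; exact w2.trans (by gcongr))
      _ = _ := by ring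
  exact fin1 K1 ς0 ε0 x0 (norm_nonneg _) s S.sm w4 w5 w6

/-- **the chart at the right gate** -/
theorem chart (A : Mach K ς ε D) (s : 100000 * K ^ 10 * ς ≤ 1) {c n : ℕ} (hc : c < D.M)
    (hn : n ≤ D.N c) (hg : (D.ν ε c 0).re + 90 * (ς ^ 19 / ε) ≤ D.N c - n) {K' lam h KE : ℝ}
    {ac : C2 → C2} (H : AC K' ς ε D c ac) (l1 : 1 ≤ K * lam) (l2 : lam ≤ K)
    (hh : h ≤ 40 * (ς ^ 19 / ε)) (hK : 1 / ε ^ 3 ≤ KE) :
    Chart (fun q => ac (S.pr ε (D.T'^[n] (D.C (D.lo (c + 1)) (sc lam q)))))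
      (P097EE.Bx 3 (-h) 3 2) KE := by
  have N := A.num
  obtain ⟨S, b1, -, b2, s1⟩ := siz N s
  obtain ⟨ε0, -⟩ := nums N
  have K1 := N.K1
  have ς0 := N.ς0
  have K3 : 1 ≤ K ^ 3 := one_le_pow₀ K1
  have l0 : 0 < lam := by
    by_contra e
    nlinarith [not_lt.1 e]
  have ε1 : ε ≤ 1 / 100 := by nlinarith
  have KE0 : 0 < KE := lt_of_lt_of_le (by positivity) hK
  have KE1 : 1 ≤ KE * ε ^ 3 := (div_le_iff₀ (by positivity)).1 hK
  have sd := sd K1 l0 l1 l2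
  rintro q ⟨q1, q2, q3, q4⟩
  have h1 : ‖(sc lam q).1‖ ≤ 80 * (ς ^ 19 / ε) := by
    have : |q.1.im| ≤ 40 * (ς ^ 19 / ε) := abs_le.2 ⟨by linarith, by linarith⟩
    have := norm_le_abs_re_add_abs_im q.1
    show ‖q.1‖ ≤ _
    linarith
  have h2 : ‖(sc lam q).2‖ ≤ 3 * K := by
    show ‖(lam : ℂ) * q.2‖ ≤ _
    rw [norm_mul, norm_real, Real.norm_of_nonneg l0.le]
    nlinarith [mul_le_mul l2 q4 (norm_nonneg _) (by linarith)]
  have mem : ∀ u ∈ ball q KE⁻¹, sc lam u ∈ ball (sc lam q) ς := fun u hu => by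
    rw [mem_ball, dist_eq_norm] at hu ⊢
    have u1 : KE⁻¹ ≤ ε := by
      rw [inv_le_iff_one_le_mul₀ KE0]
      have : ε ^ 3 ≤ ε := pow_le_of_le_one ε0.le (by linarith) (by norm_num)
      nlinarith
    have := mul_lt_mul_of_pos_left (hu.trans_le u1) (show 0 < K by linarith)
    nlinarith [(sd u q).1]
  have L := fun u hu => loc (p := sc lam u) A s hc hn hg h1 h2 (ball_subset_ball (by
    rw [le_div_iff₀ (by positivity)]
    have : K ^ 2 ≤ K ^ 3 := pow_le_pow_right₀ K1 (by norm_num)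
    nlinarith [sq_nonneg K]) (mem u hu))
  refine ⟨fun u hu => ?_, fun u hu u' hu' => ?_⟩
  · obtain ⟨a, -, -, P⟩ := L u hu
    have a1 := H.an _ (P n le_rfl).mem
    rw [(P n le_rfl).ri] at a1
    exact (a1.comp (P n le_rfl).an).comp (f := fun q => D.C (D.lo (c + 1)) (sc lam q))
      ((anC A (gapR N hc) a).comp (f := sc lam)
        (analyticAt_fst.prod (analyticAt_const.mul analyticAt_snd)))
  · have P := (L u hu).2.2.2 n le_rfl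
    have P' := (L u' hu').2.2.2 n le_rfl
    have a1 := H.lo _ P.mem _ P'.mem
    have a2 := H.up _ P.mem _ P'.mem
    rw [P.ri, P'.ri] at a1 a2
    obtain ⟨t1, t2⟩ := two A s hc hn hg h1 h2 (mem u' hu') (mem u hu)
    exact fin2 K1 ς0 ε0 (norm_nonneg _) KE0 KE1 b2 s1 a1 a2 t1 t2 (sd u u').1 (sd u u').2

/-- 9107 without the passage hypothesis -/
theorem chr {K' A h lam : ℝ} {c : ℕ} {ac : C2 → C2} (M : Mach K ς ε D)
    (s : 100000 * K ^ 10 * ς ≤ 1) (Z : Sz K ς ε A h lam D c) (R : Ar ε A h D c)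
    (H : AC K' ς ε D c ac) {KE : ℝ} (hK : 1 / ε ^ 3 ≤ KE) :
    Chart (fun q => ac (PR ε A h lam D c q)) (P097EE.Bx 3 (-h) 3 2) KE := by
  have b1 := (siz M.num s).2.1
  have K3 : 1 ≤ K ^ 3 := one_le_pow₀ M.num.K1
  have e : ((n1 ε A h D c : ℝ) + 2 * ga A h + n2 ε A h D c) = D.N c := by exact_mod_cast R.sum
  have r := R.re.2
  have e2 : (xg ε A h D c).re = (D.ν ε c 0).re - n1 ε A h D c := by simp [xg]
  refine chart M s Z.cM (by have := R.sum; omega) ?_ H Z.la.1 Z.la.2 Z.h1.2 hK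
  have := mul_le_mul Z.A1.1 Z.h1.1 (by linarith) (by linarith [Z.A1.1])
  linarith [R.ga1.1]

theorem schr : S_CHR := fun K K' _ => ⟨1 / (100000 * max K 1 ^ 10), by positivity,
  fun ς ε A h lam D c ac hς M Z _ R _ H KE hK => chr M (by
    have K1 := M.num.K1
    rw [max_eq_left K1, lt_div_iff₀ (by positivity)] at hς
    linarith) Z R H hK⟩

end Vale.Agent.P097F.G.Chr
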