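import Vale.Agent.P097F.N.Patch
import Vale.Agent.P097F.N.Tub
import Vale.Agent.P097F.N.Lin

/-!
# P097F.G: partial passages near an obstacle
-/

set_option linter.all false

noncomputable section

namespace Vale.Agent.P097F.G

open Filter Topology Set Metric Complex Vale.Agent.P097F.N

/-- time and level of a state -/
def FF (Λ : ℂ × ℂ → ℂ × ℂ) (τ : ℂ × ℂ → ℂ) (J₀ : ℂ) (x : ℂ × ℂ) : ℂ × ℂ :=
  (τ (Λ x), (Λ x).2 - J₀)

section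
variable {T Λ Ξ : ℂ × ℂ → ℂ × ℂ} {τ f : ℂ × ℂ → ℂ} {κ J₀ ε : ℂ} {ϱ σ e r a K : ℝ} {p₀ : ℂ × ℂ}

theorem ff_bd (C : Clk τ f κ J₀ ϱ) (ck : Ck Λ Ξ J₀ ϱ r p₀) (K1 : 1 ≤ K) (hκ : ‖κ‖ ≤ K)
    (ϱ1 : ϱ ≤ 1) : DifferentiableOn ℂ (FF Λ τ J₀) (ball p₀ r) ∧
      ∀ x ∈ ball p₀ r, ‖FF Λ τ J₀ x‖ ≤ 2 * K := by
  have r0 := C.r0
  have m : ∀ x ∈ ball p₀ r, Λ x ∈ ball ((0, J₀) : ℂ × ℂ) (2 * ϱ) := fun x hx =>
    mem_bd.2 ⟨by linarith [(ck.mem x hx).2.1], by linarith [(ck.mem x hx).2.2]⟩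
  refine ⟨fun x hx => ?_, fun x hx => ?_⟩
  · have a := (ck.an x hx).differentiableAt
    exact (((C.an.differentiableAt (isOpen_ball.mem_nhds (m x hx))).comp x a).prodMk
      (a.snd.sub_const J₀)).differentiableWithinAt
  · obtain ⟨-, a, b⟩ := ck.mem x hx
    refine norm_prod_le_iff.2 ⟨(C.up (m x hx)).trans ?_, by simp only [FF]; linarith⟩
    have h1 : ‖(Λ x).1‖ ^ 2 ≤ 1 := pow_le_one₀ (norm_nonneg _) (by linarith)
    nlinarith [mul_le_mul hκ h1 (by positivity) (by linarith : 0 ≤ K)]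

theorem ff_lip (C : Clk τ f κ J₀ ϱ) (ck : Ck Λ Ξ J₀ ϱ r p₀) (K1 : 1 ≤ K) (hκ : ‖κ‖ ≤ K)
    (ϱ1 : ϱ ≤ 1) (rK : 1 ≤ K * r) {x y : ℂ × ℂ} (hy : y ∈ ball p₀ (7 * r / 8))
    (hx : ‖x - y‖ < r / 8) : ‖FF Λ τ J₀ x - FF Λ τ J₀ y‖ ≤ 32 * K ^ 2 * ‖x - y‖ := by
  obtain ⟨d, b⟩ := ff_bd C ck K1 hκ ϱ1
  have s : ball y (r / 8) ⊆ ball p₀ r := ball_subset_ball' (by linarith [mem_ball.1 hy])
  have r0 : 0 < r := by linarith [norm_nonneg (x - y)]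
  refine (tay (d.mono s) (fun u hu => b u (s hu)) (mem_ball_iff_norm.2 hx)).2.1.trans
    (mul_le_mul_of_nonneg_right ?_ (norm_nonneg _))
  rw [div_le_iff₀ (by positivity)]
  nlinarith

/-- the clock along a chart -/
theorem clock (P : Patch T Λ Ξ τ f κ J₀ ε ϱ σ e) (Nr : Near T p₀ r a) {m : ℕ}
    (hm : 216 * a * m ≤ r) (m4 : 4 ≤ m) (ck : Ck Λ Ξ J₀ ϱ r p₀) (K1 : 1 ≤ K) (hκ : ‖κ‖ ≤ K)
    (ϱ1 : ϱ ≤ 1) (rK : 1 ≤ K * r) (r1 : r ≤ 1) (σϱ : σ ≤ ϱ / 8) {d e₁ : ℝ} (h0 : 0 < ‖κ‖ * σ)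
    (hd : ‖ε‖ + e ≤ ‖κ‖ * σ * d) (hdr : d < ϱ) (he : e < ϱ) (he0 : 0 ≤ e)
    (h1 : 2 * ‖κ‖ * ϱ * e + 3 * ‖κ‖ * d ^ 2 + e ≤ e₁) (εm : ‖ε‖ * m ≤ K) {t : ℂ} (ht : ‖t‖ < m) :
    ‖FF Λ τ J₀ (Ch T m t p₀) - FF Λ τ J₀ p₀ - (ε * t, 0)‖ ≤
      (e₁ + 32 * K ^ 2 * (1 / 2) ^ m + 16 * K / (m : ℝ) ^ 2) * ‖t‖ := by
  obtain ⟨dF, bF⟩ := ff_bd P.clk ck K1 hκ ϱ1
  have r0 : 0 < r := by
    by_contra c
    nlinarith [not_lt.1 c]
  have a0 := Nr.a0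
  have m4' : (4 : ℝ) ≤ m := by exact_mod_cast m4
  have ϱ0 := P.clk.r0
  have hp : p₀ ∈ ball p₀ (r / 2) := mem_ball_self (by linarith)
  have mc : ∀ t : ℂ, ‖t‖ ≤ 8 * m → Ch T m t p₀ ∈ ball p₀ (3 * r / 4) := fun t h =>
    Nr.mem_Ch hm hp h
  have s1 : ball p₀ (3 * r / 4) ⊆ ball p₀ r := ball_subset_ball (by linarith)
  have c0 : Ch T m 0 p₀ = p₀ := by simpa using Ch_nat T (Nat.zero_le m) p₀
  have key := drift (D := fun t => FF Λ τ J₀ (Ch T m t p₀) - (ε * t, 0)) (t₀ := 0) (R := m)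
    (M := 4 * K) (e := e₁ + 32 * K ^ 2 * (1 / 2) ^ m) (by linarith) (fun t h => ?_)
    (fun t h => ?_) (fun t h => ?_) t (by simpa using ht)
  · simp only [c0, mul_zero, sub_zero, Prod.mk_zero_zero] at key
    rw [sub_right_comm]
    exact key.trans_eq (by ring)
  · have h' : ‖t‖ ≤ 8 * m := by linarith [mem_ball_zero_iff.1 h]
    exact (((dF.differentiableAt (isOpen_ball.mem_nhds (s1 (mc t h')))).comp t
      (Nr.an_t hm hp t).differentiableAt).sub (g := fun t => ((ε * t, 0) : ℂ × ℂ))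
      (by fun_prop)).differentiableWithinAt
  · have h2 := mem_ball_zero_iff.1 h
    refine (norm_sub_le _ _).trans ?_
    have b1 := bF _ (s1 (mc t (by linarith)))
    have b2 : ‖((ε * t, 0) : ℂ × ℂ)‖ ≤ 2 * K := by
      simp only [Prod.norm_def, norm_zero, norm_mul]
      exact max_le (by nlinarith [norm_nonneg ε]) (by linarith)
    linarith
  · have h2 := mem_ball_zero_iff.1 h
    have x0 := mc t (by linarith)
    have x1 := mc (t + 1) ((norm_add_le _ _).trans (by rw [norm_one]; linarith))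
    have df := Nr.defect hm (by omega) hp (t := t) (by linarith)
    have p4 : ((1 : ℝ) / 2) ^ m ≤ (1 / 2) ^ 4 := pow_le_pow_of_le_one (by norm_num) (by norm_num) m4
    have p0 : (0 : ℝ) < (1 / 2) ^ m := by positivity
    have l1 := ff_lip P.clk ck K1 hκ ϱ1 rK (ball_subset_ball (by linarith) x1)
      (df.trans_lt (by nlinarith))
    obtain ⟨k1, k2, k3⟩ := ck.mem _ (s1 x0)
    have mA : Λ (Ch T m t p₀) ∈ An J₀ ϱ σ := ⟨mem_bd.2 ⟨k2, by linarith⟩, by linarith⟩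
    have j1 := P.stp.dJ _ mA
    have j2 := P.stp.dη _ mA
    rw [ck.ri _ (s1 x0)] at j1 j2
    have j3 := (P.clk.step mA.1 mA.2.le h0 j1 j2 hd hdr he).2.2
    have j4 : ‖FF Λ τ J₀ (T (Ch T m t p₀)) - FF Λ τ J₀ (Ch T m t p₀) - (ε, 0)‖ ≤ e₁ := by
      refine norm_prod_le_iff.2 ⟨j3.trans h1, ?_⟩
      simp only [FF, Prod.snd_sub, sub_zero, sub_sub_sub_cancel_right]
      have : 0 ≤ 2 * ‖κ‖ * ϱ * e + 3 * ‖κ‖ * d ^ 2 := by positivity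
      linarith
    have e1 : FF Λ τ J₀ (Ch T m (t + 1) p₀) - (ε * (t + 1), 0) -
        (FF Λ τ J₀ (Ch T m t p₀) - (ε * t, 0)) =
        FF Λ τ J₀ (T (Ch T m t p₀)) - FF Λ τ J₀ (Ch T m t p₀) - (ε, 0) -
          (FF Λ τ J₀ (T (Ch T m t p₀)) - FF Λ τ J₀ (Ch T m (t + 1) p₀)) := by
      refine Prod.ext ?_ ?_ <;> simp only [Prod.fst_sub, Prod.snd_sub] <;> ring
    rw [e1]
    refine (norm_sub_le _ _).trans (add_le_add j4 (l1.trans ?_))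
    exact mul_le_mul_of_nonneg_left (df.trans (by nlinarith)) (by positivity)

end

/-- the smallness of the scale -/
structure Sm (K ς : ℝ) : Prop where
  K1 : 1 ≤ K
  ς0 : 0 < ς
  sm : 1000 * K ^ 6 * ς ≤ 1

namespace Sm

variable {K ς : ℝ} (S : Sm K ς)
include S

theorem pw (k : ℕ) (hk : k ≤ 6) : 1000 * K ^ k * ς ≤ 1 :=
  le_trans (by have := S.ς0; gcongr; exact S.K1) S.sm

theorem ς1 : ς ≤ 1 := by
  have := S.pw 0 (by norm_num)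
  linarith [S.ς0]

theorem le {a b : ℕ} (h : a ≤ b) : ς ^ b ≤ ς ^ a := pow_le_pow_of_le_one S.ς0.le S.ς1 h

theorem mul (k : ℕ) (hk : k ≤ 6) {a b : ℕ} (h : a + 1 ≤ b) : 1000 * K ^ k * ς ^ b ≤ ς ^ a := by
  have h1 := S.pw k hk
  have h2 := S.le h
  have := S.ς0
  have := S.K1
  calc _ ≤ 1000 * K ^ k * ς ^ (a + 1) := by gcongr
    _ = 1000 * K ^ k * ς * ς ^ a := by ring
    _ ≤ 1 * ς ^ a := by gcongr
    _ = _ := one_mul _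

theorem kk {a b : ℕ} (h : a ≤ b) : K ^ a ≤ K ^ b := pow_le_pow_right₀ S.K1 h

end Sm

theorem two_pow (m : ℕ) : (m : ℝ) ^ 2 * (1 / 2) ^ m ≤ 2 := by
  have : ∀ m : ℕ, m ^ 2 ≤ 2 * 2 ^ m := by
    intro m
    induction m using Nat.strong_induction_on with
    | _ m ih =>
      rcases Nat.lt_or_ge m 4 with h | h
      · interval_cases m <;> norm_num
      · obtain ⟨k, rfl⟩ := Nat.exists_eq_add_of_le' (show 1 ≤ m by omega)
        have := ih k (by omega)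
        rw [pow_succ 2 k]
        nlinarith
  rw [one_div_pow, mul_one_div, div_le_iff₀ (by positivity)]
  exact_mod_cast this m

/-- the constants of a passage -/
theorem cst {K ς ϱ : ℝ} {κ : ℂ} (S : Sm K ς) (k1 : 1 ≤ K * ‖κ‖) (k2 : ‖κ‖ ≤ K) (k3 : 1 ≤ K * ϱ)
    (k4 : ϱ ≤ 1) : ς ^ 220 + K * ς ^ 240 ≤ ‖κ‖ * ς ^ 10 * (2 * K * ς ^ 210) ∧
      2 * K * ς ^ 210 < ϱ ∧ K * ς ^ 240 < ϱ ∧ ς ^ 10 ≤ ϱ / 8 ∧
      2 * ‖κ‖ * ϱ * (K * ς ^ 240) + 3 * ‖κ‖ * (2 * K * ς ^ 210) ^ 2 + K * ς ^ 240 ≤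
        4 * K ^ 2 * ς ^ 240 ∧ 1000 * K ^ 2 * ς ≤ ϱ ∧ 1000 * K ^ 3 * ς ≤ ‖κ‖ * ϱ ^ 2 := by
  have K1 := S.K1
  have ς0 := S.ς0
  have ϱ0 : 0 < ϱ := by
    by_contra c
    nlinarith [not_lt.1 c]
  have a1 : 1000 * K ^ 2 * ς ≤ ϱ := by
    have := S.pw 3 (by norm_num)
    refine le_of_mul_le_mul_left ?_ (show 0 < K by linarith)
    nlinarith
  have a2 : K * ς ≤ K ^ 2 * ς := by gcongr; nlinarith
  have a3 : 0 < K * ς := by positivity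
  have b : ∀ k, 1 ≤ k → K * ς ^ k ≤ K * ς := fun k hk => by
    gcongr
    simpa using S.le hk
  refine ⟨?_, by linarith [b 210 (by norm_num)], by linarith [b 240 (by norm_num)], ?_, ?_, a1, ?_⟩
  · have h1 := S.mul 1 (by norm_num) (a := 220) (b := 240) (by norm_num)
    have h2 : 0 < ς ^ 220 := by positivity
    have h3 : 0 < K * ς ^ 240 := by positivity
    have h4 := mul_le_mul_of_nonneg_right k1 h2.le
    calc _ ≤ 2 * (K * ‖κ‖ * ς ^ 220) := by linarith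
      _ = _ := by ring
  · have h1 := b 10 (by norm_num)
    have h2 : ς ^ 10 ≤ K * ς ^ 10 := le_mul_of_one_le_left (by positivity) K1
    linarith
  · have h1 := S.mul 1 (by norm_num) (a := 240) (b := 420) (by norm_num)
    have h2 : 2 * ‖κ‖ * ϱ * (K * ς ^ 240) ≤ 2 * K * 1 * (K * ς ^ 240) := by gcongr
    have h3 : 3 * ‖κ‖ * (2 * K * ς ^ 210) ^ 2 ≤ 3 * K * (2 * K * ς ^ 210) ^ 2 := by gcongr
    have h4 : K * ς ^ 240 ≤ K ^ 2 * ς ^ 240 := by gcongr; nlinarith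
    have h5 := mul_le_mul_of_nonneg_left h1 (show 0 ≤ K ^ 2 by positivity)
    have h6 : 0 ≤ K ^ 3 * ς ^ 420 := by positivity
    nlinarith
  · have h1 : 1 ≤ K * ‖κ‖ * (K * ϱ) ^ 2 := one_le_mul_of_one_le_of_one_le k1 (one_le_pow₀ k3)
    have := S.sm
    refine le_of_mul_le_mul_left ?_ (show 0 < K ^ 3 by positivity)
    nlinarith

/-- what a partial passage gives at the step `j` -/
structure Ps (T Λ Ξ : ℂ × ℂ → ℂ × ℂ) (τ : ℂ × ℂ → ℂ) (J₀ : ℂ) (ϱ σ E : ℝ) (q : ℂ × ℂ) (j : ℕ)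
    (w J : ℂ) : Prop where
  an : AnalyticAt ℂ T^[j] q
  mem : Λ (T^[j] q) ∈ An J₀ ϱ σ
  ri : Ξ (Λ (T^[j] q)) = T^[j] q
  tm : ‖τ (Λ (T^[j] q)) - w‖ ≤ E
  lv : ‖(Λ (T^[j] q)).2 - J‖ ≤ E

theorem core {T Λ Ξ : ℂ × ℂ → ℂ × ℂ} {τ f : ℂ × ℂ → ℂ} {κ J₀ ε' w J : ℂ} {K ς ϱ A : ℝ}
    (S : Sm K ς) (P : Patch T Λ Ξ τ f κ J₀ ε' ϱ (ς ^ 10) (K * ς ^ 240)) (e : ‖ε'‖ = ς ^ 220)
    (k1 : 1 ≤ K * ‖κ‖) (k2 : ‖κ‖ ≤ K) (k3 : 1 ≤ K * ϱ) (k4 : ϱ ≤ 1) {q : ℂ × ℂ}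
    (q1 : Ξ (Λ q) = q) (q2 : ‖(Λ q).1‖ < ϱ) (q3 : ‖(Λ q).2 - J₀‖ < 3 * ϱ / 4)
    (A1 : A ≤ 100 * K ^ 3) (q4 : ‖τ (Λ q) - w‖ ≤ A * ς ^ 20) (q5 : ‖(Λ q).2 - J‖ ≤ A * ς ^ 20)
    {N : ℕ} (hN : ς ^ 220 * N ≤ 2 * K)
    (hw : ∀ j ≤ N, ς ^ 19 ≤ ‖w + j * ε'‖ ∧ ‖w + j * ε'‖ ≤ ‖κ‖ * ϱ ^ 2 / 2) :
    ∀ j ≤ N, Ps T Λ Ξ τ J₀ ϱ (ς ^ 10) ((A + 8 * K ^ 3) * ς ^ 20) q j (w + j * ε') J := by
  obtain ⟨c1, c2, c3, c4, c5, c6, c7⟩ := cst S k1 k2 k3 k4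
  have K1 := S.K1
  have ς0 := S.ς0
  have ϱ0 := P.clk.r0
  have κ0 : 0 < ‖κ‖ := by
    by_contra c
    nlinarith [not_lt.1 c]
  have n1 : (N : ℝ) * (4 * K ^ 2 * ς ^ 240) ≤ 8 * K ^ 3 * ς ^ 20 := by
    calc _ = ς ^ 220 * N * (4 * K ^ 2 * ς ^ 20) := by ring
      _ ≤ 2 * K * (4 * K ^ 2 * ς ^ 20) := by gcongr
      _ = _ := by ring
  have n2 : (N : ℝ) * (K * ς ^ 240) ≤ 2 * K ^ 2 * ς ^ 20 := by
    calc _ = ς ^ 220 * N * (K * ς ^ 20) := by ring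
      _ ≤ 2 * K * (K * ς ^ 20) := by gcongr
      _ = _ := by ring
  have s1 : ς ^ 20 ≤ ς := by simpa using S.le (show 1 ≤ 20 by norm_num)
  have s2 : K ^ 2 * ς ^ 20 ≤ K ^ 2 * ς := by gcongr
  have s3 : K ^ 3 * ς ^ 20 ≤ K ^ 3 * ς := by gcongr
  have s4 := S.mul 3 (by norm_num) (a := 19) (b := 20) le_rfl
  have s5 : A * ς ^ 20 ≤ 100 * K ^ 3 * ς ^ 20 := by gcongr
  have s6 : ‖κ‖ * (ς ^ 10) ^ 2 ≤ K ^ 3 * ς ^ 20 := by
    rw [← pow_mul]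
    gcongr
    exact k2.trans (le_self_pow₀ K1 (by norm_num))
  have s7 : 0 < K ^ 3 * ς ^ 20 := by positivity
  have s8 : K ^ 2 * ς ^ 20 ≤ K ^ 3 * ς ^ 20 := by gcongr; norm_num
  have s9 : 0 < K ^ 2 * ς := by positivity
  have key := P.pass (by positivity) (by rw [e]; exact c1) c2 (by positivity) c3 c5 (N := N) q1
    (mem_bd.2 ⟨by linarith, by linarith⟩) (by linarith) fun j hj => by
      have u1 := norm_sub_norm_le (w + j * ε') (τ (Λ q) + j * ε')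
      have u2 := norm_sub_norm_le (τ (Λ q) + j * ε') (w + j * ε')
      rw [add_sub_add_right_eq_sub] at u1 u2
      rw [norm_sub_rev] at u1
      constructor <;> linarith [(hw j hj).1, (hw j hj).2]
  intro j hj
  obtain ⟨p1, p2, p3, -, p5, p6⟩ := key j hj
  have j1 : (j : ℝ) ≤ N := by exact_mod_cast hj
  have j2 : (j : ℝ) * (4 * K ^ 2 * ς ^ 240) ≤ N * (4 * K ^ 2 * ς ^ 240) := by gcongr
  have j3 : (j : ℝ) * (K * ς ^ 240) ≤ N * (K * ς ^ 240) := by gcongr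
  refine ⟨p1, p2, p3, ?_, ?_⟩
  · have := norm_add_le (τ (Λ (T^[j] q)) - τ (Λ q) - j * ε') (τ (Λ q) - w)
    rw [show τ (Λ (T^[j] q)) - τ (Λ q) - j * ε' + (τ (Λ q) - w) =
      τ (Λ (T^[j] q)) - (w + j * ε') by ring] at this
    linarith
  · linarith [norm_sub_le_norm_sub_add_norm_sub (Λ (T^[j] q)).2 (Λ q).2 J]

section
variable {K ς ε : ℝ} {D : Md}

theorem sm_of (N : Num K ς ε D) (h : ς < 1 / (1000 * max K 1 ^ 6)) : Sm K ς := by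
  have K1 := N.K1
  rw [max_eq_left K1, lt_div_iff₀ (by positivity)] at h
  exact ⟨K1, N.ς0, by linarith⟩

theorem nums (N : Num K ς ε D) : 0 < ε ∧ 0 < D.r ∧ 4 ≤ K * (ε * D.R) ∧ 4 ≤ K * (ε * D.n) ∧
    160 ≤ K * (ε * D.m) ∧ 40 * (D.n : ℝ) ≤ D.m := by
  have K1 := N.K1
  have ε0 : 0 < ε := by rw [N.eq]; exact pow_pos N.ς0 _
  have nm : 40 * (D.n : ℝ) ≤ D.m := by exact_mod_cast N.nm
  have a1 : K * (ε * (4 * D.H)) ≤ K * (ε * D.R) := by gcongr; exact N.HR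
  have a2 : K * (ε * D.R) ≤ K * (ε * D.n) := by gcongr; exact N.Rn
  have a3 : K * (ε * (40 * D.n)) ≤ K * (ε * D.m) := by gcongr
  refine ⟨ε0, ?_, by linarith [N.H0], by linarith [N.H0], by linarith [N.H0], nm⟩
  by_contra c
  nlinarith [N.r0, not_lt.1 c]

theorem gapL (N : Num K ς ε D) {c : ℕ} (hc : c < D.M) : D.Gap (D.hi c) :=
  ⟨c, hc.le, N.lh c hc.le, le_rfl⟩

theorem gapR (N : Num K ς ε D) {c : ℕ} (hc : c < D.M) : D.Gap (D.lo (c + 1)) :=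
  ⟨c + 1, hc, le_rfl, N.lh _ hc⟩

theorem castN (N : Num K ς ε D) {c : ℕ} (hc : c < D.M) :
    (D.N c : ℤ) = D.lo (c + 1) - D.hi c := Int.toNat_of_nonneg (by linarith [N.hl c hc])

theorem lenN (N : Num K ς ε D) {c : ℕ} (hc : c < D.M) : ε * D.N c ≤ 2 * K := by
  have ε0 := (nums N).1
  have a1 := (Tb.gap_mem N (gapL N hc)).1
  have a2 := (Tb.gap_mem N (gapR N hc)).2
  have a3 : (D.N c : ℤ) ≤ D.hi D.M - D.lo 0 := by rw [castN N hc]; linarith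
  have a4 : (D.N c : ℝ) ≤ D.hi D.M - D.lo 0 := by exact_mod_cast a3
  have a6 : (D.hi D.M : ℝ) - D.lo 0 ≤ |(D.hi D.M : ℝ)| + |(D.lo 0 : ℝ)| := by
    linarith [le_abs_self (D.hi D.M : ℝ), neg_abs_le (D.lo 0 : ℝ)]
  have a5 := mul_le_mul_of_nonneg_left (a4.trans a6) ε0.le
  linarith [N.len.1, N.len.2]

/-- the clock near a chart at one of the two ends of the passage -/
theorem start (A : Mach K ς ε D) (S : Sm K ς) {c : ℕ} (hc : c < D.M) {i : ℤ} (hi : D.Gap i)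
    {ζ t : ℂ} (hζ : ‖ζ‖ < D.R) (ht : ‖t‖ ≤ D.m / 2)
    (ck : Ck (D.Λ c) (D.Ξ c) (D.J c) (D.ϱ c) D.r (D.Z (i, ζ))) {q : ℂ × ℂ}
    (hq : q ∈ ball (D.Ct i ζ t) (ς ^ 20)) : q ∈ ball (D.Z (i, ζ)) D.r ∧
      ‖D.τ c (D.Λ c q) - (D.τ c (D.Λ c (D.Z (i, ζ))) + ε * t)‖ ≤ 37 * K ^ 3 * ς ^ 20 ∧
      ‖(D.Λ c q).2 - (D.Λ c (D.Z (i, ζ))).2‖ ≤ 37 * K ^ 3 * ς ^ 20 := by
  have N := A.num
  obtain ⟨ε0, r0, -, -, m1, -⟩ := nums N
  obtain ⟨k1, k2, k3, k4⟩ := N.κ c hc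
  obtain ⟨c1, c2, c3, c4, c5, -, -⟩ := cst S k1 k2 k3 k4
  have K1 := S.K1
  have ς0 := S.ς0
  have κ0 : 0 < ‖D.κ c‖ := by
    by_contra c
    nlinarith [not_lt.1 c]
  have e1 : K * ε ≤ 1 := by
    have := S.mul 1 (by norm_num) (a := 0) (b := 220) (by norm_num)
    rw [N.eq]
    nlinarith [pow_pos ς0 220]
  have m4 : (160 : ℝ) ≤ D.m := by nlinarith [(Nat.cast_nonneg D.m : (0 : ℝ) ≤ D.m)]
  have ne : ‖(ε : ℂ)‖ = ε := by rw [norm_real, Real.norm_of_nonneg ε0.le]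
  have Nr := (A.gap i hi ζ hζ).1
  have k := clock (A.pat c hc).1 Nr N.am (by exact_mod_cast (by linarith : (4 : ℝ) ≤ D.m)) ck K1 k2
    k4 N.r0 N.r1 c4 (by positivity) (by rw [ne, N.eq]; exact c1) c2 c3 (by positivity) c5
    (by rw [ne]; exact N.mK) (t := t) (by linarith)
  have x0 : D.Ct i ζ t ∈ ball (D.Z (i, ζ)) (3 * D.r / 4) :=
    Nr.mem_Ch N.am (mem_ball_self (by linarith)) (by linarith)
  have q0 := mem_ball_iff_norm.1 hq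
  have s1 : ς ^ 20 < D.r / 8 := by
    have := S.mul 1 (by norm_num) (a := 0) (b := 20) (by norm_num)
    have h2 := N.r0
    refine lt_of_mul_lt_mul_left ?_ (show 0 ≤ K by linarith)
    nlinarith [pow_pos ς0 20]
  have l := ff_lip (A.pat c hc).1.clk ck K1 k2 k4 N.r0 (ball_subset_ball (by linarith) x0)
    (q0.trans s1)
  have b1 : (4 * K ^ 2 * ς ^ 240 + 32 * K ^ 2 * (1 / 2) ^ D.m + 16 * K / (D.m : ℝ) ^ 2) * ‖t‖ ≤
      5 * K ^ 3 * ς ^ 20 := by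
    have m0 : (0 : ℝ) < D.m := by linarith
    have u1 : 1 / (D.m : ℝ) ≤ K * ε := by
      rw [div_le_iff₀ m0]
      linarith
    have u2 : ((1 : ℝ) / 2) ^ D.m * D.m ≤ 2 * (K * ε) := by
      refine le_trans ?_ (mul_le_mul_of_nonneg_left u1 (by norm_num))
      rw [mul_one_div, le_div_iff₀ m0]
      linarith [two_pow D.m]
    have u3 : ς ^ 240 * D.m ≤ K * ς ^ 20 := by
      have := mul_le_mul_of_nonneg_right N.mK (pow_pos ς0 20).le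
      rw [N.eq] at this
      linarith
    have u4 : K ^ 3 * (1000 * ε) ≤ K ^ 3 * ς ^ 20 := by
      have := S.mul 0 (by norm_num) (a := 20) (b := 220) (by norm_num)
      rw [N.eq]
      gcongr
      linarith
    have u5 : K ^ 2 * ε ≤ K ^ 3 * ε := by gcongr; norm_num
    have u6 : 0 ≤ K ^ 2 * ε := by positivity
    calc _ ≤ (4 * K ^ 2 * ς ^ 240 + 32 * K ^ 2 * (1 / 2) ^ D.m + 16 * K / (D.m : ℝ) ^ 2) * D.m := by
          gcongr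
          linarith
      _ = 4 * K ^ 2 * (ς ^ 240 * D.m) + 32 * K ^ 2 * ((1 / 2) ^ D.m * D.m) +
          16 * K * (1 / D.m) := by field_simp
      _ ≤ 4 * K ^ 2 * (K * ς ^ 20) + 32 * K ^ 2 * (2 * (K * ε)) + 16 * K * (K * ε) := by gcongr
      _ ≤ _ := by nlinarith
  have b2 : 32 * K ^ 2 * ‖q - D.Ct i ζ t‖ ≤ 32 * K ^ 3 * ς ^ 20 := by
    gcongr
    norm_num
  have b3 := norm_add_le (FF (D.Λ c) (D.τ c) (D.J c) q - FF (D.Λ c) (D.τ c) (D.J c) (D.Ct i ζ t))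
    (FF (D.Λ c) (D.τ c) (D.J c) (D.Ct i ζ t) - FF (D.Λ c) (D.τ c) (D.J c) (D.Z (i, ζ)) -
      (ε * t, 0))
  have b4 := b3.trans (add_le_add (l.trans b2) (k.trans b1))
  obtain ⟨b5, b6⟩ := norm_prod_le_iff.1 b4
  refine ⟨mem_ball.2 ?_, ?_, ?_⟩
  · linarith [dist_triangle q (D.Ct i ζ t) (D.Z (i, ζ)), mem_ball.1 hq, mem_ball.1 x0]
  · refine le_trans (le_of_eq (congrArg _ ?_)) (b5.trans_eq (by ring))
    simp only [FF, Prod.fst_add, Prod.fst_sub]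
    ring
  · refine le_trans (le_of_eq (congrArg _ ?_)) (b6.trans_eq (by ring))
    simp only [FF, Prod.snd_add, Prod.snd_sub]
    ring

theorem upper (A : Mach K ς ε D) {c : ℕ} (hc : c < D.M) {ζ t : ℂ} (hζ : ‖ζ‖ < D.R)
    (ht : ‖t‖ ≤ D.m / 2) {x : ℝ} (x0 : 0 ≤ x) (x1 : x ≤ D.N c) :
    ‖D.τ₀ c ζ + ε * t + ε * x‖ ≤ ‖D.κ c‖ * D.ϱ c ^ 2 / 2 := by
  have ε0 := (nums A.num).1
  obtain ⟨-, -, -, g1, g2⟩ := A.geo c hc ζ hζ
  have n0 : (0 : ℝ) < D.N c := by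
    have := castN A.num hc
    have := A.num.hl c hc
    exact_mod_cast (by omega : 0 < D.N c)
  have k := (convex_closedBall (0 : ℂ) (‖D.κ c‖ * D.ϱ c ^ 2 / 2 - ε * D.m)).add_smul_sub_mem
    (x := D.τ₀ c ζ) (y := D.τ₀ c ζ + ε * D.N c) (mem_closedBall_zero_iff.2 (by linarith))
    (mem_closedBall_zero_iff.2 (by linarith)) (t := x / D.N c)
    ⟨by positivity, (div_le_one n0).2 x1⟩
  have n1 : (D.N c : ℂ) ≠ 0 := by exact_mod_cast n0.ne'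
  have e : D.τ₀ c ζ + (x / D.N c) • (D.τ₀ c ζ + ε * D.N c - D.τ₀ c ζ) = D.τ₀ c ζ + ε * x := by
    rw [real_smul]
    push_cast
    field_simp
    ring
  rw [e, mem_closedBall_zero_iff] at k
  rw [add_right_comm]
  refine (norm_add_le _ _).trans ?_
  rw [norm_mul, norm_real, Real.norm_of_nonneg ε0.le]
  nlinarith [(Nat.cast_nonneg D.m : (0 : ℝ) ≤ D.m)]

/-- the level of the leaf -/
def Jz (D : Md) (c : ℕ) (ζ : ℂ) : ℂ := (D.Λ c (D.Z (D.hi c, ζ))).2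

theorem tnu (ε0 : 0 < ε) (c : ℕ) (ζ s : ℂ) : ε * (s - D.ν ε c ζ) = D.τ₀ c ζ + ε * s := by
  have : (ε : ℂ) ≠ 0 := by exact_mod_cast ε0.ne'
  rw [Md.ν]
  field_simp
  ring

theorem clr (ε0 : 0 < ε) {s : ℂ} (h : ς ^ 19 / ε ≤ ‖s‖) : ς ^ 19 ≤ ‖ε * s‖ := by
  rw [norm_mul, norm_real, Real.norm_of_nonneg ε0.le]
  rwa [div_le_iff₀' ε0] at h

/-- **partial passage from the left** -/
theorem partL (A : Mach K ς ε D) (S : Sm K ς) {c : ℕ} (hc : c < D.M) {ζ t : ℂ} (hζ : ‖ζ‖ < D.R)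
    (ht : ‖t‖ ≤ D.m / 2) {n : ℕ} (hn : n ≤ D.N c)
    (cl : ∀ j ≤ n, ς ^ 19 / ε ≤ ‖t + j - D.ν ε c ζ‖) {q : ℂ × ℂ}
    (hq : q ∈ ball (D.Ct (D.hi c) ζ t) (ς ^ 20)) : ∀ j ≤ n,
    Ps D.T (D.Λ c) (D.Ξ c) (D.τ c) (D.J c) (D.ϱ c) (ς ^ 10) (45 * K ^ 3 * ς ^ 20) q j
      (ε * (t + j - D.ν ε c ζ)) (Jz D c ζ) := by
  have N := A.num
  have ε0 := (nums N).1
  obtain ⟨k1, k2, k3, k4⟩ := N.κ c hc
  have ck := (A.ck c hc ζ hζ).1
  obtain ⟨s1, s2, s3⟩ := start A S hc (gapL N hc) hζ ht ck hq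
  have n1 : (n : ℝ) ≤ D.N c := by exact_mod_cast hn
  have e : ∀ j : ℕ, D.τ₀ c ζ + ε * t + j * ε = ε * (t + j - D.ν ε c ζ) := fun j => by
    rw [tnu ε0]
    ring
  have K3 : 0 < K ^ 3 := pow_pos (by linarith [S.K1]) 3
  have ϱ0 := (A.pat c hc).1.clk.r0
  intro j hj
  have := core S (A.pat c hc).1 (by rw [norm_real, Real.norm_of_nonneg ε0.le, N.eq]) k1 k2 k3 k4
    (ck.ri q s1) (ck.mem q s1).2.1 (by linarith [(ck.mem q s1).2.2]) (A := 37 * K ^ 3)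
    (by linarith) s2 s3 (N := n) (by
      rw [← N.eq]
      exact (mul_le_mul_of_nonneg_left n1 ε0.le).trans (lenN N hc)) (fun j hj => ⟨by
        have := clr ε0 (cl j hj)
        rwa [← e] at this, by
        have := upper A hc hζ ht (x := j) (Nat.cast_nonneg j)
          ((Nat.cast_le.2 hj).trans n1)
        rwa [ofReal_natCast, mul_comm (ε : ℂ) j] at this⟩) j hj
  rw [← e, show 45 * K ^ 3 = 37 * K ^ 3 + 8 * K ^ 3 by ring]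
  exact this

/-- the deep orbit -/
theorem orb (A : Mach K ς ε D) {ζ s : ℂ} (hζ : ‖ζ‖ < D.R) (hs : |s.im| ≤ 8 * D.n) (h0 : D.Hor s)
    (j : ℕ) (h1 : D.Hor (s + j)) :
    D.T^[j] (D.Z (s, ζ)) = D.Z (s + j, ζ) ∧ D.T'^[j] (D.Z (s + j, ζ)) = D.Z (s, ζ) := by
  induction j with
  | zero => simp
  | succ j ih =>
    have h2 : D.Hor (s + j) := by
      obtain ⟨a, b⟩ := h0
      obtain ⟨c, d⟩ := h1
      simp only [Md.Hor, add_re, natCast_re, Nat.cast_succ, one_re] at c d ⊢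
      constructor <;> linarith [(Nat.cast_nonneg j : (0 : ℝ) ≤ j)]
    obtain ⟨i1, i2⟩ := ih h2
    obtain ⟨-, -, d1, d2⟩ := A.deep (s + j) ζ h2 (Or.inl ⟨hζ, by simpa using hs⟩)
    rw [Function.iterate_succ_apply', Function.iterate_succ_apply, i1, Nat.cast_succ, ← add_assoc,
      d1, d2, i2]
    exact ⟨rfl, rfl⟩

theorem addN (N : Num K ς ε D) {c : ℕ} (hc : c < D.M) :
    ((D.hi c : ℤ) : ℂ) + (D.N c : ℕ) = (D.lo (c + 1) : ℤ) := by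
  have : D.hi c + (D.N c : ℤ) = D.lo (c + 1) := by rw [castN N hc]; ring
  exact_mod_cast this

/-- the clock at the base point of the right chart -/
theorem deepR (A : Mach K ς ε D) (S : Sm K ς) {c : ℕ} (hc : c < D.M) {ζ : ℂ} (hζ : ‖ζ‖ < D.R) :
    ‖D.τ c (D.Λ c (D.Z (D.lo (c + 1), ζ))) - (D.τ₀ c ζ + D.N c * ε)‖ ≤ 8 * K ^ 3 * ς ^ 20 ∧
      ‖(D.Λ c (D.Z (D.lo (c + 1), ζ))).2 - Jz D c ζ‖ ≤ 8 * K ^ 3 * ς ^ 20 := by
  have N := A.num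
  obtain ⟨ε0, r0, -, n4, -, -⟩ := nums N
  obtain ⟨k1, k2, k3, k4⟩ := N.κ c hc
  have ck := (A.ck c hc ζ hζ).1
  have s1 := mem_ball_self (x := D.Z (D.hi c, ζ)) r0
  have K1 := S.K1
  have ϱ0 := (A.pat c hc).1.clk.r0
  have n0 : (0 : ℝ) ≤ D.n := Nat.cast_nonneg _
  have h0 := (Tb.hor N (gapL N hc) (z := 0) (by simpa using n0))
  have h1 := (Tb.hor N (gapR N hc) (z := 0) (by simpa using n0)).1
  rw [add_zero] at h0 h1
  have o := (orb A hζ h0.2 h0.1 (D.N c) (by rwa [addN N hc])).1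
  rw [addN N hc] at o
  have := core S (A.pat c hc).1 (by rw [norm_real, Real.norm_of_nonneg ε0.le, N.eq]) k1 k2 k3 k4
    (ck.ri _ s1) (ck.mem _ s1).2.1 (by linarith [(ck.mem _ s1).2.2]) (A := 0) (w := D.τ₀ c ζ)
    (J := Jz D c ζ) (by positivity) (by simp [Md.τ₀]) (by simp [Jz]) (N := D.N c)
    (by rw [← N.eq]; exact lenN N hc) (fun j hj => ⟨?_, by
        have := upper A hc hζ (t := 0) (by simp; positivity) (x := j) (Nat.cast_nonneg j)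
          (Nat.cast_le.2 hj)
        rwa [ofReal_natCast, mul_comm (ε : ℂ) j, mul_zero, add_zero] at this⟩) _ le_rfl
  · have t1 := this.tm
    have t2 := this.lv
    rw [o, zero_add] at t1 t2
    exact ⟨t1, t2⟩
  · refine le_trans ?_ (abs_im_le_norm _)
    have g := (A.geo c hc ζ hζ).1
    have e : (D.τ₀ c ζ + j * ε).im = (D.τ₀ c ζ).im := by simp
    have := S.mul 1 (by norm_num) (a := 0) (b := 19) (by norm_num)
    rw [e]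
    refine le_trans ?_ (neg_le_abs _)
    refine le_trans (le_of_mul_le_mul_left ?_ (show 0 < K by linarith)) (le_neg.1 g)
    nlinarith [pow_pos S.ς0 19]

/-- **partial passage from the right** -/
theorem partR (A : Mach K ς ε D) (S : Sm K ς) {c : ℕ} (hc : c < D.M) {ζ t : ℂ} (hζ : ‖ζ‖ < D.R)
    (ht : ‖t‖ ≤ D.m / 2) {n : ℕ} (hn : n ≤ D.N c)
    (cl : ∀ j ≤ n, ς ^ 19 / ε ≤ ‖t + D.N c - j - D.ν ε c ζ‖) {q : ℂ × ℂ}
    (hq : q ∈ ball (D.Ct (D.lo (c + 1)) ζ t) (ς ^ 20)) : ∀ j ≤ n,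
    Ps D.T' (D.Λ c) (D.Ξ c) (D.τ c) (D.J c) (D.ϱ c) (ς ^ 10) (53 * K ^ 3 * ς ^ 20) q j
      (ε * (t + D.N c - j - D.ν ε c ζ)) (Jz D c ζ) := by
  have N := A.num
  have ε0 := (nums N).1
  obtain ⟨k1, k2, k3, k4⟩ := N.κ c hc
  have ck := (A.ck c hc ζ hζ).2
  obtain ⟨s1, s2, s3⟩ := start A S hc (gapR N hc) hζ ht ck hq
  obtain ⟨d1, d2⟩ := deepR A S hc hζ
  have n1 : (n : ℝ) ≤ D.N c := by exact_mod_cast hn
  have e : ∀ j : ℕ, D.τ₀ c ζ + D.N c * ε + ε * t + j * -ε =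
      ε * (t + D.N c - j - D.ν ε c ζ) := fun j => by
    rw [tnu ε0]
    ring
  have K3 : 0 < K ^ 3 := pow_pos (by linarith [S.K1]) 3
  have ϱ0 := (A.pat c hc).1.clk.r0
  intro j hj
  have := core S (A.pat c hc).2 (by rw [norm_neg, norm_real, Real.norm_of_nonneg ε0.le, N.eq])
    k1 k2 k3 k4 (ck.ri q s1) (ck.mem q s1).2.1 (by linarith [(ck.mem q s1).2.2]) (A := 45 * K ^ 3)
    (w := D.τ₀ c ζ + D.N c * ε + ε * t) (J := Jz D c ζ) (by linarith) (by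
      have := norm_add_le (D.τ c (D.Λ c q) - (D.τ c (D.Λ c (D.Z (D.lo (c + 1), ζ))) + ε * t))
        (D.τ c (D.Λ c (D.Z (D.lo (c + 1), ζ))) - (D.τ₀ c ζ + D.N c * ε))
      refine le_trans (le_of_eq (congrArg _ (by ring))) (this.trans (by linarith)))
    ((norm_sub_le_norm_sub_add_norm_sub _ _ _).trans
      ((add_le_add s3 d2).trans_eq (by ring))) (N := n) (by
      rw [← N.eq]
      exact (mul_le_mul_of_nonneg_left n1 ε0.le).trans (lenN N hc)) (fun j hj => ⟨by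
        have := clr ε0 (cl j hj)
        rwa [← e] at this, by
        have j1 : (j : ℝ) ≤ D.N c := (Nat.cast_le.2 hj).trans n1
        have := upper A hc hζ ht (x := D.N c - j) (by linarith)
          (by linarith [(Nat.cast_nonneg j : (0 : ℝ) ≤ j)])
        refine le_trans (le_of_eq (congrArg _ ?_)) this
        push_cast
        ring⟩) j hj
  rw [← e, show 53 * K ^ 3 = 45 * K ^ 3 + 8 * K ^ 3 by ring]
  exact this

end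

end Vale.Agent.P097F.G
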