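import Vale.Agent.P097F.G.Defs
import Vale.Agent.P097F.G.Part
import Vale.Agent.P097F.S.FarB

/-!
# P097F/G: the two gates
-/

set_option linter.all false

noncomputable section

namespace Vale.Agent.P097F.G

open Filter Topology Set Metric Complex Vale.Agent.P097F.N
open Vale.Agent.P097EE (C2 Gate)
open Vale.Agent.P097F.S (sc)

namespace GtL

variable {K K' ς ε A h lam : ℝ} {D : Md} {c : ℕ} {ac : C2 → C2}

/-- the numbers -/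
structure Nb (K K' ς ε L h : ℝ) (D : Md) : Prop where
  e0 : 0 < ε
  l0 : 1 ≤ ς ^ 19 / ε
  l1 : 210 * (ς ^ 19 / ε) ≤ L
  hL : 10 * h ≤ L
  b : ε * (K * L) ≤ ς ^ 18
  c : K * L < D.R
  d : 9 * L + (10 * D.n + K * (K * L)) ≤ D.m / 2
  e : ς ^ 20 / ε ≤ ς ^ 19 / ε
  f : K * (2 * (ε * (21 * L) + K' * ς ^ 20)) ≤ (ς ^ 9) ^ 2
  g : K' * ς ^ 20 + K' * ς ^ 18 ≤ ς ^ 9
  h : K' * ς ^ 9 ≤ K' * ς
  i : K' * ς ^ 27 + K' * ς ^ 20 + ε * (ς ^ 20 / ε) ≤ ε * (K' * ς * L)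

theorem nb0 {K K' ς x : ℝ} (K1 : 1 ≤ K) (k1 : 1 ≤ K') (ς0 : 0 < ς)
    (hs : 10 ^ 7 * K ^ 2 * K' * ς ≤ 1) (x1 : 210 * ς ^ 19 ≤ x) (x2 : x ≤ 12000 * ς ^ 19) :
    ς ≤ 1 ∧ K * x ≤ ς ^ 18 ∧ K * (K * x) < 4 ∧ K * (9 * x + K * (K * x)) ≤ 40 ∧
      K * (2 * (21 * x + K' * ς ^ 20)) ≤ (ς ^ 9) ^ 2 ∧ K' * ς ^ 20 + K' * ς ^ 18 ≤ ς ^ 9 ∧
      K' * ς ^ 27 + K' * ς ^ 20 + ς ^ 20 ≤ K' * ς * x := by
  have s1 : 10 ^ 7 * (K ^ 2 * ς) ≤ 1 := by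
    have : K ^ 2 * ς * 1 ≤ K ^ 2 * ς * K' := by gcongr
    linarith
  have s2 : 10 ^ 7 * (K * K' * ς) ≤ 1 := by
    have : K * K' * ς * 1 ≤ K * K' * ς * K := by gcongr
    linarith
  have s3 : 10 ^ 7 * (K * ς) ≤ 1 := by
    have : K * ς * 1 ≤ K * ς * K' := by gcongr
    linarith
  have s4 : 10 ^ 7 * (K' * ς) ≤ 1 := by
    have : K' * ς * 1 ≤ K' * ς * K := by gcongr
    linarith
  have ς1 : ς ≤ 1 := by
    have : ς * 1 ≤ ς * K := by gcongr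
    linarith
  have pw : ∀ a b : ℕ, a ≤ b → ς ^ b ≤ ς ^ a := fun a b h => pow_le_pow_of_le_one ς0.le ς1 h
  have p18 : 0 < ς ^ 18 := by positivity
  have a0 : K * x ≤ K * (12000 * ς ^ 19) := by gcongr
  have a1 : 10 ^ 7 * (K * ς) * ς ^ 18 ≤ 1 * ς ^ 18 := by gcongr
  have a2 : K * x ≤ ς ^ 18 / 100 := by linarith
  have a3 : ς ^ 18 ≤ ς := by simpa using pw 1 18 (by norm_num)
  have a4 : K * (K * x) ≤ K * ς := by gcongr; linarith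
  have a5 : K * (K * (K * x)) ≤ K * (K * ς) := by gcongr
  have a6 : K * x ≤ ς ^ 18 / 800 := by linarith
  have a7 : K * (K' * ς ^ 20) ≤ K * (K' * ς ^ 19) := by
    gcongr K * (K' * ?_)
    exact pw _ _ (by norm_num)
  have a8 : 10 ^ 7 * (K * K' * ς) * ς ^ 18 ≤ 1 * ς ^ 18 := by gcongr
  have b1 : K' * ς ^ 20 ≤ K' * ς ^ 10 := by
    gcongr K' * ?_
    exact pw _ _ (by norm_num)
  have b2 : K' * ς ^ 18 ≤ K' * ς ^ 10 := by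
    gcongr K' * ?_
    exact pw _ _ (by norm_num)
  have b3 : 10 ^ 7 * (K' * ς) * ς ^ 9 ≤ 1 * ς ^ 9 := by gcongr
  have b4 : 0 < ς ^ 9 := by positivity
  have c1 : K' * ς ^ 27 ≤ K' * ς ^ 20 := by
    gcongr K' * ?_
    exact pw _ _ (by norm_num)
  have c2 : 1 * ς ^ 20 ≤ K' * ς ^ 20 := by gcongr
  have c3 : K' * ς * (210 * ς ^ 19) ≤ K' * ς * x := by gcongr
  have c4 : 0 ≤ K' * ς ^ 20 := by positivity
  exact ⟨ς1, by linarith, by linarith, by linarith, by linarith, by linarith, by linarith⟩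

theorem nb (N : Num K ς ε D) (Z : Sz K ς ε A h lam D c) (k1 : 1 ≤ K')
    (hs : 10 ^ 7 * K ^ 2 * K' * ς ≤ 1) : Nb K K' ς ε (10 * A * h) h D := by
  have K1 := N.K1
  have ς0 := N.ς0
  obtain ⟨ε0, -, n1, -, n2, n3⟩ := nums N
  have e1 : ε * (ς ^ 19 / ε) = ς ^ 19 := by field_simp
  have e2 : ε * (ς ^ 20 / ε) = ς ^ 20 := by field_simp
  have lp : 0 < ς ^ 19 / ε := by positivity
  obtain ⟨A1, A2⟩ := Z.A1
  obtain ⟨h1, h2⟩ := Z.h1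
  have L1 : 10 * h ≤ 10 * A * h := by nlinarith
  have L2 : 10 * A * h ≤ 12000 * (ς ^ 19 / ε) := by nlinarith
  have L3 : 210 * (ς ^ 19 / ε) ≤ 10 * A * h := by linarith
  generalize 10 * A * h = L at *
  have x1 := mul_le_mul_of_nonneg_left L3 ε0.le
  have x2 := mul_le_mul_of_nonneg_left L2 ε0.le
  obtain ⟨a0, a1, a2, a3, a4, a5, a6⟩ := nb0 (x := ε * L) K1 k1 ς0 hs (by linarith) (by linarith)
  have K0 : 0 < K := by linarith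
  refine ⟨ε0, ?_, L3, L1, by linarith, ?_, ?_, ?_, by linarith, a5, ?_, by linarith⟩
  · rw [le_div_iff₀ ε0, one_mul, N.eq]
    exact pow_le_pow_of_le_one ς0.le a0 (by norm_num)
  · have b : K * (ε * (K * L)) < K * (ε * D.R) := by linarith
    exact lt_of_mul_lt_mul_left (lt_of_mul_lt_mul_left b K0.le) ε0.le
  · have b : K * (ε * (9 * L + K * (K * L))) ≤ K * (ε * (D.m / 4)) := by linarith
    have b3 := le_of_mul_le_mul_left (le_of_mul_le_mul_left b K0) ε0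
    linarith
  · exact div_le_div_of_nonneg_right (pow_le_pow_of_le_one ς0.le a0 (by norm_num)) ε0.le
  · gcongr K' * ?_
    simpa using pow_le_pow_of_le_one ς0.le a0 (by norm_num : 1 ≤ 9)

theorem nε (e0 : 0 < ε) (x : ℂ) : ‖(ε : ℂ) * x‖ = ε * ‖x‖ := by
  rw [norm_mul, norm_real, Real.norm_of_nonneg e0.le]

/-- the state at the gate -/
theorem pt {L : ℝ} (M : Mach K ς ε D) (hc : c < D.M) (B : Nb K K' ς ε L h D)
    (C : AC K' ς ε D c ac) (k1 : 1 ≤ K') {ζ w r : ℂ} {p : C2} (a : At K' ς ε D c ζ (w - r) p)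
    (w1 : ‖w‖ ≤ 20 * L) (r1 : ‖r‖ ≤ ς ^ 20 / ε) (v : ‖Jb D c ζ - Jb D c 0‖ ≤ K' * ς ^ 18) :
    AnalyticAt ℂ (fun p => ac (S.pr ε p)) p ∧ ‖(ac (S.pr ε p)).2‖ ≤ K' * ς ∧
      ‖(ac (S.pr ε p)).1 ^ 2 - w‖ ≤ K' * ς * L := by
  obtain ⟨m1, m2, m3, m4⟩ := a
  have ε0 := B.e0
  have K1 := M.num.K1
  have ς0 := M.num.ς0
  have u1 : ‖(D.Λ c p).1‖ ≤ ς ^ 9 := by
    have P := (M.pat c hc).1.clk
    have b1 := P.lo (ball_subset_ball (by linarith [P.r0]) m1.1)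
    have b2 := norm_sub_norm_le (D.τ c (D.Λ c p)) (ε * (w - r))
    have b3 : ε * ‖w - r‖ ≤ ε * (21 * L) := by
      gcongr
      linarith [norm_sub_le w r, B.e, B.l0, B.l1]
    rw [nε ε0] at b2
    have b4 : 0 ≤ ‖D.κ c‖ * ‖(D.Λ c p).1‖ ^ 2 := by positivity
    have b6 : ‖D.κ c‖ * ‖(D.Λ c p).1‖ ^ 2 ≤ 2 * (ε * (21 * L) + K' * ς ^ 20) := by linarith
    have b7 : 1 * ‖(D.Λ c p).1‖ ^ 2 ≤ K * ‖D.κ c‖ * ‖(D.Λ c p).1‖ ^ 2 := by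
      gcongr
      exact (M.num.κ c hc).1
    have b8 := mul_le_mul_of_nonneg_left b6 (by linarith : 0 ≤ K)
    exact le_of_pow_le_pow_left₀ (n := 2) (by norm_num) (by positivity) (by linarith [B.f])
  have u2 : ‖(D.Λ c p).2 - Jb D c 0‖ ≤ ς ^ 9 := by
    linarith [norm_sub_le_norm_sub_add_norm_sub (D.Λ c p).2 (Jb D c ζ) (Jb D c 0), B.g]
  obtain ⟨g1, g2⟩ := C.rel _ m1 u1 u2
  have g0 := C.an _ m1
  rw [m2] at g0 g1 g2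
  refine ⟨g0, g2.trans B.h, le_of_mul_le_mul_left ?_ ε0⟩
  have b1 : (ε : ℂ) * ((ac (S.pr ε p)).1 ^ 2 - w) =
      (ε * (ac (S.pr ε p)).1 ^ 2 - D.τ c (D.Λ c p)) +
        (D.τ c (D.Λ c p) - ε * (w - r)) - ε * r := by ring
  have b2 := norm_sub_le ((ε * (ac (S.pr ε p)).1 ^ 2 - D.τ c (D.Λ c p)) +
    (D.τ c (D.Λ c p) - ε * (w - r))) (ε * r)
  have b3 := norm_add_le (ε * (ac (S.pr ε p)).1 ^ 2 - D.τ c (D.Λ c p))
    (D.τ c (D.Λ c p) - ε * (w - r))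
  rw [← b1, nε ε0, nε ε0] at b2
  have b4 := mul_le_mul_of_nonneg_left r1 ε0.le
  linarith [B.i]

theorem tle {L : ℝ} (N : Num K ς ε D) (B : Nb K K' ς ε L h D) {x ζ : ℂ} (x1 : ‖x‖ ≤ 9 * L)
    (z1 : ‖ζ‖ ≤ K * L) : ‖x + I * (D.m₀ + D.m₁ * ζ)‖ ≤ D.m / 2 := by
  have n0 : (0 : ℝ) ≤ D.n := by positivity
  refine (norm_add_le _ _).trans ((add_le_add x1 ?_).trans B.d)
  rw [norm_mul, norm_I, one_mul]
  refine (norm_add_le _ _).trans (add_le_add ?_ ?_)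
  · rw [norm_real, Real.norm_of_nonneg (by linarith [N.m0.1])]
    exact N.m0.2
  · rw [norm_mul, norm_real, Real.norm_eq_abs]
    exact mul_le_mul N.m1 z1 (norm_nonneg _) (by linarith [N.K1])

theorem geo {L l a : ℝ} {x y ξ r : ℂ} (ha : a = 1 ∨ a = -1) (l0 : 1 ≤ l) (l1 : 210 * l ≤ L)
    (hL : 10 * h ≤ L) (c1 : |a * ξ.re - 8 * L| ≤ L) (c2 : |ξ.im| ≤ h / 2) (q1 : |x.re| ≤ 4 * L)
    (q2 : ξ.im - 4 * L ≤ x.im) (q3 : x.im ≤ ξ.im + 4 * L) (y1 : ‖y‖ ≤ L) :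
    ‖x‖ ≤ 9 * L ∧ ‖x - y - ξ‖ ≤ 20 * L ∧
      (‖r‖ ≤ l → ∀ n j : ℕ, j ≤ n → l ≤ ‖x - y - ξ - r - a * (n - j)‖) := by
  have c3 := abs_le.1 c2
  have b6 := abs_le.1 c1
  have q5 : ‖x‖ ≤ 9 * L := by
    have b1 := norm_le_abs_re_add_abs_im x
    have b2 : |x.im| ≤ 5 * L := abs_le.2 ⟨by linarith [c3.1], by linarith [c3.2]⟩
    linarith
  refine ⟨q5, ?_, fun r1 n j hj => ?_⟩
  · have b1 := norm_le_abs_re_add_abs_im ξ
    have b2 : |ξ.re| ≤ 9 * L := by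
      rcases ha with rfl | rfl <;> rw [abs_le] <;> constructor <;> linarith [b6.1, b6.2]
    linarith [norm_sub_le (x - y) ξ, norm_sub_le x y]
  · have j1 : (j : ℝ) ≤ n := by exact_mod_cast hj
    have b1 := abs_le.1 (abs_re_le_norm (x - y - ξ - r - a * (n - j)))
    have b2 : (x - y - ξ - r - a * (n - j)).re = x.re - y.re - ξ.re - r.re - a * (n - j) := by
      simp
    have b3 := abs_le.1 (abs_re_le_norm y)
    have b4 := abs_le.1 (abs_re_le_norm r)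
    have b5 := abs_le.1 q1
    rw [b2] at b1
    rcases ha with rfl | rfl <;> linarith [b1.1, b1.2, b3.1, b3.2, b4.1, b4.2, b5.1, b5.2, b6.1]

/-- one gate; `a` is the direction, `b` the offset of the station -/
theorem core (M : Mach K ς ε D) (Z : Sz K ς ε A h lam D c) (V : Nu K' ς ε D c)
    (C : AC K' ς ε D c ac) (k1 : 1 ≤ K') (hs : 10 ^ 7 * K ^ 2 * K' * ς ≤ 1) {T : C2 → C2} {n : ℕ}
    {i : ℤ} (gi : D.Gap i) {a : ℝ} (ha : a = 1 ∨ a = -1) {b ξ : ℂ}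
    (hξ : ξ = D.ν ε c 0 - I * D.m₀ - b - a * n) (c1 : |a * ξ.re - 8 * (10 * A * h)| ≤ 10 * A * h)
    (c2 : |ξ.im| ≤ h / 2)
    (H : ∀ ζ t : ℂ, ‖ζ‖ < D.R → ‖t‖ ≤ D.m / 2 →
      (∀ j ≤ n, ς ^ 19 / ε ≤ ‖t + b + a * j - D.ν ε c ζ‖) → AnalyticAt ℂ T^[n] (D.Ct i ζ t) ∧
        At K' ς ε D c ζ (t + b + a * n - D.ν ε c ζ) (T^[n] (D.Ct i ζ t))) :
    Gate (fun q => ac (S.pr ε (T^[n] (D.C i (sc lam q))))) a (D.sl ε c * lam : ℝ) ξ (10 * A * h)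
      (K' * ς) := by
  have N := M.num
  have B := nb N Z k1 hs
  obtain ⟨l0, -, -⟩ := S.Fr.la N Z.la.1 Z.la.2
  have f1 : ‖((D.sl ε c * lam : ℝ) : ℂ)‖ ≤ 1 := by
    rw [norm_real, Real.norm_eq_abs, abs_mul, abs_of_pos l0]
    exact Z.sl
  generalize 10 * A * h = L at *
  refine ⟨c1, f1, fun q ⟨q1, q2, q3, q4⟩ => ?_⟩
  obtain ⟨ζ, hζ⟩ : ∃ ζ : ℂ, ζ = lam * q.2 := ⟨_, rfl⟩
  obtain ⟨t, ht⟩ : ∃ t : ℂ, t = q.1 + I * (D.m₀ + D.m₁ * ζ) := ⟨_, rfl⟩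
  have eC : D.C i (sc lam q) = D.Ct i ζ t := by
    rw [ht, hζ]
    rfl
  have z1 : ‖ζ‖ ≤ K * L := by
    rw [hζ, norm_mul, norm_real, Real.norm_of_nonneg l0.le]
    exact mul_le_mul Z.la.2 q4 (norm_nonneg _) (by linarith [N.K1])
  have z2 : ε * ‖ζ‖ ≤ ς ^ 18 := (mul_le_mul_of_nonneg_left z1 B.e0.le).trans B.b
  have z3 : ‖ζ‖ < D.R := z1.trans_lt B.c
  obtain ⟨v1, -, v3⟩ := V.2.2.2 ζ z2
  obtain ⟨r, hr⟩ : ∃ r, r = D.ν ε c ζ - D.ν ε c 0 - (D.sl ε c + I * D.m₁) * ζ := ⟨_, rfl⟩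
  have y1 : ‖((D.sl ε c * lam : ℝ) : ℂ) * q.2‖ ≤ L := by
    rw [norm_mul]
    exact (mul_le_of_le_one_left (norm_nonneg _) f1).trans q4
  rw [← hr] at v1
  obtain ⟨g1, g2, g3⟩ := geo (r := r) ha B.l0 B.l1 B.hL c1 c2 q1 q2 q3 y1
  have ex : ∀ j : ℕ, t + b + a * j - D.ν ε c ζ =
      q.1 - ((D.sl ε c * lam : ℝ) : ℂ) * q.2 - ξ - r - a * (n - j) := by
    intro j
    rw [hr, hξ, ht, hζ]
    push_cast
    ring
  obtain ⟨a1, a2⟩ := H ζ t z3 (ht ▸ tle N B g1 z1) fun j hj => by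
    rw [ex]
    exact g3 (v1.trans B.e) n j hj
  rw [ex, sub_self, mul_zero, sub_zero] at a2
  obtain ⟨u1, u2, u3⟩ := pt M Z.cM B C k1 a2 g2 v1
    (v3.trans (mul_le_mul_of_nonneg_left z2 (by linarith)))
  rw [← eC] at u1 u2 u3 a1
  refine ⟨?_, u2, u3⟩
  have b1 : AnalyticAt ℂ (fun q => D.C i (sc lam q)) q :=
    AnalyticAt.comp (g := D.C i) (S.Fr.anC M gi (p := sc lam q) (by
      show ‖(lam : ℂ) * q.2‖ < _
      rwa [← hζ])) (S.Fr.sc_an lam q)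
  exact AnalyticAt.comp (g := fun p => ac (S.pr ε p)) u1 (AnalyticAt.comp (g := T^[n]) a1 b1)

/-- both gates from the two partial passages -/
theorem both (M : Mach K ς ε D) (Z : Sz K ς ε A h lam D c) (V : Nu K' ς ε D c) (R : Ar ε A h D c)
    (C : AC K' ς ε D c ac) (k1 : 1 ≤ K') (hs : 10 ^ 7 * K ^ 2 * K' * ς ≤ 1)
    (HL : ∀ ζ t : ℂ, ‖ζ‖ < D.R → ‖t‖ ≤ D.m / 2 → ∀ n ≤ D.N c,
      (∀ j ≤ n, ς ^ 19 / ε ≤ ‖t + j - D.ν ε c ζ‖) → AnalyticAt ℂ D.T^[n] (D.Ct (D.hi c) ζ t) ∧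
        At K' ς ε D c ζ (t + n - D.ν ε c ζ) (D.T^[n] (D.Ct (D.hi c) ζ t)))
    (HR : ∀ ζ t : ℂ, ‖ζ‖ < D.R → ‖t‖ ≤ D.m / 2 → ∀ n ≤ D.N c,
      (∀ j ≤ n, ς ^ 19 / ε ≤ ‖t + D.N c - j - D.ν ε c ζ‖) →
        AnalyticAt ℂ D.T'^[n] (D.Ct (D.lo (c + 1)) ζ t) ∧
        At K' ς ε D c ζ (t + D.N c - n - D.ν ε c ζ) (D.T'^[n] (D.Ct (D.lo (c + 1)) ζ t))) :
    Gt K' ς ε A h lam D c ac := by
  have B := nb M.num Z k1 hs
  obtain ⟨r1, ⟨r2, r3⟩, ⟨r4, r5⟩, r6⟩ := R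
  have L2 : 2 ≤ 10 * A * h := by linarith [B.l0, B.l1]
  have eL : ∀ (t : ℂ) (j : ℕ), t + 0 + ((1 : ℝ) : ℂ) * j = t + j := fun t j => by simp
  have eR : ∀ (t : ℂ) (j : ℕ), t + D.N c + ((-1 : ℝ) : ℂ) * j = t + D.N c - j := fun t j => by
    push_cast
    ring
  constructor
  · refine core M Z V C k1 hs (gapL M.num Z.cM) (Or.inl rfl) (b := 0) (by simp [xg])
      (abs_le.2 ⟨by linarith, by linarith⟩) r6 fun ζ t z1 t1 cl => ?_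
    simp only [eL] at cl ⊢
    exact HL ζ t z1 t1 _ (by omega) cl
  · refine core M Z V C k1 hs (gapR M.num Z.cM) (Or.inr rfl) (b := D.N c) ?_ ?_ ?_
      fun ζ t z1 t1 cl => ?_
    · rw [← r1, xg]
      push_cast
      ring
    · rw [sub_re, natCast_re]
      push_cast
      exact abs_le.2 ⟨by linarith, by linarith⟩
    · rwa [sub_im, natCast_im, sub_zero]
    · simp only [eR] at cl ⊢
      exact HR ζ t z1 t1 _ (by omega) cl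

theorem small {K K' ς : ℝ} (K1 : 1 ≤ K) (k1 : 1 ≤ K') (h : ς < 1 / (10 ^ 7 * max K 1 ^ 2 * K')) :
    10 ^ 7 * K ^ 2 * K' * ς ≤ 1 := by
  rw [max_eq_left K1, lt_div_iff₀ (by positivity)] at h
  linarith

end GtL

theorem gt : S_GT := by
  intro K K' k1
  refine ⟨1 / (10 ^ 7 * max K 1 ^ 2 * K'), by positivity, fun ς ε A h lam D c ac hς M Z V R P C => ?_⟩
  have b : 0 < ς ^ 20 := pow_pos M.num.ς0 _
  refine GtL.both M Z V R C k1 (GtL.small M.num.K1 k1 hς) (fun ζ t z1 t1 n hn cl => ?_)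
    fun ζ t z1 t1 n hn cl => ?_
  · have := (P c Z.cM ζ t z1 t1 n hn).1 cl _ (mem_ball_self b)
    exact ⟨this.1, this.2.2⟩
  · have := (P c Z.cM ζ t z1 t1 n hn).2 cl _ (mem_ball_self b)
    exact ⟨this.1, this.2.2⟩

/-- the gates without the hypothesis `PasJ` -/
theorem gt' (K K' : ℝ) (k1 : 53 * max K 1 ^ 3 ≤ K') : ∃ ς₀ > 0, ∀ ς ε A h lam D c ac, ς < ς₀ →
    Mach K ς ε D → Sz K ς ε A h lam D c → Nu K' ς ε D c → Ar ε A h D c → AC K' ς ε D c ac →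
    Gt K' ς ε A h lam D c ac := by
  have k0 : 1 ≤ max K 1 ^ 3 := one_le_pow₀ (le_max_right _ _)
  have k2 : 1 ≤ K' := by linarith
  refine ⟨min (1 / (10 ^ 7 * max K 1 ^ 2 * K')) (1 / (1000 * max K 1 ^ 6)),
    lt_min (by positivity) (by positivity), fun ς ε A h lam D c ac hς M Z V R C => ?_⟩
  have b : 0 < ς ^ 20 := pow_pos M.num.ς0 _
  have S := sm_of M.num (hς.trans_le (min_le_right _ _))
  rw [max_eq_left M.num.K1] at k1 k0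
  have e1 : 45 * K ^ 3 * ς ^ 20 ≤ K' * ς ^ 20 := mul_le_mul_of_nonneg_right (by linarith) b.le
  have e2 : 53 * K ^ 3 * ς ^ 20 ≤ K' * ς ^ 20 := mul_le_mul_of_nonneg_right k1 b.le
  refine GtL.both M Z V R C k2 (GtL.small M.num.K1 k2 (hς.trans_le (min_le_left _ _)))
    (fun ζ t z1 t1 n hn cl => ?_) fun ζ t z1 t1 n hn cl => ?_
  · have := partL M S Z.cM z1 t1 hn cl (mem_ball_self b) n le_rfl
    exact ⟨this.an, this.mem, this.ri, this.tm.trans e1, this.lv.trans e1⟩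
  · have := partR M S Z.cM z1 t1 hn cl (mem_ball_self b) n le_rfl
    exact ⟨this.an, this.mem, this.ri, this.tm.trans e2, this.lv.trans e2⟩

end Vale.Agent.P097F.G
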