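import Vale.Agent.P097F.G.Defs
import Vale.Agent.P097F.N.Lin

/-!
# P097F/G: the position of an obstacle near the top, arithmetic of the gates
-/

set_option linter.all false

noncomputable section

namespace Vale.Agent.P097F.G

open Filter Topology Set Metric Complex Vale.Agent.P097F.N

theorem NuA.dJ {K ς ε : ℝ} {D : Md} (A : Mach K ς ε D) {c : ℕ} (hc : c < D.M) {ζ : ℂ}
    (hζ : ‖ζ‖ < D.R) : DifferentiableAt ℂ (Jb D c) ζ ∧ ‖Jb D c ζ - D.J c‖ ≤ 1 / 2 := by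
  have N := A.num
  obtain ⟨k1, k2⟩ := Lin.hor N hc.le
  have n0 : (0 : ℝ) ≤ D.n := Nat.cast_nonneg _
  have hor : D.Hor (D.hi c) := by
    have a : ((D.lo 0 : ℤ) : ℝ) ≤ (D.hi c : ℤ) := by exact_mod_cast k1
    have b : ((D.hi c : ℤ) : ℝ) ≤ (D.hi D.M : ℤ) := by exact_mod_cast k2
    constructor <;> rw [Complex.intCast_re] <;> linarith
  have hZ := (A.deep (D.hi c) ζ hor (Or.inl ⟨hζ, by rw [Complex.intCast_im, abs_zero]; linarith⟩)).1
  have r0 : 0 < D.r := by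
    by_contra h
    push Not at h
    nlinarith [N.r0, N.K1]
  have ck := (A.ck c hc ζ hζ).1
  have h1 : DifferentiableAt ℂ (fun z : ℂ => D.Z (D.hi c, z)) ζ :=
    DifferentiableAt.comp (g := D.Z) (f := fun z : ℂ => (((D.hi c : ℤ) : ℂ), z)) ζ
      hZ.differentiableAt ((differentiableAt_const _).prodMk differentiableAt_id)
  exact ⟨(DifferentiableAt.comp (g := D.Λ c) ζ (ck.an _ (mem_ball_self r0)).differentiableAt h1).snd,
    by linarith [(ck.mem _ (mem_ball_self r0)).2.2.le, (N.κ c hc).2.2.2, Jb.eq_1 D c ζ ▸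
      (ck.mem _ (mem_ball_self r0)).2.2.le]⟩

theorem nu : S_NU := by
  intro K
  have K2 : 1 ≤ max K 1 := le_max_right _ _
  refine ⟨max K 1 ^ 2, one_le_pow₀ K2, 1 / (100 * max K 1 ^ 3), by positivity,
    fun ς ε A' h lam D c hς A Lv S => ?_⟩
  have N := A.num
  have hc := S.cM
  have K1 := N.K1
  rw [max_eq_left K1] at hς ⊢
  have ς0 := N.ς0
  have ε0 : 0 < ε := by rw [N.eq]; positivity
  have K0 : 0 < K := by linarith
  have s1 : 100 * K ^ 3 * ς ≤ 1 := by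
    rw [lt_div_iff₀ (by positivity)] at hς
    linarith
  have K3 : K ≤ K ^ 3 := le_self_pow₀ K1 (by norm_num)
  have s2 : 100 * K * ς ≤ 1 := by nlinarith
  have s3 : 100 * ς ≤ 1 := by nlinarith
  have pw : ∀ {a b : ℕ}, a ≤ b → ς ^ b ≤ ς ^ a := fun k => pow_le_pow_of_le_one ς0.le (by linarith) k
  set ρ := 1 / (K * ε) with hρ
  have ρ0 : 0 < ρ := by positivity
  have hR : ρ ≤ D.R := by
    have : 1 / (K * ε) ≤ D.H := by
      rw [div_le_iff₀ (by positivity)]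
      linarith [N.H0]
    linarith [N.HR]
  have hin : ∀ z ∈ ball (0 : ℂ) ρ, ‖z‖ < D.R := fun z hz => (mem_ball_zero_iff.1 hz).trans_le hR
  have sm : ∀ z : ℂ, ε * ‖z‖ ≤ ς → z ∈ ball (0 : ℂ) ρ := fun z k => by
    rw [mem_ball_zero_iff, hρ, lt_div_iff₀ (by positivity)]
    nlinarith
  have T : ∀ z : ℂ, ε * ‖z‖ ≤ ς → ‖D.ν ε c z - D.ν ε c 0‖ ≤ K ^ 2 * ‖z‖ ∧
      ‖D.ν ε c z - D.ν ε c 0 - deriv (D.ν ε c) 0 * z‖ * ε ≤ 2 * K ^ 3 * (ε * ‖z‖) ^ 2 := by
    intro z k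
    obtain ⟨-, t1, t2⟩ := tay (D := D.ν ε c) (m := K / (2 * ε))
      (fun z hz => ((Lin.dif A hc (hin z hz)).neg.div_const _).differentiableWithinAt)
      (fun z hz => by
        obtain ⟨-, -, -, g, -⟩ := A.geo c hc z (hin z hz)
        obtain ⟨-, k2, k3, k4⟩ := N.κ c hc
        have p0 : 0 < D.ϱ c := (A.pat c hc).1.clk.r0
        have p1 : D.ϱ c ^ 2 ≤ 1 := pow_le_one₀ p0.le k4
        have p2 : ‖D.κ c‖ * D.ϱ c ^ 2 ≤ K := (mul_le_of_le_one_right (norm_nonneg _) p1).trans k2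
        have p3 : 0 ≤ ε * D.m := by positivity
        show ‖-D.τ₀ c z / ε‖ ≤ _
        rw [norm_div, norm_neg, Complex.norm_real, Real.norm_of_nonneg ε0.le,
          div_le_div_iff₀ ε0 (by positivity)]
        have : ‖D.τ₀ c z‖ * 2 ≤ K := by linarith
        nlinarith) (sm z k)
    rw [sub_zero] at t1 t2
    rw [fderiv_eq_smul_deriv, smul_eq_mul, mul_comm z] at t2
    refine ⟨t1.trans (le_of_eq ?_), (mul_le_mul_of_nonneg_right t2 ε0.le).trans (le_of_eq ?_)⟩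
    · rw [hρ]
      field_simp
    · rw [hρ]
      field_simp
      ring
  obtain ⟨-, g1, g2, -⟩ := A.geo c hc 0 (hin 0 (mem_ball_self ρ0))
  have re : (D.ν ε c 0).re * ε = -(D.τ₀ c 0).re := by
    rw [Md.ν, div_ofReal_re, neg_re]
    field_simp
  have m0 : 0 ≤ ε * D.m := by positivity
  have q1 : 1 / (K ^ 2 * ε) * ε ≤ 1 / K := by
    rw [show 1 / (K ^ 2 * ε) * ε = 1 / K ^ 2 by field_simp]
    exact one_div_le_one_div_of_le K0 (le_self_pow₀ K1 two_ne_zero)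
  have l0 := Lv c hc 0 (by simp; positivity)
  -- the imaginary part of the slope
  have sl : |(deriv (D.ν ε c) 0).im - D.m₁| ≤ ς ^ 2 / 2 := by
    have one : ∀ ξ : ℝ, ε * |ξ| = ς ^ 10 →
        (D.m₁ - (deriv (D.ν ε c) 0).im) * (ε * ξ) ≤ ς ^ 2 / 2 * ς ^ 10 := by
      intro ξ e
      have p10 := pow_pos ς0 10
      have a1 := Lv c hc ξ (by linarith)
      have e' : ε * ‖(ξ : ℂ)‖ = ς ^ 10 := by rw [norm_real, Real.norm_eq_abs, e]
      have a2 := (T ξ (by rw [e']; simpa using pw (show 1 ≤ 10 by norm_num))).2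
      rw [e'] at a2
      have a3 := (le_abs_self _).trans
        (abs_im_le_norm (D.ν ε c ξ - D.ν ε c 0 - deriv (D.ν ε c) 0 * ξ))
      simp only [sub_im, mul_im, ofReal_re, ofReal_im, mul_zero, zero_add] at a3
      have a4 : (D.m₁ - (deriv (D.ν ε c) 0).im) * ξ ≤ 28 * (ς ^ 19 / ε) +
          ‖D.ν ε c ξ - D.ν ε c 0 - deriv (D.ν ε c) 0 * ξ‖ := by linarith [S.top, S.h1.2]
      have a5 := mul_le_mul_of_nonneg_right a4 ε0.le
      rw [add_mul, mul_assoc 28, div_mul_cancel₀ _ ε0.ne'] at a5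
      have b1 : 28 * ς ^ 19 ≤ 28 / 100 * ς ^ 12 := by
        calc _ ≤ 28 * ς ^ 13 := by linarith [pw (show 13 ≤ 19 by norm_num)]
          _ = 28 / 100 * (100 * ς * ς ^ 12) := by ring
          _ ≤ 28 / 100 * (1 * ς ^ 12) := by gcongr
          _ = _ := by ring
      have b2 : 2 * K ^ 3 * (ς ^ 10) ^ 2 ≤ 2 / 100 * ς ^ 12 := by
        calc _ = 2 * K ^ 3 * ς ^ 20 := by ring
          _ ≤ 2 * K ^ 3 * ς ^ 13 := by gcongr 2 * K ^ 3 * ?_; exact pw (by norm_num)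
          _ = 2 / 100 * (100 * K ^ 3 * ς * ς ^ 12) := by ring
          _ ≤ 2 / 100 * (1 * ς ^ 12) := by gcongr
          _ = _ := by ring
      have p12 := pow_pos ς0 12
      calc _ = (D.m₁ - (deriv (D.ν ε c) 0).im) * ξ * ε := by ring
        _ ≤ 1 / 2 * ς ^ 12 := by linarith
        _ = _ := by ring
    have p10 := pow_pos ς0 10
    have e : ε * (ς ^ 10 / ε) = ς ^ 10 := by field_simp
    have o1 := one (ς ^ 10 / ε) (by rw [abs_of_pos (by positivity), e])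
    have o2 := one (-(ς ^ 10 / ε)) (by rw [abs_neg, abs_of_pos (by positivity), e])
    rw [e] at o1
    rw [mul_neg, e, mul_neg, ← neg_mul] at o2
    rw [abs_le]
    constructor
    · linarith [le_of_mul_le_mul_right o1 p10]
    · linarith [le_of_mul_le_mul_right o2 p10]
  refine ⟨le_of_mul_le_mul_right (by linarith) ε0, le_of_mul_le_mul_right (by
    rw [add_mul]; linarith) ε0, by simpa using l0, fun ζ k => ?_⟩
  have k1 : ε * ‖ζ‖ ≤ ς := k.trans (by simpa using pw (show 1 ≤ 18 by norm_num))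
  obtain ⟨t1, t2⟩ := T ζ k1
  refine ⟨?_, t1, ?_⟩
  · have e : D.ν ε c ζ - D.ν ε c 0 - (D.sl ε c + I * D.m₁) * ζ =
        D.ν ε c ζ - D.ν ε c 0 - deriv (D.ν ε c) 0 * ζ +
          (((deriv (D.ν ε c) 0).im - D.m₁ : ℝ) : ℂ) * I * ζ := by
      conv_rhs => rw [← re_add_im (deriv (D.ν ε c) 0)]
      simp only [Md.sl, add_im, ofReal_im, mul_im, ofReal_re, I_im, I_re, mul_one, mul_zero,
        zero_add, add_zero, ofReal_sub]
      ring
    rw [e, le_div_iff₀ ε0]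
    refine (mul_le_mul_of_nonneg_right (norm_add_le _ _) ε0.le).trans ?_
    rw [norm_mul, norm_mul, norm_I, mul_one, norm_real, Real.norm_eq_abs, add_mul]
    have b1 : |(deriv (D.ν ε c) 0).im - D.m₁| * ‖ζ‖ * ε ≤ ς ^ 2 / 2 * ς ^ 18 := by
      rw [mul_assoc, mul_comm ‖ζ‖]
      gcongr
    have b2 : 2 * K ^ 3 * (ε * ‖ζ‖) ^ 2 ≤ 2 / 100 * ς ^ 20 := by
      calc _ ≤ 2 * K ^ 3 * (ς ^ 18) ^ 2 := by gcongr
        _ = 2 * K ^ 3 * ς ^ 36 := by ring
        _ ≤ 2 * K ^ 3 * ς ^ 21 := by gcongr 2 * K ^ 3 * ?_; exact pw (by norm_num)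
        _ = 2 / 100 * (100 * K ^ 3 * ς * ς ^ 20) := by ring
        _ ≤ 2 / 100 * (1 * ς ^ 20) := by gcongr
        _ = _ := by ring
    have p := pow_pos ς0 20
    have : ς ^ 2 / 2 * ς ^ 18 = ς ^ 20 / 2 := by ring
    linarith
  · have := (tay (D := fun z => Jb D c z - D.J c) (m := 1 / 2)
      (fun z hz => ((NuA.dJ A hc (hin z hz)).1.sub_const _).differentiableWithinAt)
      (fun z hz => (NuA.dJ A hc (hin z hz)).2) (sm ζ k1)).2.1
    rw [sub_sub_sub_cancel_right, sub_zero] at this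
    refine this.trans ?_
    rw [show 2 * (1 / 2) / ρ * ‖ζ‖ = K * (ε * ‖ζ‖) by rw [hρ]; field_simp]
    gcongr
    exact le_self_pow₀ K1 two_ne_zero

theorem ar : S_AR := by
  intro K K' K1
  refine ⟨1 / (200000 * K'), by positivity, fun ς ε A h lam D c hς M S Nu => ?_⟩
  have N := M.num
  have ς0 := N.ς0
  have ε0 : 0 < ε := by rw [N.eq]; positivity
  obtain ⟨a1, a2, a3, -⟩ := Nu
  rw [lt_div_iff₀ (by positivity)] at hς
  have s1 : ς ≤ 1 := by nlinarith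
  have l1 : 1 ≤ ς ^ 19 / ε := by
    rw [one_le_div ε0, N.eq]
    exact pow_le_pow_of_le_one ς0.le s1 (by norm_num)
  have l2 : 200000 * (ς ^ 19 / ε) ≤ 1 / (K' * ε) := by
    have : ς ^ 19 ≤ ς := pow_le_of_le_one ς0.le s1 (by norm_num)
    rw [mul_div_assoc', div_le_div_iff₀ ε0 (by positivity)]
    have : 200000 * ς ^ 19 * K' ≤ 1 := by nlinarith
    nlinarith
  have h0 : 0 ≤ h := by linarith [S.h1.1]
  have g0 : 0 ≤ 80 * A * h := by have := S.A1.1; positivity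
  have g1 : 80 * A * h ≤ ga A h := Nat.le_ceil _
  have g2 : (ga A h : ℝ) ≤ 80 * A * h + 1 := (Nat.ceil_lt_add_one g0).le
  have g3 : 80 * A * h ≤ 80 * 30 * (40 * (ς ^ 19 / ε)) := by
    have := S.A1.2
    have := S.h1.2
    gcongr
  have r0 : 0 ≤ (D.ν ε c 0).re := by linarith
  have f1 : (⌊(D.ν ε c 0).re⌋₊ : ℝ) ≤ (D.ν ε c 0).re := Nat.floor_le r0
  have f2 : (D.ν ε c 0).re < ⌊(D.ν ε c 0).re⌋₊ + 1 := Nat.lt_floor_add_one _
  have i1 : ga A h ≤ ⌊(D.ν ε c 0).re⌋₊ := by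
    exact_mod_cast (show (ga A h : ℝ) ≤ ⌊(D.ν ε c 0).re⌋₊ by linarith)
  have i2 : ⌊(D.ν ε c 0).re⌋₊ + ga A h ≤ D.N c := by
    exact_mod_cast (show (⌊(D.ν ε c 0).re⌋₊ : ℝ) + ga A h ≤ D.N c by linarith)
  have e1 : (n1 ε A h D c : ℝ) = ⌊(D.ν ε c 0).re⌋₊ - ga A h := by rw [n1, Nat.cast_sub i1]
  have e2 : (xg ε A h D c).re = (D.ν ε c 0).re - n1 ε A h D c := by simp [xg]
  have e3 : (xg ε A h D c).im = (D.ν ε c 0).im - D.m₀ := by simp [xg]
  refine ⟨by unfold n2 n1; omega, ⟨g1, g2⟩, by rw [e2, e1]; constructor <;> linarith, ?_⟩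
  rw [e3, abs_le]
  exact ⟨by linarith [S.h1.1], S.top⟩

end Vale.Agent.P097F.G
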