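import Vale.Agent.P097F.G.Defs
import Vale.Agent.P097F.G.Part
import Vale.Agent.P097.H407.Hol

/-!
# P097F/G: the partial passage
-/

set_option linter.all false

noncomputable section

namespace Vale.Agent.P097F.G

open Filter Topology Set Metric Complex Vale.Agent.P097F.N
open Vale.Agent.P097EE (C2)

theorem pj_an {T Λ Ξ : C2 → C2} {τ f : C2 → ℂ} {κ J₀ ε J : ℂ} {ϱ σ e E r : ℝ} {p₀ : C2} {n : ℕ}
    {w : ℕ → ℂ} (P : Patch T Λ Ξ τ f κ J₀ ε ϱ σ e) (h0 : ∀ q ∈ ball p₀ r, AnalyticAt ℂ Λ q)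
    (h : ∀ q ∈ ball p₀ r, ∀ j ≤ n, Ps T Λ Ξ τ J₀ ϱ σ E q j (w j) J) :
    ∀ j ≤ n, ∀ q ∈ ball p₀ r, AnalyticAt ℂ (fun p => Λ (T^[j] p)) q := by
  have hS := P097.Hol.analyticOnNhd_of_differentiableOn (isOpen_An J₀ ϱ σ) P.stp.an
  intro j
  induction j with
  | zero => exact fun _ q hq => h0 q hq
  | succ j ih =>
    intro hj q hq
    have hj' := Nat.le_of_succ_le hj
    refine (AnalyticAt.comp (g := fun q => Λ (T (Ξ q))) (f := fun p => Λ (T^[j] p))
      (hS _ (h q hq j hj').mem)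
      (ih hj' q hq)).congr ?_
    filter_upwards [isOpen_ball.mem_nhds hq] with p hp
    show Λ (T (Ξ (Λ (T^[j] p)))) = _
    rw [(h p hp j hj').ri, Function.iterate_succ_apply']

theorem pj : S_PJ := by
  intro K
  have k0 : 1 ≤ max K 1 ^ 3 := one_le_pow₀ (le_max_right _ _)
  refine ⟨53 * max K 1 ^ 3, by linarith, 1 / (1000 * max K 1 ^ 6), by positivity,
    fun ς ε D hς M c hc ζ t z1 t1 n hn => ?_⟩
  have b : 0 < ς ^ 20 := pow_pos M.num.ς0 _
  have S := sm_of M.num hς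
  rw [max_eq_left M.num.K1] at k0 ⊢
  have e1 : 45 * K ^ 3 * ς ^ 20 ≤ 53 * K ^ 3 * ς ^ 20 :=
    mul_le_mul_of_nonneg_right (by linarith) b.le
  refine ⟨fun cl q hq => ?_, fun cl q hq => ?_⟩
  · have h := fun q hq => partL M S hc z1 t1 hn cl (q := q) hq
    have ck := (M.ck c hc ζ z1).1
    have a := h q hq n le_rfl
    exact ⟨a.an, pj_an (M.pat c hc).1 (fun q hq => ck.an _ (start M S hc (gapL M.num hc) z1 t1 ck hq).1)
      h n le_rfl q hq, a.mem, a.ri, a.tm.trans e1, a.lv.trans e1⟩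
  · have h := fun q hq => partR M S hc z1 t1 hn cl (q := q) hq
    have ck := (M.ck c hc ζ z1).2
    have a := h q hq n le_rfl
    exact ⟨a.an, pj_an (M.pat c hc).2 (fun q hq => ck.an _ (start M S hc (gapR M.num hc) z1 t1 ck hq).1)
      h n le_rfl q hq, a.mem, a.ri, a.tm, a.lv⟩

end Vale.Agent.P097F.G
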