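import Vale.Agent.P097F.G.Near
import Vale.Agent.P097F.G.Pj
import Vale.Agent.P097F.G.Nu
import Vale.Agent.P097F.G.Gt
import Vale.Agent.P097F.G.Chr
import Vale.Agent.P097F.G.Ac2
import Vale.Agent.P097EE.Closed

/-!
# P097F/G: an obstacle near the top, closed
-/

namespace Vale.Agent.P097F.G

theorem nearC : S_NEAR := near_of pj nu ar gt Chr.schr (ac P097EE.locZ P097EE.locF)

end Vale.Agent.P097F.G
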