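import Vale.Agent.P097F.G.Part
import Vale.Agent.P097F.S.Fol

/-!
# P097F.G: the true state follows the step maps along a partial passage
-/

set_option linter.all false

noncomputable section

namespace Vale.Agent.P097F.G

open Filter Topology Set Metric Complex Vale.Agent.P097F.N Vale.Agent.P097F.S

variable {K K₁ K₂ c₀ ς : ℝ} {D : Md}

/-- the identity theorem on the deep labels, backward steps -/
theorem follow' (M : Mach K ς (ep ς) D) (S : FolP.Sm K K₁ c₀ ς) {i : ℤ} {k : ℕ}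
    (h1 : D.lo 0 ≤ i - k) (h3 : i ≤ D.hi D.M)
    (hA : ∀ p ∈ Und ς D, 11 * l1 ς ≤ -p.1.im → AnalyticAt ℂ (D.T'^[k]) (D.Zi i p))
    {p : ℂ × ℂ} (hp : p ∈ Und ς D) (ha : 11 * l1 ς ≤ -p.1.im) :
    D.T'^[k] (D.Zi i p) = D.Zi (i - k) p := by
  obtain ⟨z, ζ⟩ := p
  have Z : FolP.Sz K ς D ζ := FolP.sz M.num S hp.2.2.2
  have L0 := Z.L0
  have LH := Z.LH
  have Hn := Z.Hn
  let Q : Set ℂ := Icc (-D.H) D.H ×ℂ Icc (-D.H) (-(11 * l1 ς))
  have hQ : ∀ x ∈ Q, (x, ζ) ∈ Und ς D ∧ 11 * l1 ς ≤ -x.im := fun x hx =>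
    ⟨⟨abs_le.2 hx.1, by linarith [hx.2.2], by linarith [hx.2.1], hp.2.2.2⟩, by linarith [hx.2.2]⟩
  have hc : IsPreconnected Q :=
    (((convex_Icc _ _).linear_preimage reLm).inter ((convex_Icc _ _).linear_preimage imLm)
      ).isPreconnected
  have hs : ∀ x : ℂ, AnalyticAt ℂ (fun y : ℂ => (y, ζ)) x := fun x => by fun_prop
  have f1 : AnalyticOnNhd ℂ (fun x => D.T'^[k] (D.Zi i (x, ζ))) Q := fun x hx =>
    AnalyticAt.comp (f := fun y : ℂ => D.Zi i (y, ζ)) (hA _ (hQ x hx).1 (hQ x hx).2)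
      (AnalyticAt.comp (f := fun y : ℂ => (y, ζ)) (FolP.an M S (by omega) h3 (hQ x hx).1) (hs x))
  have f2 : AnalyticOnNhd ℂ (fun x => D.Zi (i - k) (x, ζ)) Q := fun x hx =>
    AnalyticAt.comp (f := fun y : ℂ => (y, ζ)) (FolP.an M S h1 (by omega) (hQ x hx).1) (hs x)
  have h0 : (⟨0, -(D.H / 2)⟩ : ℂ) ∈ Q :=
    ⟨⟨show -D.H ≤ 0 by linarith, show 0 ≤ D.H by linarith⟩,
      show -D.H ≤ -(D.H / 2) by linarith, show -(D.H / 2) ≤ -(11 * l1 ς) by linarith⟩
  have he : (fun x => D.T'^[k] (D.Zi i (x, ζ))) =ᶠ[𝓝 (⟨0, -(D.H / 2)⟩ : ℂ)]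
      fun x => D.Zi (i - k) (x, ζ) := by
    filter_upwards [ball_mem_nhds _ (show 0 < D.H / 8 by linarith)] with x hx
    rw [mem_ball, dist_eq_norm] at hx
    have x1 := abs_le.1 ((abs_re_le_norm _).trans hx.le)
    have x2 := abs_le.1 ((abs_im_le_norm _).trans hx.le)
    rw [sub_re] at x1
    rw [sub_im] at x2
    dsimp only at x1 x2
    have a3 := abs_le.1 Z.re
    have a4 := abs_le.1 Z.im
    have a5 := M.num.m0
    have h0 := M.num.ς0
    have s1 : |(D.tz (x, ζ)).re| ≤ D.n := by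
      rw [FolP.tz_re, abs_le]
      dsimp only
      constructor <;> linarith
    have s2 : |(D.tz (x, ζ)).im| ≤ D.m₀ - D.H / 4 := by
      rw [FolP.tz_im, abs_le]
      dsimp only
      constructor <;> linarith
    have it : ∀ j : ℕ, j ≤ k → D.T'^[j] (D.Zi i (x, ζ)) = D.Zi (i - j) (x, ζ) := by
      intro j
      induction j with
      | zero => intro _; simp
      | succ j ih =>
        intro hj
        rw [Function.iterate_succ_apply', ih (by omega)]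
        have h := (M.deep _ ζ (FolP.hor (i := i - (j + 1 : ℕ)) (by omega) (by omega) s1)
          (Or.inr ⟨by linarith [Z.e3, pow_pos h0 10], by
            rw [add_im, intCast_im, zero_add]; exact s2⟩)).2.2.2
        refine Eq.trans (congrArg (fun y => D.T' (D.Z (y, ζ))) ?_) h
        push_cast
        ring
    exact it k le_rfl
  exact f1.eqOn_of_preconnected_of_eventuallyEq f2 hc h0 he
    ⟨abs_le.1 hp.1, by linarith [hp.2.2.1], by linarith⟩

/-- a label below the depth `11 l1` is below the obstacle -/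
theorem under (A : All K K₁ K₂ c₀ ς D) (S : FolP.Sm K K₁ c₀ ς) {c : ℕ} (hc : c < D.M)
    {q : ℂ × ℂ} (hq : q ∈ Und ς D) (hq' : 11 * l1 ς ≤ -q.1.im) (x : ℝ) :
    ς ^ 19 / ep ς ≤ ‖D.tz q + x - D.ν (ep ς) c q.2‖ := by
  have N := A.ma.num
  have h0 := N.ς0
  have Z := FolP.sz N S hq.2.2.2
  have e0 : 0 < ep ς := by rw [ep]; positivity
  have e : ς ^ 19 / ep ς = l1 ς := rfl
  have v1 := A.lv c hc q.2.re (by
    linarith [mul_le_mul_of_nonneg_left (abs_re_le_norm q.2) e0.le, Z.e3, pow_pos h0 10])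
  have v2 := abs_le.1 ((A.li c hc).2 q.2 (by linarith [Z.e3, pow_pos h0 10]))
  have v3 : |D.sl (ep ς) c * q.2.im| ≤ 16 * K ^ 2 * ‖q.2‖ := by
    rw [abs_mul]
    exact mul_le_mul (A.li c hc).1 (abs_im_le_norm _) (abs_nonneg _) (by positivity)
  rw [e] at v1 v2 ⊢
  refine le_trans ?_ ((neg_le_abs _).trans (abs_im_le_norm _))
  rw [sub_im, add_im, ofReal_im, FolP.tz_im]
  linarith [abs_le.1 v3, Z.w]

/-- **following along the partial passages** -/
theorem folp (A : All K K₁ K₂ c₀ ς D) (S : FolP.Sm K K₁ c₀ ς) (S' : Sm K ς) (c0 : 0 < c₀)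
    (hK₁ : 1 ≤ K₁) {c nL nR : ℕ} (hc : c < D.M) (hL : nL ≤ D.N c) (hR : nR ≤ D.N c) :
    ∀ p ∈ Und ς D, 11 * l1 ς ≤ -p.1.im →
      D.T^[nL] (D.Zi (D.hi c) p) = D.Zi (D.hi c + nL) p ∧
        D.T'^[nR] (D.Zi (D.lo (c + 1)) p) = D.Zi (D.lo (c + 1) - nR) p := by
  have N := A.ma.num
  have h0 := N.ς0
  have cN := castN N hc
  have g1 := (Tb.gap_mem N (gapL N hc)).1
  have g2 := (Tb.gap_mem N (gapR N hc)).2
  have L0 : 0 < l1 ς := by rw [l1]; positivity
  have nr : ∀ i, D.Gap i → ∀ q ∈ Und ς D, D.Zi i q ∈ ball (D.Ct i q.2 (D.tz q)) (ς ^ 20) :=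
    fun i hi q hq => mem_ball_iff_norm.2
      ((FolP.near A S c0 hK₁ hi hq).trans_le (div_le_self (by positivity) hK₁))
  intro p hp h11
  constructor
  · have e : (D.hi c + nL - D.hi c).toNat = nL := by omega
    have := FolP.follow A.ma S g1 (i' := D.hi c + nL) (by omega) (by omega) (by linarith) le_rfl
      (fun q hq hq' => ?_) hp h11
    · rwa [e] at this
    have Z := FolP.sz N S hq.2.2.2
    rw [e]
    exact (partL A.ma S' hc Z.R (FolP.tz_sz N Z hq).2.2.2 hL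
      (fun j _ => by simpa using under A S hc hq hq' j) (nr _ (gapL N hc) q hq) nL le_rfl).an
  · refine follow' A.ma S (by omega) g2 (fun q hq hq' => ?_) hp h11
    have Z := FolP.sz N S hq.2.2.2
    exact (partR A.ma S' hc Z.R (FolP.tz_sz N Z hq).2.2.2 hR
      (fun j _ => by simpa [add_sub_assoc] using under A S hc hq hq' (D.N c - j))
      (nr _ (gapR N hc) q hq) nR le_rfl).an

/-- the smallness along a run -/
theorem sms {𝒰 : Filter ℕ} {lam : ℝ} {ς : ℕ → ℝ} {D : ℕ → Md} (R : Run 𝒰 K K₁ K₂ c₀ lam ς D) :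
    ∀ᶠ n in 𝒰, FolP.Sm K K₁ c₀ (ς n) ∧ Sm K (ς n) := by
  have c0 := R.c0.1
  have K1 := R.K1
  filter_upwards [R.ev, R.s0.eventually (gt_mem_nhds (show 0 < 1 / (100 * (K ^ 2 + 1)) by
    positivity)), R.s0.eventually (gt_mem_nhds (show 0 < c₀ ^ 4 / 24576 by positivity)),
    R.s0.eventually (gt_mem_nhds (show 0 < c₀ / (2 * K₁) by positivity)),
    R.s0.eventually (gt_mem_nhds (show 0 < 1 / (1000 * max K 1 ^ 6) by positivity))]
    with n A a b d e
  exact ⟨FolP.sm A.ma.num.K1 K1 c0 A.ma.num.ς0 a b d, sm_of A.ma.num e⟩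

/-- **following along a run**: the statement `FolP (ς n) (D n) c nL nR`, unfolded -/
theorem folp_ev {𝒰 : Filter ℕ} {lam : ℝ} {ς : ℕ → ℝ} {D : ℕ → Md}
    (R : Run 𝒰 K K₁ K₂ c₀ lam ς D) : ∀ᶠ n in 𝒰, ∀ c nL nR : ℕ, c < (D n).M → nL ≤ (D n).N c →
      nR ≤ (D n).N c → ∀ p ∈ Und (ς n) (D n), 11 * l1 (ς n) ≤ -p.1.im →
      (D n).T^[nL] ((D n).Zi ((D n).hi c) p) = (D n).Zi ((D n).hi c + nL) p ∧
        (D n).T'^[nR] ((D n).Zi ((D n).lo (c + 1)) p) = (D n).Zi ((D n).lo (c + 1) - nR) p := by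
  filter_upwards [R.ev, sms R] with n A S c nL nR hc hL hR
  exact folp A S.1 S.2 R.c0.1 R.K1 hc hL hR

end Vale.Agent.P097F.G
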