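import Vale.Agent.P097F.G.Part
import Vale.Agent.P097F.S.Defs
import Vale.Agent.P097F.N.Rel2

/-!
# P097F.G: the two gates of an obstacle near the top
-/

set_option linter.all false

noncomputable section

namespace Vale.Agent.P097F.G

open Filter Topology Set Metric Complex Vale.Agent.P097F.N Vale.Agent.P097F.S
open Vale.Agent.P097EE (C2 Gate Bx)

/-- the number of steps from the left chart to the left gate -/
def nL (ς : ℝ) (D : Md) (c : ℕ) : ℕ := ⌊(xi ς D c).re - 8 * (10 * 30 * hh ς)⌋₊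

/-- the number of steps from the right chart to the right gate -/
def nR (ς : ℝ) (D : Md) (c : ℕ) : ℕ := ⌊D.N c - (xi ς D c).re - 8 * (10 * 30 * hh ς)⌋₊

/-- the slope of the obstacle in the labels of the last layer -/
def fs (lam ς : ℝ) (D : Md) (c : ℕ) : ℂ := lam * (deriv (D.ν (ep ς) c) 0 - I * D.m₁)

namespace GtA

variable {K ς lam : ℝ} {D : Md} {c : ℕ}

theorem el (h : 0 < ς) : 0 < ep ς ∧ 0 < l1 ς ∧ ep ς * l1 ς = ς ^ 19 ∧
    10 * 30 * hh ς = 6300 * l1 ς := by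
  unfold hh l1 ep
  exact ⟨by positivity, by positivity, by field_simp, by ring⟩

theorem el2 (ς : ℝ) : ς ^ 19 / ep ς = l1 ς ∧ hh ς = 21 * l1 ς := ⟨rfl, rfl⟩

theorem l1_one (S : Sm K ς) : 1 ≤ l1 ς := (one_le_div (pow_pos S.ς0 _)).2 (S.le (by norm_num))

end GtA

attribute [local irreducible] ep l1 hh

namespace GtA

variable {K ς lam : ℝ} {D : Md} {c : ℕ}

theorem tiny (S : Sm K ς) : 10 ^ 9 * K ^ 6 * ς ^ 3 ≤ 1 := by
  have a := S.sm
  have b := S.pw 0 (by norm_num)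
  have := S.ς0
  have := S.K1
  calc _ = (1000 * K ^ 6 * ς) * (1000 * K ^ 0 * ς) * (1000 * K ^ 0 * ς) := by ring
    _ ≤ 1 * 1 * 1 := by gcongr
    _ = 1 := by ring

theorem tiny2 (S : Sm K ς) (k : ℕ) (hk : k ≤ 6) (a : ℕ) : 10 ^ 9 * K ^ k * ς ^ (a + 3) ≤ ς ^ a := by
  have := S.ς0
  have := S.K1
  calc _ = 10 ^ 9 * K ^ k * ς ^ 3 * ς ^ a := by ring
    _ ≤ 10 ^ 9 * K ^ 6 * ς ^ 3 * ς ^ a := by gcongr
    _ ≤ 1 * ς ^ a := by gcongr; exact tiny S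
    _ = _ := one_mul _

theorem tn (S : Sm K ς) (k : ℕ) (hk : k ≤ 6) : ς ^ 19 ≤ K ^ k * ς ^ 19 ∧
    1000000000 * (K ^ k * ς ^ 19) ≤ ς ^ 16 ∧ ς ^ 16 ≤ ς ^ 10 ∧ ς ^ 10 ≤ ς ∧ ς ≤ 1 ∧ 0 < ς ^ 19 := by
  have := tiny2 S k hk 16
  exact ⟨le_mul_of_one_le_left (pow_pos S.ς0 _).le (one_le_pow₀ S.K1), by norm_num at this; linarith,
    S.le (by norm_num), by simpa using S.le (show 1 ≤ 10 by norm_num), S.ς1, pow_pos S.ς0 _⟩

theorem inR (A : Mach K ς (ep ς) D) {z : ℂ} (hz : z ∈ ball (0 : ℂ) (4 / (K * ep ς))) :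
    ‖z‖ < D.R := by
  obtain ⟨ε0, -, a, -⟩ := nums A.num
  have := A.num.K1
  refine (mem_ball_zero_iff.1 hz).trans_le ?_
  rw [div_le_iff₀ (by positivity)]
  linarith

/-- the position of the obstacle is almost linear -/
theorem nu_lin (A : Mach K ς (ep ς) D) (hc : c < D.M) {ζ : ℂ} (h : K * (ep ς * ‖ζ‖) ≤ 1) :
    ‖ζ‖ < D.R ∧ ‖D.ν (ep ς) c ζ - D.ν (ep ς) c 0 - deriv (D.ν (ep ς) c) 0 * ζ‖ ≤
      K ^ 3 * ep ς * ‖ζ‖ ^ 2 ∧ ‖Jz D c ζ - Jz D c 0‖ ≤ K * (ep ς * ‖ζ‖) := by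
  have N := A.num
  obtain ⟨ε0, r0, -⟩ := nums N
  have K1 := N.K1
  obtain ⟨-, k2, k3, k4⟩ := N.κ c hc
  have p0 : 0 < D.ϱ c := (A.pat c hc).1.clk.r0
  have m : ζ ∈ ball (0 : ℂ) (4 / (K * ep ς)) := by
    rw [mem_ball_zero_iff, lt_div_iff₀ (by positivity)]
    linarith
  have t1 := (tay (D := D.ν (ep ς) c) (m := K / ep ς) (fun z hz =>
    ((Lin.dif A hc (inR A hz)).neg.div_const _).differentiableWithinAt) (fun z hz => by
      obtain ⟨-, -, -, g, -⟩ := A.geo c hc z (inR A hz)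
      have p1 : D.ϱ c ^ 2 ≤ 1 := pow_le_one₀ p0.le k4
      have p2 : ‖D.κ c‖ * D.ϱ c ^ 2 ≤ K := (mul_le_of_le_one_right (norm_nonneg _) p1).trans k2
      have p3 : 0 ≤ ep ς * D.m := by positivity
      show ‖-D.τ₀ c z / (ep ς : ℝ)‖ ≤ _
      rw [norm_div, norm_neg, Complex.norm_real, Real.norm_of_nonneg ε0.le]
      gcongr
      linarith) m).2.2
  have t2 := (tay (D := fun z => Jz D c z - D.J c) (m := 1) (fun z hz => by
      have hZ := (A.deep (D.hi c + 0) z (Tb.hor N (gapL N hc) (z := 0) (by simp)).1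
        (Or.inl ⟨inR A hz, (Tb.hor N (gapL N hc) (z := 0) (by simp)).2⟩)).1
      rw [add_zero] at hZ
      have h1 : DifferentiableAt ℂ (fun z : ℂ => D.Z (D.hi c, z)) z :=
        DifferentiableAt.comp (g := D.Z) (f := fun z : ℂ => (((D.hi c : ℤ) : ℂ), z)) z
          hZ.differentiableAt ((differentiableAt_const _).prodMk differentiableAt_id)
      exact ((DifferentiableAt.comp (g := D.Λ c) z ((A.ck c hc z (inR A hz)).1.an _
        (mem_ball_self r0)).differentiableAt h1).snd.sub_const _).differentiableWithinAt)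
    (fun z hz => by
      have := ((A.ck c hc z (inR A hz)).1.mem _ (mem_ball_self r0)).2.2
      unfold Jz
      linarith) m).2.1
  rw [fderiv_eq_smul_deriv, smul_eq_mul, sub_zero, mul_comm ζ] at t1
  rw [sub_sub_sub_cancel_right, sub_zero] at t2
  refine ⟨inR A m, t1.trans ?_, t2.trans ?_⟩
  · calc _ = K ^ 3 * ep ς * ‖ζ‖ ^ 2 / 4 := by field_simp
      _ ≤ _ := div_le_self (by positivity) (by norm_num)
  · calc _ = K * (ep ς * ‖ζ‖) / 2 := by field_simp; ring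
      _ ≤ _ := div_le_self (by positivity) (by norm_num)

theorem fs_le (A : Mach K ς (ep ς) D) (S : Sm K ς) (lv : LevO ς (ep ς) D) (hc : c < D.M)
    (l0 : 0 ≤ lam) (hs : lam * (|D.sl (ep ς) c| + 1) ≤ 1) (x2 : (xi ς D c).im < 4 * l1 ς) :
    ‖fs lam ς D c‖ ≤ 1 := by
  obtain ⟨ε0, l0', e1, -⟩ := el S.ς0
  have K1 := S.K1
  have ς0 := S.ς0
  have key : ∀ x : ℝ, |x| = 13 * l1 ς →
      -((deriv (D.ν (ep ς) c) 0).im - D.m₁) * x ≤ 13 * l1 ς := by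
    intro x hx
    have e2 : ep ς * |x| = 13 * ς ^ 19 := by rw [hx, ← e1]; ring
    obtain ⟨t1, t2, t3, t4, t5, t6⟩ := tn S 3 (by norm_num)
    obtain ⟨-, t7, -⟩ := tn S 1 (by norm_num)
    have a := lv c hc x (by rw [e2]; linarith)
    have b := (nu_lin A hc (ζ := x) (by rw [norm_real, Real.norm_eq_abs, e2]; linarith)).2.1
    have b2 := (abs_le.1 ((abs_im_le_norm _).trans b)).2
    rw [norm_real, Real.norm_eq_abs] at b2
    have b3 : K ^ 3 * ep ς * |x| ^ 2 ≤ l1 ς := by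
      calc _ = K ^ 3 * (ep ς * |x|) * |x| := by ring
        _ = 169 * K ^ 3 * ς ^ 19 * l1 ς := by rw [e2, hx]; ring
        _ ≤ 1 * l1 ς := by gcongr; linarith
        _ = _ := one_mul _
    simp only [xi, sub_im, mul_im, I_re, I_im, ofReal_re, ofReal_im] at x2 b2
    rw [(el2 ς).1] at a
    linarith
  have k1 := key (13 * l1 ς) (abs_of_pos (by positivity))
  have k2 := key (-(13 * l1 ς)) (by rw [abs_neg, abs_of_pos (by positivity)])
  have k3 : |(deriv (D.ν (ep ς) c) 0).im - D.m₁| ≤ 1 :=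
    abs_le.2 ⟨by nlinarith, by nlinarith⟩
  rw [fs, norm_mul, norm_real, Real.norm_of_nonneg l0]
  refine le_trans (mul_le_mul_of_nonneg_left ((norm_le_abs_re_add_abs_im _).trans ?_) l0) hs
  simp only [sub_re, sub_im, mul_re, mul_im, I_re, I_im, ofReal_re, ofReal_im, Md.sl]
  simpa using k3

theorem steps (A : Mach K ς (ep ς) D) (S : Sm K ς) (hc : c < D.M) :
    1 ≤ l1 ς ∧ nL ς D c + nR ς D c ≤ D.N c ∧
      |(xi ς D c).re - nL ς D c - 8 * (10 * 30 * hh ς)| ≤ 1 ∧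
      |D.N c - (xi ς D c).re - nR ς D c - 8 * (10 * 30 * hh ς)| ≤ 1 := by
  obtain ⟨ε0, l0, e1, e2⟩ := el S.ς0
  have K1 := S.K1
  have ς0 := S.ς0
  obtain ⟨-, g1, g2, -⟩ := A.geo c hc 0 (inR A (mem_ball_self (by positivity)))
  have x : ep ς * (xi ς D c).re = -(D.τ₀ c 0).re := by
    have := congrArg re (tnu (D := D) ε0 c 0 0)
    simp [xi] at this ⊢
    linarith
  obtain ⟨t1, t2, t3, t4, t5, t6⟩ := tn S 1 (by norm_num)
  have m0 : 0 ≤ ep ς * D.m := by positivity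
  have b : ep ς * (8 * (10 * 30 * hh ς)) ≤ 1 / K := by
    rw [e2, le_div_iff₀ (by linarith)]
    calc _ = 50400 * (K ^ 1 * (ep ς * l1 ς)) := by ring
      _ ≤ _ := by rw [e1]; linarith
  have a1 : 0 ≤ (xi ς D c).re - 8 * (10 * 30 * hh ς) :=
    sub_nonneg.2 (le_of_mul_le_mul_left (by linarith) ε0)
  have a2 : 0 ≤ D.N c - (xi ς D c).re - 8 * (10 * 30 * hh ς) :=
    sub_nonneg.2 (le_of_mul_le_mul_left (by linarith) ε0)
  have f1 := Nat.floor_le a1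
  have f2 := Nat.floor_le a2
  have f3 := Nat.lt_floor_add_one ((xi ς D c).re - 8 * (10 * 30 * hh ς))
  have f4 := Nat.lt_floor_add_one (D.N c - (xi ς D c).re - 8 * (10 * 30 * hh ς))
  unfold nL nR
  refine ⟨l1_one S, ?_, abs_le.2 ⟨by linarith, by linarith⟩, abs_le.2 ⟨by linarith, by linarith⟩⟩
  exact_mod_cast (by linarith : (⌊(xi ς D c).re - 8 * (10 * 30 * hh ς)⌋₊ : ℝ) +
    ⌊D.N c - (xi ς D c).re - 8 * (10 * 30 * hh ς)⌋₊ ≤ D.N c)

/-- the labels of a gate -/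
theorem box (A : Mach K ς (ep ς) D) (S : Sm K ς) (hc : c < D.M) (l0 : 0 ≤ lam) (lK : lam ≤ K)
    {y : ℝ} (hy : |y| ≤ 8 * l1 ς) {q : C2}
    (hq : q ∈ Bx (4 * (6300 * l1 ς)) (y - 4 * (6300 * l1 ς)) (y + 4 * (6300 * l1 ς))
      (6300 * l1 ς)) :
    ‖(sc lam q).2‖ < D.R ∧ ‖D.tz (sc lam q)‖ ≤ D.m / 2 ∧
      ‖D.tz (sc lam q) - D.ν (ep ς) c (sc lam q).2 - (q.1 - fs lam ς D c * q.2 - xi ς D c)‖ ≤
        ς * l1 ς ∧ ‖Jz D c (sc lam q).2 - Jz D c 0‖ ≤ ς ^ 16 := by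
  obtain ⟨ε0, l0', e1, -⟩ := el S.ς0
  have N := A.num
  obtain ⟨-, -, -, n4, -, nm⟩ := nums N
  have K1 := S.K1
  have ς0 := S.ς0
  obtain ⟨q1, q2, q3, q4⟩ := hq
  have z1 : ‖(sc lam q).2‖ ≤ K * (6300 * l1 ς) := by
    simp only [sc]
    rw [norm_mul, norm_real, Real.norm_of_nonneg l0]
    gcongr
  obtain ⟨t1, t2, t3, t4, t0, p⟩ := tn S 2 (by norm_num)
  obtain ⟨v1, v2, -⟩ := tn S 3 (by norm_num)
  obtain ⟨v3, v4, -⟩ := tn S 5 (by norm_num)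
  obtain ⟨v5, v6, -⟩ := tn S 1 (by norm_num)
  have z2 : K * (ep ς * ‖(sc lam q).2‖) ≤ 6300 * (K ^ 2 * ς ^ 19) := by
    calc _ ≤ K * (ep ς * (K * (6300 * l1 ς))) := by gcongr
      _ = _ := by rw [← e1]; ring
  obtain ⟨a1, a2, a3⟩ := nu_lin A hc (ζ := (sc lam q).2) (by linarith)
  refine ⟨a1, ?_, le_trans (le_of_eq (by
    rw [← norm_neg]
    congr 1
    simp only [Md.tz, sc, fs, xi]
    ring)) (a2.trans ?_), by linarith⟩
  · have b1 : ‖q.1‖ ≤ 60000 * l1 ς := (norm_le_abs_re_add_abs_im _).trans (by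
      have := abs_le.1 hy
      have : |q.1.im| ≤ 30000 * l1 ς := abs_le.2 ⟨by linarith, by linarith⟩
      linarith)
    have b2 : ‖D.tz (sc lam q)‖ ≤ ‖q.1‖ + (D.m₀ + K * ‖(sc lam q).2‖) := by
      refine (norm_add_le _ _).trans (add_le_add le_rfl ?_)
      rw [norm_mul, norm_I, one_mul]
      refine (norm_add_le _ _).trans ?_
      rw [norm_mul, norm_real, norm_real, Real.norm_of_nonneg
        (le_trans (by positivity) N.m0.1), Real.norm_eq_abs]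
      gcongr
      exact N.m1
    have b3 : 60000 * l1 ς + K * ‖(sc lam q).2‖ ≤ D.n := by
      refine le_of_mul_le_mul_left ?_ (show 0 < K * ep ς by positivity)
      have c1 : K * (K * (ep ς * ‖(sc lam q).2‖)) ≤ K * (6300 * (K ^ 2 * ς ^ 19)) := by gcongr
      have c3 : K * ep ς * (60000 * l1 ς) = 60000 * (K * ς ^ 19) := by rw [← e1]; ring
      linarith
    linarith [N.m0.2, (Nat.cast_nonneg D.n : (0 : ℝ) ≤ D.n)]
  · calc _ ≤ K ^ 3 * ep ς * (K * (6300 * l1 ς)) ^ 2 := by gcongr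
      _ = 6300 ^ 2 * (K ^ 5 * ς ^ 19) * l1 ς := by rw [← e1]; ring
      _ ≤ _ := by gcongr; linarith

theorem anC (A : Mach K ς (ep ς) D) {i : ℤ} (hi : D.Gap i) {q : C2} (h : ‖(sc lam q).2‖ < D.R) :
    AnalyticAt ℂ (fun q => D.C i (sc lam q)) q := by
  have N := A.num
  have r0 := (nums N).2.1
  have hZ := (A.deep (i + 0) _ (Tb.hor N hi (z := 0) (by simp)).1
    (Or.inl ⟨h, (Tb.hor N hi (z := 0) (by simp)).2⟩)).1
  rw [add_zero] at hZ
  have a1 : AnalyticAt ℂ (fun q : C2 => (sc lam q).2) q := analyticAt_const.mul analyticAt_snd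
  have a2 : AnalyticAt ℂ (fun q : C2 => D.Z (i, (sc lam q).2)) q :=
    hZ.comp (f := fun q : C2 => ((i : ℂ), (sc lam q).2)) (analyticAt_const.prod a1)
  have a3 : AnalyticAt ℂ (fun q : C2 => D.tz (sc lam q)) q :=
    analyticAt_fst.add (analyticAt_const.mul (analyticAt_const.add (analyticAt_const.mul a1)))
  exact ((A.gap i hi _ h).1.an_Ch N.am (q := (D.tz (sc lam q), D.Z (i, (sc lam q).2)))
    (mem_ball_self (by linarith))).comp₂ (f := fun q : C2 => D.tz (sc lam q)) a3 a2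

end GtA

open GtA

variable {K ς lam C s B : ℝ} {D : Md} {c : ℕ} {θ : ℂ → ℂ} {Ξ ac : C2 → C2} {P₀ : C2} {κ : ℂ}

/-- the concrete coordinates of the obstacle `c` -/
structure Crd (θ : ℂ → ℂ) (ς : ℝ) (D : Md) (c : ℕ) (Ξ : C2 → C2) (P₀ : C2) (J₀ κ : ℂ)
    (r s B : ℝ) : Prop where
  lev : Lev (gg θ (ep ς)) Ξ P₀ J₀ κ r s B
  eJ : D.J c = J₀
  eϱ : D.ϱ c = r
  eΛ : D.Λ c = La (gg θ (ep ς))
  eΞ : D.Ξ c = Xv (gg θ (ep ς)) Ξ
  eτ : D.τ c = clk (fq (gg θ (ep ς)) Ξ)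

theorem gate1 {J₀ : ℂ} {r : ℝ} (A : Mach K ς (ep ς) D) (S : Sm K ς) (hc : c < D.M)
    (X : Crd θ ς D c Ξ P₀ J₀ κ r s B) (C0 : 0 ≤ C) (G : RelG θ (ep ς) Ξ (Jz D c 0) r C ac)
    {T : C2 → C2} {p : C2} {j : ℕ} {w w' J : ℂ}
    (P : Ps T (D.Λ c) (D.Ξ c) (D.τ c) (D.J c) (D.ϱ c) (ς ^ 10) (53 * K ^ 3 * ς ^ 20) p j
      (ep ς * w) J) (hw : ‖w - w'‖ ≤ ς * l1 ς) (hw' : ‖w'‖ ≤ 18 * (6300 * l1 ς))
    (hJ : ‖J - Jz D c 0‖ ≤ ς ^ 16) :
    AnalyticAt ℂ (fun p => ac (pr (ep ς) (T^[j] p))) p ∧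
      ‖(ac (pr (ep ς) (T^[j] p))).2‖ ≤ (K ^ 3 + C) * ς ∧
      ‖(ac (pr (ep ς) (T^[j] p))).1 ^ 2 - w'‖ ≤ (K ^ 3 + C) * ς * (6300 * l1 ς) := by
  obtain ⟨ε0, l0', e1, -⟩ := el S.ς0
  have K1 := S.K1
  have ς0 := S.ς0
  have t0 := S.ς1
  obtain ⟨k1, k2, k3, k4⟩ := A.num.κ c hc
  have c6 := (cst S k1 k2 k3 k4).2.2.2.2.2.1
  have ck := (A.pat c hc).1.clk
  obtain ⟨p1, p2, p3, p4, p5⟩ := P
  have m : D.Λ c (T^[j] p) ∈ ball ((0, D.J c) : C2) (2 * D.ϱ c) :=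
    ball_subset_ball (by linarith [ck.r0]) p2.1
  have lo := ck.lo m
  have n0 : (D.Λ c (T^[j] p)).1 ≠ 0 := norm_pos_iff.1 ((pow_pos ς0 10).trans p2.2)
  generalize D.Λ c (T^[j] p) = q at *
  rw [X.eJ, X.eϱ] at m
  rw [X.eΞ] at p3
  rw [X.eϱ] at c6
  have e2 : yd (gg θ (ep ς)) (T^[j] p) = Ξ q := p3 ▸ (X.lev.la_xv m n0).1
  have K3 : 1 ≤ K ^ 3 := one_le_pow₀ K1
  have u1 := S.mul 3 (by norm_num) (show 19 + 1 ≤ 20 by norm_num)
  obtain ⟨-, u2, -⟩ := tn S 1 (by norm_num)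
  have u3 := S.le (show 16 ≤ 19 by norm_num)
  have u4 := S.mul 0 (by norm_num) (show 8 + 1 ≤ 16 by norm_num)
  have u5 : ς ^ 8 ≤ ς := by simpa using S.le (show 1 ≤ 8 by norm_num)
  have u6 := S.le (show 20 ≤ 24 by norm_num)
  have w1 := pow_pos ς0 19
  have w2 := pow_pos ς0 16
  have w3 : 0 < K ^ 3 * ς ^ 20 := by positivity
  have b1 : ‖(ep ς : ℂ) * w - ep ς * w'‖ ≤ ς ^ 20 := by
    rw [← mul_sub, norm_mul, norm_real, Real.norm_of_nonneg ε0.le]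
    calc _ ≤ ep ς * (ς * l1 ς) := by gcongr
      _ = ς * (ep ς * l1 ς) := by ring
      _ = _ := by rw [e1]; ring
  have b2 : ‖(ep ς : ℂ) * w'‖ ≤ 113400 * ς ^ 19 := by
    rw [norm_mul, norm_real, Real.norm_of_nonneg ε0.le]
    calc _ ≤ ep ς * (18 * (6300 * l1 ς)) := by gcongr
      _ = _ := by rw [← e1]; ring
  have b3 : ‖D.τ c q - ep ς * w'‖ ≤ 54 * K ^ 3 * ς ^ 20 := by
    nlinarith [norm_sub_le_norm_sub_add_norm_sub (D.τ c q) (ep ς * w) (ep ς * w'), pow_pos ς0 20]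
  have b4 : ‖q.1‖ ≤ ς ^ 8 := by
    refine (pow_le_pow_iff_left₀ (norm_nonneg _) (by positivity) two_ne_zero).1 ?_
    have a1 := norm_le_norm_sub_add (D.τ c q) (ep ς * w')
    have a2 : K * (3 / 4 * (‖D.κ c‖ * ‖q.1‖ ^ 2)) ≤ K * (113401 * ς ^ 19) :=
      mul_le_mul_of_nonneg_left (by linarith) (by linarith)
    have a3 : 1 * ‖q.1‖ ^ 2 ≤ K * ‖D.κ c‖ * ‖q.1‖ ^ 2 := by gcongr
    have a4 : 0 < K * ς ^ 19 := by positivity
    rw [← pow_mul, show 8 * 2 = 16 from rfl]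
    linarith
  have b5 : ‖q.2 - Jz D c 0‖ ≤ ς ^ 8 := by
    linarith [norm_sub_le_norm_sub_add_norm_sub q.2 J (Jz D c 0)]
  obtain ⟨r1, r2⟩ := G.rel (ς ^ 8) _ q (by nlinarith [one_le_pow₀ (n := 2) K1]) b4 b5 e2
  rw [← X.eτ] at r1
  refine ⟨(G.an _ (X.lev.ag _ (by
    have := (X.lev.mem' m).2.1
    rwa [← e2] at this))).comp p1, r2.trans ?_, ?_⟩
  · exact mul_le_mul (by linarith) u5 (by positivity) (by linarith)
  · refine le_of_mul_le_mul_left ?_ ε0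
    have a1 := norm_sub_le_norm_sub_add_norm_sub
      (ep ς * (ac (prs (ep ς) (T^[j] p))).1 ^ 2) (D.τ c q) (ep ς * w')
    rw [← mul_sub, norm_mul, norm_real, Real.norm_of_nonneg ε0.le] at a1
    have a2 : C * (ς ^ 8) ^ 3 ≤ C * ς ^ 20 := by rw [← pow_mul]; gcongr
    have a3 : ep ς * ((K ^ 3 + C) * ς * (6300 * l1 ς)) = 6300 * (K ^ 3 * ς ^ 20 + C * ς ^ 20) := by
      calc _ = 6300 * (K ^ 3 + C) * ς * (ep ς * l1 ς) := by ring
        _ = _ := by rw [e1]; ring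
    have a4 : 0 ≤ C * ς ^ 20 := by positivity
    rw [a3]
    exact a1.trans (by linarith)

/-- **the gates** -/
theorem gates {J₀ : ℂ} {r : ℝ} (A : Mach K ς (ep ς) D) (S : Sm K ς) (lv : LevO ς (ep ς) D)
    (hc : c < D.M) (l0 : 0 ≤ lam) (lK : lam ≤ K) (hs : lam * (|D.sl (ep ς) c| + 1) ≤ 1)
    (x1 : -(8 * l1 ς) ≤ (xi ς D c).im) (x2 : (xi ς D c).im < 4 * l1 ς)
    (X : Crd θ ς D c Ξ P₀ J₀ κ r s B) (C0 : 0 ≤ C) (G : RelG θ (ep ς) Ξ (Jz D c 0) r C ac) :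
    Gate (fun q => ac (pr (ep ς) (D.T^[nL ς D c] (D.C (D.hi c) (sc lam q))))) 1 (fs lam ς D c)
      (xi ς D c - nL ς D c) (10 * 30 * hh ς) ((K ^ 3 + C) * ς) ∧
    Gate (fun q => ac (pr (ep ς) (D.T'^[nR ς D c] (D.C (D.lo (c + 1)) (sc lam q))))) (-1)
      (fs lam ς D c) (xi ς D c - nL ς D c - (D.N c - nL ς D c - nR ς D c : ℕ)) (10 * 30 * hh ς)
      ((K ^ 3 + C) * ς) ∧ |(xi ς D c - nL ς D c).im| ≤ hh ς / 2 := by
  obtain ⟨ε0, l0', e1, e2⟩ := el S.ς0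
  obtain ⟨s0, s1, s2, s3⟩ := steps A S hc
  have f1 := fs_le A S lv hc l0 hs x2
  have ς0 := S.ς0
  have t0 := S.ς1
  have y0 : |(xi ς D c).im| ≤ 8 * l1 ς := abs_le.2 ⟨x1, by linarith⟩
  have e3 : xi ς D c - nL ς D c - (D.N c - nL ς D c - nR ς D c : ℕ) =
      xi ς D c - D.N c + nR ς D c := by
    rw [Nat.sub_sub, Nat.cast_sub s1]
    push_cast
    ring
  have sl : ς * l1 ς ≤ l1 ς := mul_le_of_le_one_left l0'.le t0
  have bw : ∀ (q : C2) (x : ℂ), x.im = (xi ς D c).im → |x.re| ≤ 9 * (6300 * l1 ς) →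
      q ∈ Bx (4 * (6300 * l1 ς)) ((xi ς D c).im - 4 * (6300 * l1 ς))
        ((xi ς D c).im + 4 * (6300 * l1 ς)) (6300 * l1 ς) →
      ‖q.1 - fs lam ς D c * q.2 - x‖ ≤ 18 * (6300 * l1 ς) ∧
        |(q.1 - fs lam ς D c * q.2).re| ≤ 5 * (6300 * l1 ς) := by
    rintro q x h1 h2 ⟨q1, q2, q3, q4⟩
    have a : ‖fs lam ς D c * q.2‖ ≤ 6300 * l1 ς := by
      rw [norm_mul]
      exact (mul_le_of_le_one_left (norm_nonneg _) f1).trans q4
    have b := norm_le_abs_re_add_abs_im (q.1 - x)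
    have b1 := abs_sub q.1.re x.re
    have b2 : |q.1.im - x.im| ≤ 4 * (6300 * l1 ς) := abs_le.2 ⟨by linarith, by linarith⟩
    have b3 := abs_sub q.1.re (fs lam ς D c * q.2).re
    rw [sub_re, sub_im] at b
    rw [sub_right_comm, sub_re]
    exact ⟨(norm_sub_le _ _).trans (by linarith), by linarith [abs_re_le_norm (fs lam ς D c * q.2)]⟩
  rw [e3, e2] at *
  have s2' := abs_le.1 s2
  have s3' := abs_le.1 s3
  have K3 : 0 < K ^ 3 * ς ^ 20 := by have := S.K1; positivity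
  refine ⟨⟨?_, f1, fun q hq => ?_⟩, ⟨?_, f1, fun q hq => ?_⟩, ?_⟩
  · simp only [sub_re, natCast_re, one_mul]
    linarith
  · simp only [sub_im, natCast_im, sub_zero] at hq
    obtain ⟨b1, b2, b3, b4⟩ := box A S hc l0 lK y0 hq
    obtain ⟨w1, w2⟩ := bw q (xi ς D c - nL ς D c) (by simp)
      (by rw [sub_re, natCast_re]; exact abs_le.2 ⟨by linarith, by linarith⟩) hq
    have P := partL A S hc b1 b2 (n := nL ς D c) (by omega) (fun j hj => by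
      refine le_trans ?_ ((neg_le_abs _).trans (abs_re_le_norm _))
      have a1 := (abs_le.1 ((abs_re_le_norm _).trans b3)).2
      have a2 : (j : ℝ) ≤ nL ς D c := Nat.cast_le.2 hj
      have a3 := (abs_le.1 w2).2
      simp only [sub_re, add_re, natCast_re] at a1 a3 ⊢
      rw [(el2 ς).1]
      linarith) (mem_ball_self (pow_pos ς0 20)) _ le_rfl
    obtain ⟨o1, o2, o3⟩ := gate1 A S hc X C0 G (w' := q.1 - fs lam ς D c * q.2 - (xi ς D c - nL ς D c))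
      ⟨P.an, P.mem, P.ri, P.tm.trans (by linarith), P.lv.trans (by linarith)⟩
      (le_of_eq_of_le (congrArg _ (by ring)) b3) w1 b4
    exact ⟨o1.comp (f := fun q => D.C (D.hi c) (sc lam q)) (anC A (gapL A.num hc) b1), o2, o3⟩
  · simp only [sub_re, add_re, natCast_re]
    exact abs_le.2 ⟨by linarith, by linarith⟩
  · simp only [sub_im, add_im, natCast_im, sub_zero, add_zero] at hq
    obtain ⟨b1, b2, b3, b4⟩ := box A S hc l0 lK y0 hq
    obtain ⟨w1, w2⟩ := bw q (xi ς D c - D.N c + nR ς D c) (by simp) (by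
      rw [add_re, sub_re, natCast_re, natCast_re]; exact abs_le.2 ⟨by linarith, by linarith⟩) hq
    have P := partR A S hc b1 b2 (n := nR ς D c) (by omega) (fun j hj => by
      refine le_trans ?_ ((le_abs_self _).trans (abs_re_le_norm _))
      have a1 := (abs_le.1 ((abs_re_le_norm _).trans b3)).1
      have a2 : (j : ℝ) ≤ nR ς D c := Nat.cast_le.2 hj
      have a3 := (abs_le.1 w2).1
      simp only [sub_re, add_re, natCast_re] at a1 a3 ⊢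
      rw [(el2 ς).1]
      linarith) (mem_ball_self (pow_pos ς0 20)) _ le_rfl
    obtain ⟨o1, o2, o3⟩ := gate1 A S hc X C0 G
      (w' := q.1 - fs lam ς D c * q.2 - (xi ς D c - D.N c + nR ς D c)) P
      (le_of_eq_of_le (congrArg _ (by ring)) b3) w1 b4
    exact ⟨o1.comp (f := fun q => D.C (D.lo (c + 1)) (sc lam q)) (anC A (gapR A.num hc) b1), o2, o3⟩
  · simp only [sub_im, natCast_im, sub_zero]
    rw [(el2 ς).2]
    linarith

end Vale.Agent.P097F.G
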