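import Vale.Agent.P097F.G.NearB
import Vale.Agent.P097F.S.Defs
import Vale.Agent.P097F.N.Tub

/-!
# P097F.G: the true vertices between the two gates
-/

set_option linter.all false

noncomputable section

namespace Vale.Agent.P097F.G

open Filter Topology Set Metric Complex Vale.Agent.P097F.N Vale.Agent.P097F.S
open Vale.Agent.P097EE (C2 sh Dp)
open Vale.Agent.P097N (EE)

/-- the clean pair at the left gate -/
def PLg (lam : ℝ) (ς : ℕ → ℝ) (D : ℕ → Md) (c nL : ℕ → ℕ) (n : ℕ) (q : C2) : C2 :=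
  S.pr (ep (ς n)) ((D n).T^[nL n] ((D n).C ((D n).hi (c n)) (sc lam q)))

/-- the clean pair at the right gate -/
def PRg (lam : ℝ) (ς : ℕ → ℝ) (D : ℕ → Md) (c nR : ℕ → ℕ) (n : ℕ) (q : C2) : C2 :=
  S.pr (ep (ς n)) ((D n).T'^[nR n] ((D n).C ((D n).lo (c n + 1)) (sc lam q)))

/-- the true vertex with a label of the left gate -/
def yg (lam : ℝ) (D : ℕ → Md) (c nL : ℕ → ℕ) (n : ℕ) (q : C2) : ℂ :=
  ((D n).Zi ((D n).hi (c n) + nL n) (sc lam q)).1

/-- the number of steps between the gates -/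
def Ng (D : ℕ → Md) (c nL nR : ℕ → ℕ) (n : ℕ) : ℕ := (D n).N (c n) - nL n - nR n

/-- the true state follows the step maps up to the gates -/
def FolP (ς : ℝ) (D : Md) (c nL nR : ℕ) : Prop := ∀ p ∈ Und ς D, 11 * l1 ς ≤ -p.1.im →
  D.T^[nL] (D.Zi (D.hi c) p) = D.Zi (D.hi c + nL) p ∧
    D.T'^[nR] (D.Zi (D.lo (c + 1)) p) = D.Zi (D.lo (c + 1) - nR) p

/-- the position of the gates -/
structure Gts (lam ς : ℝ) (D : Md) (c nL nR : ℕ) : Prop where
  cM : c < D.M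
  le : nL + nR ≤ D.N c
  fol : FolP ς D c nL nR
  cl : (|D.ω * D.hi c| + D.C₁) * lam ≤ 2
  cr : (|D.ω * D.lo (c + 1)| + D.C₁) * lam ≤ 2

theorem pr_inj {ε : ℝ} (hε : ε ≠ 0) {p p' : C2} (h : S.pr ε p = S.pr ε p') : p = p' := by
  have h2 : p.1 = p'.1 := congrArg Prod.snd h
  have h1 : p.1 - ε * p.2 = p'.1 - ε * p'.2 := congrArg Prod.fst h
  rw [h2, sub_right_inj] at h1
  exact Prod.ext h2 (mul_left_cancel₀ (ofReal_ne_zero.2 hε) h1)

theorem Zi_sh (D : Md) (lam : ℝ) (i : ℤ) (q : C2) (a : ℂ) :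
    D.Zi i (sc lam (sh q a)) = D.Z (i + D.tz (sc lam q) + a, lam * q.2) := by
  simp only [Md.Zi, Md.tz, sc, sh]
  congr 2
  ring

theorem Zi_int (D : Md) (lam : ℝ) (i j : ℤ) (q : C2) :
    D.Zi i (sc lam (sh q j)) = D.Zi (i + j) (sc lam q) := by
  simp only [Md.Zi, Md.tz, sc, sh]
  congr 2
  push_cast
  ring

/-- the smallness of the scale -/
structure SmT (K c₀ μ ς : ℝ) (D : Md) : Prop where
  l : 1 ≤ l1 ς
  w : 1500 * hh ς + 4 + 2 * K ^ 2 ≤ D.H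
  o : 4 * K * (D.ω * (1500 * hh ς + 4 + 2 * K ^ 2)) ≤ μ
  k : ς * K ≤ 1
  x : 2 * K ^ 2 / ep ς * Real.exp (-(5 * c₀ * l1 ς)) ≤ 1

theorem sm_ev {𝒰 : Filter ℕ} {K K₁ K₂ c₀ lam : ℝ} {ς : ℕ → ℝ} {D : ℕ → Md}
    (R : Run 𝒰 K K₁ K₂ c₀ lam ς D) {μ : ℝ} (hμ : 0 < μ) :
    ∀ᶠ n in 𝒰, SmT K c₀ μ (ς n) (D n) := by
  have c0 := R.c0.1
  have t : ∀ B : ℝ, ∀ᶠ n in 𝒰, B * ς n < 1 := fun B => by
    have := R.s0.const_mul B
    rw [mul_zero] at this
    exact this.eventually (gt_mem_nhds one_pos)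
  filter_upwards [R.ev, t 1, t (40000 * K ^ 3), t (4 * K * (40000 * K ^ 3) / μ), t K,
    t (K ^ 2 / c₀ ^ 2)] with n A t1 t2 t3 t4 t5
  have N := A.ma.num
  have K1 := N.K1
  have s0 := N.ς0
  generalize ς n = x at *
  rw [one_mul] at t1
  have e0 : 0 < x ^ 220 := by positivity
  have p1 : x ^ 220 ≤ x ^ 19 := pow_le_pow_of_le_one s0.le t1.le (by norm_num)
  have p2 : x ^ 19 ≤ x := pow_le_of_le_one s0.le t1.le (by norm_num)
  have p3 : x ^ 182 ≤ x := pow_le_of_le_one s0.le t1.le (by norm_num)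
  have K2 : 1 ≤ K ^ 2 := one_le_pow₀ K1
  have W : K * (x ^ 220 * (1500 * hh x + 4 + 2 * K ^ 2)) ≤ 40000 * K ^ 3 * x := by
    have : x ^ 220 * (1500 * hh x + 4 + 2 * K ^ 2) =
        31500 * x ^ 19 + (4 + 2 * K ^ 2) * x ^ 220 := by
      unfold hh l1
      field_simp
      ring
    rw [this]
    have a1 : (4 + 2 * K ^ 2) * x ^ 220 ≤ 6 * K ^ 2 * x :=
      mul_le_mul (by linarith) (p1.trans p2) e0.le (by positivity)
    have a2 : x ≤ K ^ 2 * x := le_mul_of_one_le_left s0.le K2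
    calc _ ≤ K * (40000 * K ^ 2 * x) := mul_le_mul_of_nonneg_left (by linarith) (by linarith)
      _ = _ := by ring
  have l1' : 1 ≤ l1 x := (one_le_div e0).2 p1
  have W0 : 0 ≤ 1500 * hh x + 4 + 2 * K ^ 2 := by
    unfold hh
    linarith
  refine ⟨l1', ?_, ?_, by linarith, ?_⟩
  · have := N.H0
    unfold ep at this
    exact le_of_mul_le_mul_left (le_of_mul_le_mul_left (by linarith : _ ≤ K * (x ^ 220 * (D n).H))
      (by linarith)) e0
  · have a1 := mul_le_mul_of_nonneg_right N.ω0.2.1 W0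
    unfold ep at a1
    rw [div_mul_eq_mul_div, div_lt_one hμ] at t3
    have a2 := mul_le_mul_of_nonneg_left (a1.trans ((mul_assoc _ _ _).le.trans W))
      (show 0 ≤ 4 * K by linarith)
    linarith
  · have y0 : 0 < 5 * c₀ * l1 x := by positivity
    have a1 := Real.quadratic_le_exp_of_nonneg y0.le
    have a2 : (5 * c₀ * l1 x) ^ 2 / 2 ≤ Real.exp (5 * c₀ * l1 x) := by linarith
    rw [Real.exp_neg, ← div_eq_mul_inv, div_le_one (Real.exp_pos _)]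
    refine le_trans ?_ a2
    rw [div_mul_eq_mul_div, div_lt_one (by positivity)] at t5
    have a3 : K ^ 2 * x ^ 182 ≤ c₀ ^ 2 := by nlinarith
    unfold ep l1
    rw [div_le_iff₀ e0]
    have a4 : (5 * c₀ * (x ^ 19 / x ^ 220)) ^ 2 / 2 * x ^ 220 = 25 / 2 * c₀ ^ 2 / x ^ 182 := by
      field_simp
      ring
    rw [a4, le_div_iff₀ (by positivity)]
    nlinarith [sq_nonneg c₀]

theorem pos_of_mul_pos_left' {K lam : ℝ} (K1 : 1 ≤ K) (h : 1 ≤ K * lam) : 0 < lam := by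
  by_contra k
  nlinarith [not_lt.1 k]

section
variable {K c₀ μ ς ε lam : ℝ} {D : Md} {c nL nR : ℕ}

theorem gapLT (N : Num K ς ε D) (h : c < D.M) : D.Gap (D.hi c) :=
  ⟨c, h.le, N.lh c h.le, le_rfl⟩

theorem gapRT (N : Num K ς ε D) (h : c < D.M) : D.Gap (D.lo (c + 1)) :=
  ⟨c + 1, h, le_rfl, N.lh _ h⟩

theorem idx (N : Num K ς ε D) (G : Gts lam ς D c nL nR) :
    D.hi c + nL + (D.N c - nL - nR : ℕ) = D.lo (c + 1) - nR := by
  have a := N.hl c G.cM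
  have b := G.le
  unfold Md.N at *
  omega

/-- the labels below the weak cone are below the true cone -/
theorem geo (N : Num K ς ε D) (G : Gts lam ς D c nL nR) (S : SmT K c₀ μ ς D) (l0 : 0 < lam)
    (lK : lam ≤ K) {q : C2} (q1 : |q.1.re| ≤ 1500 * hh ς) (q2 : -hh ς ≤ q.1.im) (q3 : ‖q.2‖ ≤ 2)
    (q4 : q.1.im ≤ -(2 * ‖q.2‖) - μ) {i : ℤ} (i1 : D.hi c - 3 ≤ i) (i2 : i ≤ D.lo (c + 1) + 3) :
    D.Hor (i + D.tz (sc lam q)) ∧ ‖(lam : ℂ) * q.2‖ ≤ 2 * K ∧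
      -(8 * (D.n : ℝ)) ≤ (i + D.tz (sc lam q)).im ∧
      (i + D.tz (sc lam q)).im ≤ D.top (i + D.tz (sc lam q)) (lam * q.2) - μ / 2 := by
  have K1 := N.K1
  have re : (i + D.tz (sc lam q)).re = i + q.1.re - D.m₁ * (lam * q.2.im) := by
    simp [Md.tz, sc]
    ring
  have im : (i + D.tz (sc lam q)).im = q.1.im + D.m₀ + D.m₁ * (lam * q.2.re) := by
    simp [Md.tz, sc]
    ring
  have b : ∀ x : ℝ, |x| ≤ 2 → |D.m₁ * (lam * x)| ≤ 2 * K ^ 2 := fun x hx => by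
    rw [abs_mul, abs_mul, abs_of_pos l0]
    calc _ ≤ K * (K * 2) := by gcongr; exact N.m1
      _ = _ := by ring
  have b1 := abs_le.1 (b _ ((abs_im_le_norm q.2).trans q3))
  have b2 := abs_le.1 (b _ ((abs_re_le_norm q.2).trans q3))
  have g1 : (D.lo 0 : ℝ) ≤ D.hi c := by exact_mod_cast (Tb.gap_mem N (gapLT N G.cM)).1
  have g2 : (D.lo (c + 1) : ℝ) ≤ D.hi D.M := by exact_mod_cast (Tb.gap_mem N (gapRT N G.cM)).2
  have j1 : (D.hi c : ℝ) - 3 ≤ i := by exact_mod_cast i1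
  have j2 : (i : ℝ) ≤ D.lo (c + 1) + 3 := by exact_mod_cast i2
  have h0 : 0 ≤ hh ς := by
    unfold hh
    linarith [S.l]
  have w := S.w
  have HR := N.HR
  have Rn := N.Rn
  have K0 := sq_nonneg K
  have r1 := abs_le.1 q1
  have ω0 := N.ω0.1
  refine ⟨⟨by rw [re]; linarith, by rw [re]; linarith⟩, ?_, by rw [im]; linarith [N.m0.1], ?_⟩
  · rw [norm_mul, norm_real, Real.norm_of_nonneg l0.le, mul_comm 2 K]
    gcongr
  · set W := 1500 * hh ς + 4 + 2 * K ^ 2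
    set x := (i + D.tz (sc lam q)).re
    have x1 : D.ω * x ≤ D.ω * (D.lo (c + 1) + W) := mul_le_mul_of_nonneg_left (by linarith) ω0.le
    have x2 : D.ω * (D.hi c - W) ≤ D.ω * x := mul_le_mul_of_nonneg_left (by linarith) ω0.le
    have x3 : (|D.ω * x| + D.C₁) * lam ≤ 2 + D.ω * W * lam := by
      rcases abs_cases (D.ω * x) with k | k
      · have := mul_le_mul_of_nonneg_right (show |D.ω * x| + D.C₁ ≤
          |D.ω * D.lo (c + 1)| + D.C₁ + D.ω * W by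
            linarith [le_abs_self (D.ω * D.lo (c + 1))]) l0.le
        linarith [G.cr]
      · have := mul_le_mul_of_nonneg_right (show |D.ω * x| + D.C₁ ≤
          |D.ω * D.hi c| + D.C₁ + D.ω * W by linarith [neg_abs_le (D.ω * D.hi c)]) l0.le
        linarith [G.cl]
    have W0 : 0 ≤ D.ω * W := by positivity
    have y1 := abs_im_le_norm q.2
    have y2 : D.ω * W * lam * |q.2.im| ≤ D.ω * W * K * 2 := by
      gcongr
      linarith
    have y3 := mul_le_mul_of_nonneg_right x3 (abs_nonneg q.2.im)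
    have y4 : D.ω * x * (lam * q.2.im) ≤ |D.ω * x| * (lam * |q.2.im|) := by
      refine (le_abs_self _).trans_eq ?_
      rw [abs_mul (D.ω * x), abs_mul lam, abs_of_pos l0]
    have o := S.o
    rw [im]
    simp only [Md.top, re_ofReal_mul, im_ofReal_mul, abs_mul lam, abs_of_pos l0]
    linarith

theorem und (N : Num K ς ε D) (S : SmT K c₀ μ ς D) (l0 : 0 < lam) (lK : lam ≤ K) {q : C2}
    (q1 : |q.1.re| ≤ 2) (q2 : -hh ς ≤ q.1.im) (q3 : q.1.im ≤ -hh ς + 1) (q4 : ‖q.2‖ ≤ 1) :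
    sc lam q ∈ Und ς D ∧ 20 * l1 ς ≤ -q.1.im ∧ ‖sc lam q‖ ≤ 2 * D.H := by
  have K1 := N.K1
  have l := S.l
  have w := S.w
  have K2 : K ≤ K ^ 2 := le_self_pow₀ K1 two_ne_zero
  unfold hh at *
  have n : ‖(lam : ℂ) * q.2‖ ≤ K := by
    rw [norm_mul, norm_real, Real.norm_of_nonneg l0.le]
    exact (mul_le_of_le_one_right l0.le q4).trans lK
  refine ⟨⟨by show |q.1.re| ≤ _; linarith, by show _ ≤ -q.1.im; linarith,
    by show -q.1.im ≤ _; linarith, (mul_le_mul_of_nonneg_left n N.ς0.le).trans S.k⟩,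
    by linarith, ?_⟩
  rw [Prod.norm_def]
  refine max_le ((norm_le_abs_re_add_abs_im _).trans ?_) (n.trans (by linarith))
  have : |q.1.im| ≤ 21 * l1 ς := abs_le.2 ⟨by linarith, by linarith⟩
  show |q.1.re| + |q.1.im| ≤ _
  linarith

/-- the clean label of a true state -/
theorem lab (M : Mach K ς (ep ς) D) (F : Fol c₀ ς D) (S : SmT K c₀ μ ς D) (c0 : 0 < c₀)
    (l1' : 1 ≤ K * lam) (lK : lam ≤ K) {i : ℤ} (hi : D.Gap i) {q : C2} (q1 : |q.1.re| ≤ 2)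
    (q2 : -hh ς ≤ q.1.im) (q3 : q.1.im ≤ -hh ς + 1) (q4 : ‖q.2‖ ≤ 1) :
    ∃ p ∈ ball q 1, D.C i (sc lam p) = D.Zi i (sc lam q) := by
  have N := M.num
  have K1 := N.K1
  have l0 : 0 < lam := pos_of_mul_pos_left' K1 l1'
  obtain ⟨u1, u2, u3⟩ := und N S l0 lK q1 q2 q3 q4
  obtain ⟨G, hG⟩ := M.inv i hi
  have e0 : 0 < ep ς := pow_pos N.ς0 _
  have e1 : ep ς ≤ 1 := pow_le_one₀ N.ς0.le ((le_mul_of_one_le_right N.ς0.le K1).trans S.k)
  have b : ‖D.Zi i (sc lam q) - D.C i (sc lam q)‖ ≤ Real.exp (-(5 * c₀ * l1 ς)) :=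
    (F.cl i hi _ u1).trans (Real.exp_le_exp.2 (by
      have := mul_le_mul_of_nonneg_left u2 c0.le
      show -(c₀ * -q.1.im / 4) ≤ _
      linarith))
  have x := S.x
  set E := Real.exp (-(5 * c₀ * l1 ς))
  have E0 : 0 < E := Real.exp_pos _
  have x1 : K * (K / ep ς * E) ≤ 1 / 2 := by
    have : 2 * K ^ 2 / ep ς * E = 2 * (K * (K / ep ς * E)) := by ring
    linarith
  have x2 : 1 ≤ K / ep ς := (one_le_div e0).2 (by linarith)
  have x3 : E ≤ K / ep ς * E := le_mul_of_one_le_left E0.le x2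
  have x4 : K * E ≤ 1 / 2 := (mul_le_mul_of_nonneg_left x3 (by linarith)).trans x1
  obtain ⟨-, g1, g2⟩ := hG _ u3 (D.Zi i (sc lam q)) (mem_ball_iff_norm.2 (b.trans_lt (by
    rw [lt_div_iff₀ (by linarith)]
    linarith)))
  have g3 := g2.trans (mul_le_mul_of_nonneg_left b (by linarith))
  set P := G (D.Zi i (sc lam q))
  have lc : (lam : ℂ) ≠ 0 := ofReal_ne_zero.2 l0.ne'
  have y0 : 0 ≤ K / ep ς * E := by linarith
  have y1 : K / ep ς * E ≤ 1 / 2 := (le_mul_of_one_le_left y0 K1).trans x1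
  refine ⟨(P.1, P.2 / lam), ?_, by rw [← g1]; simp [sc, mul_div_cancel₀ _ lc]⟩
  rw [mem_ball, Prod.dist_eq, max_lt_iff, dist_eq_norm, dist_eq_norm]
  refine ⟨((norm_fst_le (P - sc lam q)).trans g3).trans_lt (by linarith), ?_⟩
  have a : ‖P.2 - lam * q.2‖ ≤ K / ep ς * E := (norm_snd_le (P - sc lam q)).trans g3
  have e : P.2 / lam - q.2 = (P.2 - lam * q.2) / lam := by field_simp
  show ‖P.2 / lam - q.2‖ < 1
  rw [e, norm_div, norm_real, Real.norm_of_nonneg l0.le, div_lt_one l0]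
  have := mul_le_mul_of_nonneg_left a (show 0 ≤ K by linarith)
  exact lt_of_mul_lt_mul_left (by linarith) (show 0 ≤ K by linarith)

end

/-- **the fields `tr`, `lk`, `nr`** -/
theorem nearB_of {𝒰 : Filter ℕ} {K K₁ K₂ c₀ lam : ℝ} {ς : ℕ → ℝ} {D : ℕ → Md} {θ h : ℕ → ℂ → ℂ}
    {U : ℕ → Set ℂ} {c nL nR : ℕ → ℕ} {Kb L β : ℕ → ℝ} {ε ξ f : ℕ → ℂ} {ac : ℕ → C2 → C2}
    (R : Run 𝒰 K K₁ K₂ c₀ lam ς D) (C : Con 𝒰 K ς D θ h U) (hF : ∀ᶠ n in 𝒰, Fol c₀ (ς n) (D n))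
    (hG : ∀ᶠ n in 𝒰, Gts lam (ς n) (D n) (c n) (nL n) (nR n))
    (hl : Tendsto (fun n => hh (ς n)) 𝒰 atTop)
    (LK : ∀ᶠ n in 𝒰, 600 * 30 * hh (ς n) ≤ L n ∧ L n ≤ Kb n ∧ 0 ≤ β n)
    (sm : Tendsto (fun n => (Real.log (10 * 30 * hh (ς n)) + 1) *
      (β n + √(‖ε n‖ * L n) + ‖ε n‖ * (10 * 30 * hh (ς n)))) 𝒰 (𝓝 0))
    (gt : ∀ᶠ n in 𝒰,
      P097EE.Gate (fun p => ac n (PLg lam ς D c nL n p)) 1 (f n) (ξ n) (10 * 30 * hh (ς n)) (β n) ∧
      P097EE.Gate (fun p => ac n (PRg lam ς D c nR n p)) (-1) (f n) (ξ n - Ng D c nL nR n)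
        (10 * 30 * hh (ς n)) (β n) ∧ |(ξ n).im| ≤ hh (ς n) / 2 ∧
      P097EE.Chart (fun p => ac n (PRg lam ς D c nR n p)) (P097EE.Bx 3 (-hh (ς n)) 3 2) (Kb n)) :
    NearB 𝒰 30 (fun n => hh (ς n)) Kb (CE lam ς D fun n => (D n).hi (c n))
      (ZE lam ς D fun n => (D n).hi (c n)) (CE lam ς D fun n => (D n).lo (c n + 1))
      (ZE lam ς D fun n => (D n).lo (c n + 1)) ε θ h U ac L β (yg lam D c nL) (PLg lam ς D c nL)
      (PRg lam ς D c nR) ξ f (Ng D c nL nR) := by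
  -- the sharp cone at the labels
  have key : ∀ μ > 0, ∀ᶠ n in 𝒰, ∀ q : C2, |q.1.re| ≤ 1500 * hh (ς n) → -hh (ς n) ≤ q.1.im →
      ‖q.2‖ ≤ 2 → q.1.im ≤ -(2 * ‖q.2‖) - μ → ∀ j : ℤ, -1 ≤ j → j ≤ Ng D c nL nR n + 1 →
      AnalyticAt ℂ (yg lam D c nL n) (sh q j) ∧ yg lam D c nL n (sh q j) ∈ U n ∧
      EE (θ n) (h n) (yg lam D c nL n (sh q (j - 1))) (yg lam D c nL n (sh q j))
        (yg lam D c nL n (sh q (j + 1))) = 0 ∧
      S.pr (ep (ς n)) ((D n).Zi ((D n).hi (c n) + nL n + j) (sc lam q)) =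
        pr (yg lam D c nL n) (sh q j) := by
    intro μ hμ
    filter_upwards [R.ev, hG, sm_ev R hμ, C.shp (μ / 2) (by linarith) (2 * K)] with n A G S shp
      q q1 q2 q3 q4 j j1 j2
    have N := A.ma.num
    have l0 := pos_of_mul_pos_left' N.K1 R.la.1
    have id := idx N G
    unfold Ng at j2
    obtain ⟨a1, a2, a3, a4⟩ := geo N G S l0 R.la.2 q1 q2 q3 q4
      (i := (D n).hi (c n) + nL n + j) (by omega) (by omega)
    obtain ⟨b1, b2, b3, b4⟩ := geo N G S l0 R.la.2 q1 q2 q3 q4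
      (i := (D n).hi (c n) + nL n + (j - 1)) (by omega) (by omega)
    obtain ⟨s1, s2, -, s4⟩ := shp _ _ a1 a2 a3 a4
    obtain ⟨-, -, t3, -⟩ := shp _ _ b1 b2 b3 b4
    set s := (((D n).hi (c n) + nL n + j : ℤ) : ℂ) + (D n).tz (sc lam q) with hs
    have e : ∀ a : ℂ, yg lam D c nL n (sh q (j + a)) = ((D n).Z (s + a, lam * q.2)).1 := by
      intro a
      rw [yg, Zi_sh, hs]
      congr 3
      push_cast
      ring
    have e0 := e 0
    have em := e (-1)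
    rw [add_zero, add_zero] at e0
    rw [← sub_eq_add_neg] at em
    have es : (((D n).hi (c n) + nL n + (j - 1) : ℤ) : ℂ) + (D n).tz (sc lam q) = s + -1 := by
      rw [hs]
      push_cast
      ring
    rw [es, neg_add_cancel_right] at t3
    refine ⟨?_, e0 ▸ s2.2, by rw [e0, em, e 1, ← t3]; exact s4, ?_⟩
    · refine analyticAt_fst.comp (AnalyticAt.comp (g := (D n).Z)
        (f := fun p : C2 => ((((D n).hi (c n) + nL n : ℤ) : ℂ) + (D n).tz (sc lam p),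
          (sc lam p).2)) ?_ ?_)
      · have : (((D n).hi (c n) + nL n : ℤ) : ℂ) + (D n).tz (sc lam (sh q j)) = s := by
          rw [hs]
          simp only [Md.tz, sc, sh]
          push_cast
          ring
        rw [this]
        exact s1
      · exact (analyticAt_const.add (analyticAt_fst.add (analyticAt_const.mul
          (analyticAt_const.add (analyticAt_const.mul (analyticAt_const.mul
            analyticAt_snd)))))).prod (analyticAt_const.mul analyticAt_snd)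
    · rw [pr, sh_sh, ← sub_eq_add_neg, e0, em, ← t3]
      rfl
  have dp : ∀ {H : ℝ} {q : C2}, q ∈ Dp H → |q.1.re| < 1 ∧ -H < q.1.im ∧ q.1.im < -H + 1 ∧
      ‖q.2‖ < 1 := fun ⟨⟨q1, q2, q3⟩, q4⟩ =>
    ⟨by simpa using q1, q2, q3, mem_ball_zero_iff.1 q4⟩
  -- the ends of the partial passages
  have fol : ∀ᶠ n in 𝒰, ∀ q ∈ Dp (hh (ς n)), ∀ (j : ℤ) (p : C2), -1 ≤ j → j ≤ 1 →
      (0 ≤ j → (D n).C ((D n).hi (c n)) (sc lam p) = (D n).Zi ((D n).hi (c n)) (sc lam (sh q j)) →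
        PLg lam ς D c nL n p = pr (yg lam D c nL n) (sh q j)) ∧
      (j ≤ 0 → (D n).C ((D n).lo (c n + 1)) (sc lam p) =
        (D n).Zi ((D n).lo (c n + 1)) (sc lam (sh q j)) →
        PRg lam ς D c nR n p = pr (yg lam D c nL n) (sh q (Ng D c nL nR n + j))) := by
    filter_upwards [R.ev, hG, sm_ev R one_pos, key 1 one_pos] with n A G S key q hq j p j1 j2
    have N := A.ma.num
    have l0 := pos_of_mul_pos_left' N.K1 R.la.1
    obtain ⟨q1, q2, q3, q4⟩ := dp hq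
    have l := S.l
    have jr : |(j : ℝ)| ≤ 1 := by exact_mod_cast abs_le.2 ⟨j1, j2⟩
    have u := und (q := sh q j) N S l0 R.la.2
      (by simpa [sh] using (abs_add_le _ _).trans (by linarith)) (by simpa [sh] using q2.le)
      (by simpa [sh] using q3.le) q4.le
    obtain ⟨f1, f2⟩ := G.fol _ u.1 (show _ ≤ -(sh q j).1.im by linarith [u.2.1])
    have k := fun i i1 i2 => (key q (by unfold hh; linarith) q2.le (by linarith)
      (by unfold hh at q3; linarith) i i1 i2).2.2.2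
    refine ⟨fun j0 e => ?_, fun j0 e => ?_⟩
    · rw [PLg, e, f1, Zi_int, k j j1 (by omega)]
    · have := k (Ng D c nL nR n + j) (by omega) (by omega)
      rw [← add_assoc, Ng, idx N G] at this
      rw [PRg, e, f2, Zi_int, this, Ng]
      push_cast
      rfl
  refine ⟨by norm_num, hl, LK, sm, gt, fun μ hμ => ?_, ?_, ?_⟩
  · filter_upwards [key μ hμ] with n key q hq q4 j j1 j2
    obtain ⟨a, b, d, -⟩ := key q (by linarith [hq.1]) hq.2.1 hq.2.2.2 q4 j j1 j2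
    exact ⟨a, b, d⟩
  · filter_upwards [R.ev, fol] with n A fol q hq p _
    have e0 : ep (ς n) ≠ 0 := (pow_pos A.ma.num.ς0 _).ne'
    obtain ⟨f1, f2⟩ := fol q hq 0 p (by omega) (by omega)
    simp only [Int.cast_zero, sh_zero, add_zero] at f1 f2
    exact ⟨fun k => f1 le_rfl (pr_inj e0 k), fun k => f2 le_rfl (pr_inj e0 k)⟩
  · filter_upwards [R.ev, hG, hF, sm_ev R one_pos, fol] with n A G F S fol q hq
    obtain ⟨q1, q2, q3, q4⟩ := dp hq
    have ex : ∀ i, (D n).Gap i → ∀ j : ℤ, -1 ≤ j → j ≤ 1 → ∃ p ∈ ball q 2,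
        (D n).C i (sc lam p) = (D n).Zi i (sc lam (sh q j)) := fun i hi j j1 j2 => by
      have jr : |(j : ℝ)| ≤ 1 := by exact_mod_cast abs_le.2 ⟨j1, j2⟩
      obtain ⟨p, hp, e⟩ := lab (q := sh q j) A.ma F S R.c0.1 R.la.1 R.la.2 hi
        (by simpa [sh] using (abs_add_le _ _).trans (by linarith)) (by simpa [sh] using q2.le)
        (by simpa [sh] using q3.le) q4.le
      have : dist (sh q j) q ≤ 1 := by simpa [sh, Prod.dist_eq] using jr
      exact ⟨p, mem_ball.2 (by linarith [dist_triangle p (sh q j) q, mem_ball.1 hp]), e⟩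
    obtain ⟨p₀, m₀, e₀⟩ := ex _ (gapLT A.ma.num G.cM) 0 (by omega) (by omega)
    obtain ⟨p₁, m₁, e₁⟩ := ex _ (gapLT A.ma.num G.cM) 1 (by omega) (by omega)
    obtain ⟨p₂, m₂, e₂⟩ := ex _ (gapRT A.ma.num G.cM) (-1) (by omega) (by omega)
    obtain ⟨p₃, m₃, e₃⟩ := ex _ (gapRT A.ma.num G.cM) 0 (by omega) (by omega)
    have f₀ := (fol q hq 0 p₀ (by omega) (by omega)).1 le_rfl e₀
    have f₁ := (fol q hq 1 p₁ (by omega) (by omega)).1 (by omega) e₁
    have f₂ := (fol q hq (-1) p₂ (by omega) (by omega)).2 (by omega) e₂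
    have f₃ := (fol q hq 0 p₃ (by omega) (by omega)).2 le_rfl e₃
    simp only [Int.cast_zero, sh_zero, add_zero, Int.cast_one, Int.cast_neg,
      ← sub_eq_add_neg] at f₀ f₁ f₂ f₃
    exact ⟨⟨p₀, m₀, p₁, m₁, f₀, f₁⟩, p₂, m₂, p₃, m₃, f₂, f₃⟩

end Vale.Agent.P097F.G
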