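import Vale.Agent.P097F.G.Defs
import Vale.Agent.P097F.G.Folp
import Vale.Agent.P097F.G.Trlk
import Vale.Agent.P097F.S.Gr
import Vale.Agent.P097F.S.Fol

/-!
# P097F.G: an obstacle near the top (assembly)
-/

set_option linter.all false

noncomputable section

namespace Vale.Agent.P097F.G

open Filter Topology Set Metric Complex Vale.Agent.P097F.N Vale.Agent.P097F.S
open Vale.Agent.P097EE (C2 LocB NearE)

namespace NrA

variable {K K' ς ε : ℝ} {D : Md} {c : ℕ}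

theorem pj_mono (h : K ≤ K') (H : PasJ K ς ε D) : PasJ K' ς ε D := by
  have m : K * ς ^ 20 ≤ K' * ς ^ 20 := by gcongr
  intro c hc ζ t h1 h2 j hj
  obtain ⟨a, b⟩ := H c hc ζ t h1 h2 j hj
  exact ⟨fun k q hq => ⟨(a k q hq).1, (a k q hq).2.1, (a k q hq).2.2.mem, (a k q hq).2.2.ri,
      (a k q hq).2.2.τ.trans m, (a k q hq).2.2.J.trans m⟩,
    fun k q hq => ⟨(b k q hq).1, (b k q hq).2.1, (b k q hq).2.2.mem, (b k q hq).2.2.ri,
      (b k q hq).2.2.τ.trans m, (b k q hq).2.2.J.trans m⟩⟩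

theorem nu_mono (h : K ≤ K') (K1 : 1 ≤ K) (ε0 : 0 < ε) (H : Nu K ς ε D c) : Nu K' ς ε D c := by
  have m : 1 / (K' * ε) ≤ 1 / (K * ε) := by gcongr
  obtain ⟨a, b, d, e⟩ := H
  exact ⟨m.trans a, by linarith, d, fun ζ hζ => ⟨(e ζ hζ).1, (e ζ hζ).2.1.trans (by gcongr),
    (e ζ hζ).2.2.trans (by gcongr)⟩⟩

theorem ac_mono {ac : C2 → C2} (h : K ≤ K') (ς0 : 0 < ς) (H : AC K ς ε D c ac) :
    AC K' ς ε D c ac :=
  ⟨H.an, fun q a b d => ⟨(H.rel q a b d).1.trans (by gcongr), (H.rel q a b d).2.trans (by gcongr)⟩,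
    H.lo, H.up⟩

theorem eh {ς : ℝ} (h : 0 < ς) : ‖((ep ς : ℝ) : ℂ)‖ * hh ς = 21 * ς ^ 19 := by
  rw [norm_real, Real.norm_of_nonneg (show 0 ≤ ep ς from (pow_pos h 220).le)]
  unfold hh l1 ep
  field_simp

theorem small {𝒰 : Filter ℕ} {ς : ℕ → ℝ} (h0 : Tendsto ς 𝒰 (𝓝 0)) (hp : ∀ᶠ n in 𝒰, 0 < ς n)
    {K : ℝ} (K0 : 0 ≤ K) : Tendsto (fun n => (Real.log (10 * 30 * hh (ς n)) + 1) * (K * ς n +
      √(‖((ep (ς n) : ℝ) : ℂ)‖ * (600 * 30 * hh (ς n))) +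
      ‖((ep (ς n) : ℝ) : ℂ)‖ * (10 * 30 * hh (ς n)))) 𝒰 (𝓝 0) := by
  have t := (((h0.const_mul (Real.log 6300 + 1)).sub (((Real.continuous_mul_log.tendsto 0).comp
    h0).const_mul 201)).const_mul (K + 7300))
  simp only [mul_zero, zero_mul, sub_zero] at t
  have e : ∀ x : ℝ, 0 < x → Real.log (10 * 30 * hh x) = Real.log 6300 - 201 * Real.log x := by
    intro x hx
    rw [gr_hh hx, show 10 * 30 * (21 * x⁻¹ ^ 201) = 6300 * x⁻¹ ^ 201 by ring,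
      Real.log_mul (by norm_num) (by positivity), Real.log_pow, Real.log_inv]
    push_cast
    ring
  have p : ∀ᶠ n in 𝒰, 0 < ς n ∧ ς n ≤ 1 ∧ 0 ≤ Real.log (10 * 30 * hh (ς n)) + 1 := by
    filter_upwards [hp, h0.eventually (ge_mem_nhds one_pos)] with n a b
    have := Real.log_nonpos a.le b
    have := Real.log_nonneg (show (1 : ℝ) ≤ 6300 by norm_num)
    exact ⟨a, b, by rw [e _ a]; linarith⟩
  refine squeeze_zero' (p.mono fun n ⟨a, _, c⟩ => mul_nonneg c (add_nonneg (by positivity)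
    (by rw [mul_left_comm, eh a]; positivity))) (p.mono fun n ⟨a, b, c⟩ => ?_) t
  have b1 : ς n ^ 19 ≤ ς n ^ 2 := pow_le_pow_of_le_one a.le b (by norm_num)
  have b2 : ς n ^ 2 ≤ ς n := pow_le_of_le_one a.le b (by norm_num)
  have b3 : √(‖((ep (ς n) : ℝ) : ℂ)‖ * (600 * 30 * hh (ς n))) ≤ 1000 * ς n := by
    rw [mul_left_comm, eh a]
    refine Real.sqrt_le_iff.2 ⟨by positivity, ?_⟩
    rw [mul_pow]
    linarith [pow_pos a 2]
  calc _ ≤ (Real.log (10 * 30 * hh (ς n)) + 1) * ((K + 7300) * ς n) := by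
        refine mul_le_mul_of_nonneg_left ?_ c
        rw [mul_left_comm _ (10 * 30), eh a]
        linarith
    _ = _ := by rw [e _ a]; simp only [Function.comp]; ring

end NrA

open NrA

/-- **an obstacle near the top** -/
theorem near_of (hP : S_PJ) (hN : S_NU) (hA : S_AR) (hG : S_GT) (hC : S_CHR) (hX : S_AC) :
    S_NEAR := by
  intro 𝒰 K K₁ K₂ c₁ lam s B ς θ h Q c₀ U g Lw D c i i' Ξ P₀ b H hL R C b3 E
  have hp : ∀ᶠ n in (𝒰 : Filter ℕ), 0 < ς n := R.ev.mono fun n A => A.ma.num.ς0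
  have G := gr 𝒰 K₂ b ς R.K2 (by omega) R.s0 hp
  have sm : ∀ a : ℝ, 0 < a → ∀ᶠ n in (𝒰 : Filter ℕ), ς n < a := fun a ha =>
    R.s0.eventually (gt_mem_nhds ha)
  obtain ⟨ac, K₃, k3, Lb, hac⟩ := hX 𝒰 (fun n => ep (ς n)) ς θ h Q c₀ U g Lw K s B D c Ξ P₀
    (fun n => 600 * 30 * hh (ς n)) H hL
    ((R.ev.and E).mono fun n ⟨A, e⟩ => ⟨A.ma, e.1, e.2.2.2.2.2.2.2⟩)
    (Tendsto.congr' (hp.mono fun n a => by
      show 600 * 30 * (21 * ς n ^ 19) = _ * _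
      rw [← eh a]
      ring) (by simpa using ((R.s0.pow 19).const_mul 21).const_mul (600 * 30)))
    (G.hl.const_mul_atTop (by norm_num))
  obtain ⟨K₄, k4, s4, p4, hP⟩ := hP K
  obtain ⟨K₅, k5, s5, p5, hN⟩ := hN K
  obtain ⟨K', k, m3, m4, m5⟩ : ∃ K', 1 ≤ K' ∧ K₃ ≤ K' ∧ K₄ ≤ K' ∧ K₅ ≤ K' :=
    ⟨K₃ + K₄ + K₅, by linarith, by linarith, by linarith, by linarith⟩
  obtain ⟨s6, p6, hA⟩ := hA K K' k
  obtain ⟨s7, p7, hG⟩ := hG K K' k
  obtain ⟨s8, p8, hC⟩ := hC K K' k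
  obtain ⟨s9, p9, hF⟩ := fol K K₁ K₂ c₁ R.K1 R.c0.1
  have key : ∀ᶠ n in (𝒰 : Filter ℕ), Ar (ep (ς n)) 30 (hh (ς n)) (D n) (c n) ∧
      Gt K' (ς n) (ep (ς n)) 30 (hh (ς n)) lam (D n) (c n) (ac n) ∧
      P097EE.Chart (fun q => ac n (PR (ep (ς n)) 30 (hh (ς n)) lam (D n) (c n) q))
        (P097EE.Bx 3 (-hh (ς n)) 3 2) (KK b (ς n)) ∧ 600 * 30 * hh (ς n) ≤ KK b (ς n) := by
    filter_upwards [R.ev, E, hac, sm _ p4, sm _ p5, sm _ p6, sm _ p7, sm _ p8,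
      sm (1 / 378000) (by norm_num)] with n A e a t4 t5 t6 t7 t8 t9
    have ς0 := A.ma.num.ς0
    have ε0 : 0 < ep (ς n) := pow_pos ς0 _
    have l0 : 0 < l1 (ς n) := div_pos (pow_pos ς0 _) ε0
    have z : Sz K (ς n) (ep (ς n)) 30 (hh (ς n)) lam (D n) (c n) :=
      ⟨e.1, by norm_num, ⟨le_rfl, mul_le_mul_of_nonneg_right (by norm_num) l0.le⟩, R.la,
        e.2.2.2.2.1, by
          have := e.2.2.2.1
          simp only [xi, sub_im, mul_im, I_re, I_im, ofReal_re, ofReal_im] at this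
          rw [show hh (ς n) = 21 * l1 (ς n) from rfl]
          linarith⟩
    have pj := pj_mono m4 (hP _ _ _ t4 A.ma)
    have nu := nu_mono m5 k5 ε0 (hN _ _ _ _ _ _ _ t5 A.ma A.lv z)
    have ar := hA _ _ _ _ _ _ _ t6 A.ma z nu
    have a' := ac_mono m3 ς0 a
    have x1 : 378000 ≤ (ς n)⁻¹ := by
      rw [le_inv_comm₀ (by norm_num) ς0, ← one_div]
      exact t9.le
    have x2 : 1 ≤ (ς n)⁻¹ ^ 220 := one_le_pow₀ (by linarith)
    refine ⟨ar, hG _ _ _ _ _ _ _ _ t7 A.ma z nu ar pj a',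
      hC _ _ _ _ _ _ _ _ t8 A.ma z nu ar pj a' _ ?_, ?_⟩
    · rw [gr_KK, one_div, ← inv_pow, ep, ← inv_pow]
      exact pow_le_pow_right₀ x2 b3
    · rw [gr_KK, gr_hh ς0]
      generalize (ς n)⁻¹ = x at *
      calc _ = 378000 * x ^ 201 := by ring
        _ ≤ x * x ^ 201 := by gcongr
        _ = x ^ 202 := by ring
        _ ≤ x ^ 220 := pow_le_pow_right₀ (by linarith) (by norm_num)
        _ ≤ _ := le_self_pow₀ x2 (by omega)
  have N := nearE_of Lb (nearB_of (c := c)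
    (nL := fun n => n1 (ep (ς n)) 30 (hh (ς n)) (D n) (c n))
    (nR := fun n => n2 (ep (ς n)) 30 (hh (ς n)) (D n) (c n)) (Kb := fun n => KK b (ς n))
    (β := fun n => K' * ς n) (ξ := fun n => xg (ep (ς n)) 30 (hh (ς n)) (D n) (c n))
    (f := fun n => ((D n).sl (ep (ς n)) (c n) * lam : ℝ)) R C
    ((R.ev.and (sm _ p9)).mono fun n a => hF _ _ a.2 a.1) (by
      filter_upwards [E, key, folp_ev R] with n e a f
      have := a.1.sum
      exact ⟨e.1, by omega, f _ _ _ e.1 (by omega) (by omega), e.2.1 ▸ e.2.2.2.2.2.1,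
        e.2.2.1 ▸ e.2.2.2.2.2.2.1⟩) G.hl
    ((key.and hp).mono fun n a => ⟨le_rfl, a.1.2.2.2, mul_nonneg (by linarith) a.2.le⟩)
    (small R.s0 hp (by linarith)) (key.mono fun n a => by
      have e : Ng D c (fun n => n1 (ep (ς n)) 30 (hh (ς n)) (D n) (c n))
          (fun n => n2 (ep (ς n)) 30 (hh (ς n)) (D n) (c n)) n = 2 * ga 30 (hh (ς n)) := by
        have := a.1.sum
        simp only [Ng]
        omega
      rw [e]
      exact ⟨a.2.1.1, a.2.1.2, a.1.im, a.2.2.1⟩))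
  obtain ⟨O, F, G', Fn, Gn, κ, ι, T, Tm, v, C', l, e, L, η, ν, β, L0, R0, α, σ, u, ξ, f, N', Lc, Nr⟩ := N
  refine ⟨O, F, G', Fn, Gn, κ, ι, T, Tm, v, C', l, e, L, η, ν, β, L0, R0, α, σ, u, ξ, f, N', Lc,
    Nr.LK, Nr.sm, Nr.gt, Nr.tr, ?_⟩
  filter_upwards [Nr.lk, E] with n a e
  simpa only [CE, ZE, e.2.1, e.2.2.1] using a

end Vale.Agent.P097F.G
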