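import Vale.Agent.P097EE.Defs

/-!
# P097F.G: an obstacle near the top, in terms of the true vertices
-/

set_option linter.all false

noncomputable section

namespace Vale.Agent.P097F.G

open Filter Topology Set Metric Complex Vale.Agent.P097EE Vale.Agent.P097N

/-- the pair (previous vertex, vertex) of the true family `y` -/
def pr (y : C2 → ℂ) (q : C2) : C2 := (y (sh q (-1)), y q)

/-- `y n q` is the true vertex with the label `q` of the left gate, `PL`, `PR` are the clean pairs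
at the gates -/
structure NearB (𝒰 : Filter ℕ) (A : ℝ) (h K : ℕ → ℝ) (CL ZL CR ZR : ℕ → C2 → C2) (ε : ℕ → ℂ)
    (θ hh : ℕ → ℂ → ℂ) (U : ℕ → Set ℂ) (ac : ℕ → C2 → C2) (L β : ℕ → ℝ) (y : ℕ → C2 → ℂ)
    (PL PR : ℕ → C2 → C2) (ξ f : ℕ → ℂ) (N : ℕ → ℕ) : Prop where
  A2 : 2 ≤ A
  hl : Tendsto h 𝒰 atTop
  LK : ∀ᶠ n in 𝒰, 600 * A * h n ≤ L n ∧ L n ≤ K n ∧ 0 ≤ β n
  sm : Tendsto (fun n => (Real.log (10 * A * h n) + 1) *
    (β n + √(‖ε n‖ * L n) + ‖ε n‖ * (10 * A * h n))) 𝒰 (𝓝 0)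
  gt : ∀ᶠ n in 𝒰, Gate (fun p => ac n (PL n p)) 1 (f n) (ξ n) (10 * A * h n) (β n) ∧
    Gate (fun p => ac n (PR n p)) (-1) (f n) (ξ n - N n) (10 * A * h n) (β n) ∧
    |(ξ n).im| ≤ h n / 2 ∧ Chart (fun p => ac n (PR n p)) (Bx 3 (-h n) 3 2) (K n)
  tr : ∀ lam > 0, ∀ᶠ n in 𝒰, ∀ q ∈ Bx (50 * A * h n) (-h n) 0 2,
    q.1.im ≤ -(2 * ‖q.2‖) - lam → ∀ j : ℤ, -1 ≤ j → j ≤ N n + 1 →
      AnalyticAt ℂ (y n) (sh q j) ∧ y n (sh q j) ∈ U n ∧
      EE (θ n) (hh n) (y n (sh q (j - 1))) (y n (sh q j)) (y n (sh q (j + 1))) = 0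
  lk : ∀ᶠ n in 𝒰, ∀ q ∈ Dp (h n), ∀ p ∈ ball q (K n)⁻¹,
    (CL n p = ZL n q → PL n p = pr (y n) q) ∧ (CR n p = ZR n q → PR n p = pr (y n) (sh q (N n)))
  nr : ∀ᶠ n in 𝒰, ∀ q ∈ Dp (h n),
    (∃ p ∈ ball q 2, ∃ p' ∈ ball q 2, PL n p = pr (y n) q ∧ PL n p' = pr (y n) (sh q 1)) ∧
    ∃ p ∈ ball q 2, ∃ p' ∈ ball q 2, PR n p = pr (y n) (sh q (N n - 1)) ∧
      PR n p' = pr (y n) (sh q (N n))

theorem sh_sh (q : C2) (a b : ℂ) : sh (sh q a) b = sh q (a + b) := by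
  simp [sh, add_assoc]

theorem sh_zero (q : C2) : sh q 0 = q := by simp [sh]

theorem an_sh {y : C2 → ℂ} {q : C2} {a : ℂ} (h : AnalyticAt ℂ y (sh q a)) :
    AnalyticAt ℂ (fun p => y (sh p a)) q :=
  AnalyticAt.comp (f := fun p : C2 => sh p a) h
    ((analyticAt_fst.add analyticAt_const).prod analyticAt_snd)

theorem le_of_sq_le_sq' {a b : ℝ} (hb : 0 ≤ b) (h : a ^ 2 ≤ b ^ 2) : a ≤ b :=
  (abs_le_of_sq_le_sq' h hb).2

/-- the states of a gate near the deep labels -/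
theorem gate_in {Z : C2 → C2} {a β h L' c₀ : ℝ} {f ξ : ℂ} (G : Gate Z a f ξ L' β)
    (ha : a = 1 ∨ a = -1) (hξ : |ξ.im| ≤ h / 2) (h10 : 10 ≤ h) (hL : 20 * h ≤ L') (hβ : β ≤ 1 / 2)
    (c0 : 0 < c₀) (hc : 24 ≤ c₀ * L') {q p p' : C2} (hq : q ∈ Dp h) (hp : p ∈ ball q 2)
    (hp' : p' ∈ ball q 2) :
    6 * L' ≤ ‖(Z p).1‖ ^ 2 ∧ ‖(Z p).1‖ ^ 2 ≤ 10 * L' ∧ ‖(Z p).2‖ ≤ β ∧
      ‖(Z p').1 - (Z p).1‖ ≤ c₀ * ‖(Z p).1‖ := by
  obtain ⟨⟨q1, q2, q3⟩, q4⟩ := hq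
  rw [sub_zero] at q1
  rw [mem_ball_zero_iff] at q4
  have L0 : 0 < L' := by linarith
  have xi := abs_le.1 hξ
  have key : ∀ x : C2, ∀ ρ : ℝ, dist x q < ρ → |x.1.re| ≤ 1 + ρ ∧ |x.1.im - ξ.im| ≤ 2 * h + ρ ∧
      ‖x.2‖ ≤ 1 + ρ := by
    intro x ρ hx
    rw [Prod.dist_eq, max_lt_iff, dist_eq_norm, dist_eq_norm] at hx
    have a1 := abs_le.1 ((abs_re_le_norm _).trans hx.1.le)
    have a2 := abs_le.1 ((abs_im_le_norm _).trans hx.1.le)
    rw [sub_re] at a1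
    rw [sub_im] at a2
    have a3 := abs_lt.1 q1
    have a4 := norm_le_norm_sub_add x.2 q.2
    exact ⟨abs_le.2 ⟨by linarith, by linarith⟩, abs_le.2 ⟨by linarith, by linarith⟩,
      by linarith [hx.2]⟩
  have xr : 7 * L' ≤ |ξ.re| ∧ |ξ.re| ≤ 9 * L' := by
    have := abs_le.1 G.c
    rcases ha with rfl | rfl
    · rw [abs_of_pos (by linarith)]
      constructor <;> linarith
    · rw [abs_of_neg (by linarith)]
      constructor <;> linarith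
  have est : ∀ x : C2, ∀ ρ : ℝ, dist x q < ρ → ρ ≤ L' / 2 + 2 →
      x ∈ Bx (4 * L') (ξ.im - 4 * L') (ξ.im + 4 * L') L' ∧
      7 * L' - 2 - 2 * ρ - β * L' ≤ ‖(Z x).1‖ ^ 2 ∧
      ‖(Z x).1‖ ^ 2 ≤ 9 * L' + 2 + 2 * h + 3 * ρ + β * L' := by
    intro x ρ hx hρ
    obtain ⟨k1, k2, k3⟩ := key x ρ hx
    have k2' := abs_le.1 k2
    have m : x ∈ Bx (4 * L') (ξ.im - 4 * L') (ξ.im + 4 * L') L' :=
      ⟨by linarith, by linarith, by linarith, by linarith⟩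
    have b := (G.bx x m).2.2
    have f1 : ‖f * x.2‖ ≤ 1 + ρ := by
      rw [norm_mul]
      exact (mul_le_of_le_one_left (norm_nonneg _) G.f1).trans k3
    have u1 := norm_le_abs_re_add_abs_im (x.1 - ξ)
    have u2 := abs_re_le_norm (x.1 - ξ)
    rw [sub_re, sub_im] at u1
    rw [sub_re] at u2
    have u3 := abs_sub x.1.re ξ.re
    have u4 := abs_sub_abs_le_abs_sub ξ.re x.1.re
    rw [abs_sub_comm] at u4
    have e : x.1 - f * x.2 - ξ = (x.1 - ξ) - f * x.2 := by ring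
    have v1 := norm_sub_le (x.1 - ξ) (f * x.2)
    have v2 := norm_sub_norm_le (x.1 - ξ) (f * x.2)
    have w1 := norm_sub_norm_le ((Z x).1 ^ 2) (x.1 - f * x.2 - ξ)
    have w2 := norm_sub_norm_le (x.1 - f * x.2 - ξ) ((Z x).1 ^ 2)
    rw [norm_sub_rev _ ((Z x).1 ^ 2)] at w2
    rw [e] at w1 w2 b
    rw [norm_pow] at w1 w2
    exact ⟨m, by linarith [xr.1], by linarith [xr.2]⟩
  have βL : β * L' ≤ 1 / 2 * L' := by gcongr
  obtain ⟨m, e1, e2⟩ := est p 2 hp (by linarith)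
  have e3 : 6 * L' ≤ ‖(Z p).1‖ ^ 2 := by linarith
  refine ⟨e3, by linarith, (G.bx p m).2.1, ?_⟩
  have sub : ∀ x ∈ ball p (L' / 2), dist x q < L' / 2 + 2 := fun x hx => by
    linarith [dist_triangle x p q, mem_ball.1 hx, mem_ball.1 hp]
  have d4 : dist p' p < 4 := by
    linarith [dist_triangle_right p' p q, mem_ball.1 hp, mem_ball.1 hp']
  have k := Complex.dist_le_div_mul_dist_of_mapsTo_ball (f := fun x => (Z x).1) (c := p) (z := p')
    (R₁ := L' / 2) (R₂ := 3 * ‖(Z p).1‖)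
    (fun x hx => (analyticAt_fst.comp
      (G.bx x (est x _ (sub x hx) le_rfl).1).1).differentiableAt.differentiableWithinAt)
    (fun x hx => by
      have b := (est x _ (sub x hx) le_rfl).2.2
      have b2 : ‖(Z x).1‖ ≤ 2 * ‖(Z p).1‖ :=
        le_of_sq_le_sq' (by positivity) (by rw [mul_pow]; linarith)
      have := norm_sub_le (Z x).1 (Z p).1
      exact mem_closedBall_iff_norm.2 (by linarith))
    (mem_ball.2 (by linarith))
  rw [dist_eq_norm] at k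
  refine k.trans ?_
  have n0 := norm_nonneg (Z p).1
  calc 3 * ‖(Z p).1‖ / (L' / 2) * dist p' p ≤ 3 * ‖(Z p).1‖ / (L' / 2) * 4 := by gcongr
    _ = 24 / L' * ‖(Z p).1‖ := by field_simp; ring
    _ ≤ c₀ * ‖(Z p).1‖ := by
      gcongr
      rwa [div_le_iff₀ L0]

/-- **from the vertices to the local system** -/
theorem nearE_of {𝒰 : Filter ℕ} {A : ℝ} {h K : ℕ → ℝ} {CL ZL CR ZR : ℕ → C2 → C2} {ε : ℕ → ℂ}
    {θ hh : ℕ → ℂ → ℂ} {U : ℕ → Set ℂ} {ac : ℕ → C2 → C2} {L β : ℕ → ℝ} {y : ℕ → C2 → ℂ}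
    {PL PR : ℕ → C2 → C2} {ξ f : ℕ → ℂ} {N : ℕ → ℕ} (B : LocB 𝒰 ε θ hh U ac L)
    (H : NearB 𝒰 A h K CL ZL CR ZR ε θ hh U ac L β y PL PR ξ f N) :
    NearE 𝒰 A h K CL ZL CR ZR := by
  obtain ⟨O, F, G, Fn, Gn, κ, ι, T, Tm, v, C, l, e, co, cu, Lc, Bi⟩ := B
  have A2 := H.A2
  have C1 := Lc.C1
  have lg : ∀ᶠ n in 𝒰, 10 ≤ h n ∧ 20 * h n ≤ 10 * A * h n ∧ 0 ≤ Real.log (10 * A * h n) := by
    filter_upwards [H.hl.eventually_ge_atTop 10] with n hn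
    have : 20 * h n ≤ 10 * A * h n := by nlinarith
    exact ⟨hn, this, Real.log_nonneg (by linarith)⟩
  have βs : ∀ d > 0, ∀ᶠ n in 𝒰, β n < d := fun d hd => by
    filter_upwards [lg, H.LK, H.sm.eventually (gt_mem_nhds hd)] with n k1 k2 k3
    have a1 := Real.sqrt_nonneg (‖ε n‖ * L n)
    have a2 : 0 ≤ ‖ε n‖ * (10 * A * h n) := mul_nonneg (norm_nonneg _) (by linarith [k1.1, k1.2.1])
    have a3 := le_mul_of_one_le_left (a := Real.log (10 * A * h n) + 1)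
      (b := β n + √(‖ε n‖ * L n) + ‖ε n‖ * (10 * A * h n)) (by linarith [k2.2.2])
      (by linarith [k1.2.2])
    linarith
  refine ⟨O, F, G, Fn, Gn, κ, ι, T, Tm, v, C, l, e, L, _, _, β, fun n p => ac n (PL n p),
    fun n p => ac n (PR n p), fun n q => ac n (pr (y n) q), fun n q => co n (pr (y n) q),
    fun n q => cu n (pr (y n) (sh q 1)), ξ, f, N, Lc, ?_, ?_, H.gt, fun lam hlam => ?_, ?_⟩
  · filter_upwards [H.LK] with n k
    exact ⟨k.1, k.2.1, Real.sqrt_nonneg _, by positivity, k.2.2⟩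
  · have t := H.sm.const_mul C
    rw [mul_zero] at t
    refine squeeze_zero' ?_ ?_ t
    · filter_upwards [lg, H.LK] with n k1 k2
      have a0 : 0 ≤ 10 * A * h n := by linarith [k1.1, k1.2.1]
      have := k1.2.2
      have := k2.2.2
      positivity
    · filter_upwards [lg, H.LK] with n k1 k2
      have a0 : 0 ≤ 10 * A * h n := by linarith [k1.1, k1.2.1]
      have a1 := Real.sqrt_nonneg (‖ε n‖ * L n)
      have a2 := le_mul_of_one_le_left (add_nonneg k2.2.2 a1) C1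
      rw [mul_left_comm C (Real.log (10 * A * h n) + 1)]
      exact mul_le_mul_of_nonneg_left (by linarith) (by linarith [k1.2.2])
  · filter_upwards [H.tr lam hlam, Bi.inn] with n k1 k2 q hq hq' j hj
    have j0 : (0 : ℤ) ≤ j := Int.natCast_nonneg j
    have jN : (j : ℤ) ≤ N n := by exact_mod_cast hj
    obtain ⟨a1, a2, -⟩ := k1 q hq hq' (j - 1) (by omega) (by omega)
    obtain ⟨b1, b2, b3⟩ := k1 q hq hq' j (by omega) (by omega)
    obtain ⟨c1, c2, -⟩ := k1 q hq hq' (j + 1) (by omega) (by omega)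
    push_cast at a1 a2 b1 b2 b3 c1 c2
    have e1 : pr (y n) (sh q j) = (y n (sh q (j - 1)), y n (sh q j)) := by
      rw [pr, sh_sh, sub_eq_add_neg]
    have e2 : pr (y n) (sh q (j + 1)) = (y n (sh q j), y n (sh q (j + 1))) := by
      rw [pr, sh_sh, add_neg_cancel_right]
    have p1 : AnalyticAt ℂ (pr (y n)) (sh q j) :=
      (an_sh (by rwa [sh_sh, ← sub_eq_add_neg])).prod b1
    have p2 : AnalyticAt ℂ (pr (y n)) (sh (sh q j) 1) := by
      rw [sh_sh]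
      exact (an_sh (by rwa [sh_sh, add_neg_cancel_right])).prod c1
    have p3 : AnalyticAt ℂ (fun p => pr (y n) (sh p 1)) (sh q j) :=
      AnalyticAt.comp (f := fun p : C2 => sh p 1) p2
        ((analyticAt_fst.add analyticAt_const).prod analyticAt_snd)
    have m1 := Bi.an n _ (e1 ▸ (mk_mem_prod a2 b2 : (_, _) ∈ U n ×ˢ U n))
    have m2 := Bi.an n (pr (y n) (sh (sh q j) 1)) (by
      rw [sh_sh, e2]
      exact mk_mem_prod b2 c2)
    refine ⟨m1.1.comp p1, m1.2.1.comp p1,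
      AnalyticAt.comp (f := fun p => pr (y n) (sh p 1)) m2.2.2 p3, ?_⟩
    simp only [sh_sh, e1, e2]
    exact ⟨fun m => (k2 _ _ _).1 m b3, (k2 _ _ _).2⟩
  · obtain ⟨c₀, c0, un⟩ := Bi.un
    have e0 := Lc.e0
    filter_upwards [un, lg, H.LK, H.gt, H.tr 1 one_pos, H.lk, H.nr, βs (1 / 2) (by norm_num),
      βs (e / 2) (by linarith), H.hl.eventually_ge_atTop (24 / c₀), H.hl.eventually_ge_atTop l]
      with n un k1 k2 gt tr lk nr β1 β2 h1 h2 q hq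
    obtain ⟨h10, h20, -⟩ := k1
    have hc : 24 ≤ c₀ * (10 * A * h n) := by
      rw [div_le_iff₀ c0] at h1
      nlinarith
    have mem : ∀ s : C2, 6 * (10 * A * h n) ≤ ‖s.1‖ ^ 2 → ‖s.1‖ ^ 2 ≤ 10 * (10 * A * h n) →
        ‖s.2‖ ≤ β n → s ∈ An (2 * l) (L n / 2) (e / 2) := fun s s1 s2 s3 =>
      ⟨by linarith, by linarith [k2.1], by linarith⟩
    have law : ∀ j : ℤ, -1 ≤ j → j ≤ N n + 1 → EE (θ n) (hh n) (y n (sh q (j - 1)))
        (y n (sh q j)) (y n (sh q (j + 1))) = 0 := fun j j1 j2 => by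
      obtain ⟨⟨q1, q2, q3⟩, q4⟩ := hq
      rw [sub_zero] at q1
      rw [mem_ball_zero_iff] at q4
      exact (tr q ⟨by linarith, q2.le, by linarith, by linarith⟩ (by linarith) j j1 j2).2.2
    obtain ⟨⟨p, hp, p', hp', l1, l2⟩, ⟨s, hs, s', hs', r1, r2⟩⟩ := nr q hq
    refine ⟨fun x hx => ⟨fun k => by rw [(lk q hq x hx).1 k], fun k => by rw [(lk q hq x hx).2 k]⟩,
      ?_, ?_⟩
    · have g1 := gate_in gt.1 (Or.inl rfl) gt.2.2.1 h10 h20 β1.le c0 hc hq hp hp'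
      have g2 := gate_in gt.1 (Or.inl rfl) gt.2.2.1 h10 h20 β1.le c0 hc hq hp' hp
      have e2 : pr (y n) (sh q 1) = (y n q, y n (sh q 1)) := by
        rw [pr, sh_sh, add_neg_cancel, sh_zero]
      have w := law 0 (by omega) (by omega)
      push_cast at w
      rw [zero_sub, zero_add, sh_zero] at w
      simp only [l1, l2, e2] at g1 g2
      rw [e2]
      exact (un _ _ _ (mem _ g1.1 g1.2.1 g1.2.2.1) (mem _ g2.1 g2.2.1 g2.2.2.1) g1.2.2.2 w).1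
    · have xi : |(ξ n - N n).im| ≤ h n / 2 := by simpa using gt.2.2.1
      have g1 := gate_in gt.2.1 (Or.inr rfl) xi h10 h20 β1.le c0 hc hq hs hs'
      have g2 := gate_in gt.2.1 (Or.inr rfl) xi h10 h20 β1.le c0 hc hq hs' hs
      have e1 : pr (y n) (sh q (N n - 1)) = (y n (sh q (N n - 1 - 1)), y n (sh q (N n - 1))) := by
        rw [pr, sh_sh, sub_eq_add_neg (_ - 1)]
      have e2 : pr (y n) (sh q (N n)) = (y n (sh q (N n - 1)), y n (sh q (N n))) := by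
        rw [pr, sh_sh, sub_eq_add_neg]
      have w := law (N n - 1) (by omega) (by omega)
      push_cast at w
      rw [sub_add_cancel] at w
      simp only [r1, r2, e1, e2] at g1 g2
      rw [e1, e2]
      exact (un _ _ _ (mem _ g1.1 g1.2.1 g1.2.2.1) (mem _ g2.1 g2.2.1 g2.2.2.1) g1.2.2.2 w).2

end Vale.Agent.P097F.G
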